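import Vale.Agent.P248.Defs

open MeasureTheory Set Filter Topology Matrix
open scoped ENNReal ContDiff Real ComplexOrder

namespace Vale.Agent.P248

theorem mem_polar {n : ℕ} {K : Set (Fin n → ℝ)} {y : Fin n → ℝ} :
    y ∈ polar K ↔ ∀ x ∈ K, y ⬝ᵥ x ≤ 1 := Iff.rfl

/-- origin symmetric convex bodies -/
structure Body {n : ℕ} (K : Set (Fin n → ℝ)) : Prop where
  compact : IsCompact K
  convex : Convex ℝ K
  int : (interior K).Nonempty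
  neg : ∀ x ∈ K, -x ∈ K

/-- the Mahler constant -/
noncomputable def mahler (n : ℕ) : ℝ≥0∞ := ENNReal.ofReal (4 ^ n / (n.factorial : ℝ))

/-! ### The lens domain -/

/-- half height of the lens domain over the point s of the real axis -/
noncomputable def Lam (s : ℝ) : ℝ :=
  4 / π ^ 2 * ∫ θ in (0 : ℝ)..(π / 2 * (1 - |s|)), Real.log (Real.cos (θ / 2) / Real.sin (θ / 2))

/-- the lens domain -/
def Omega : Set ℂ := {w | |w.re| < 1 ∧ |w.im| < Lam w.re}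

/-- conformal map of the unit disc onto the lens, with its inverse -/
structure Conf (F g : ℂ → ℂ) : Prop where
  diffF : DifferentiableOn ℂ F (Metric.ball 0 1)
  zero : F 0 = 0
  formula : ∀ ζ ∈ Metric.ball (0 : ℂ) 1,
    ζ * deriv F ζ = (4 / π ^ 2 : ℝ) * Complex.log ((1 + ζ) / (1 - ζ))
  re_pos : ∀ ζ ∈ Metric.ball (0 : ℂ) 1, 0 < (deriv F ζ).re
  mapsF : MapsTo F (Metric.ball 0 1) Omega
  diffg : DifferentiableOn ℂ g Omega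
  mapsg : MapsTo g Omega (Metric.ball 0 1)
  left : ∀ ζ ∈ Metric.ball (0 : ℂ) 1, g (F ζ) = ζ
  right : ∀ w ∈ Omega, F (g w) = w
  conj : ∀ w ∈ Omega, g ((starRingEnd ℂ) w) = (starRingEnd ℂ) (g w)
  im_nonneg : ∀ w ∈ Omega, 0 ≤ w.im → 0 ≤ (g w).im

noncomputable def dx (φ : ℂ → ℝ) : ℂ → ℝ := fun w => fderiv ℝ φ w 1

noncomputable def dy (φ : ℂ → ℝ) : ℂ → ℝ := fun w => fderiv ℝ φ w Complex.I

noncomputable def lap (φ : ℂ → ℝ) : ℂ → ℝ := fun w => dx (dx φ) w + dy (dy φ) w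

/-- the vertical primitive of the positive part of the Laplacian -/
noncomputable def Psi (φ : ℂ → ℝ) (s t : ℝ) : ℝ := ∫ τ in (0 : ℝ)..t, max (lap φ ⟨s, τ⟩) 0

/-- the planar weight -/
structure Weight (η : ℝ) (k : ℕ) (φ : ℂ → ℝ) : Prop where
  pos : 1 ≤ k
  smooth : ContDiff ℝ ∞ φ
  nonneg : ∀ w, 0 ≤ φ w
  mem : ∀ w, φ w < 1 - η → w ∈ Omega
  lap_nonneg : ∀ w, φ w < 1 - η → 0 ≤ lap φ w
  logsub : ∀ w, φ w < 1 - η → dx φ w ^ 2 + dy φ w ^ 2 ≤ φ w * lap φ w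
  vanish : ∃ C δ : ℝ, 0 < δ ∧ ∀ w, ‖w‖ ≤ δ → φ w ≤ C * ‖w‖ ^ (2 * k)
  bound : ∀ s t : ℝ, φ ⟨s, t⟩ < 1 - η → |Psi φ s t| ≤ k * π * ((1 + η) * φ ⟨s, t⟩ + η)
  small : ∀ w : ℂ, |w.re| ≤ 1 → |w.im| + η ≤ Lam w.re → φ w ≤ η

/-! ### The complex Hessian -/

/-- complex n-space as pairs of real and imaginary parts -/
abbrev CX (n : ℕ) : Type := (Fin n → ℝ) × (Fin n → ℝ)

noncomputable def Dx {n : ℕ} (i : Fin n) (W : CX n → ℝ) : CX n → ℝ :=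
  fun z => fderiv ℝ W z (Pi.single i 1, 0)

noncomputable def Dy {n : ℕ} (i : Fin n) (W : CX n → ℝ) : CX n → ℝ :=
  fun z => fderiv ℝ W z (0, Pi.single i 1)

/-- four times the complex Hessian -/
noncomputable def levi {n : ℕ} (W : CX n → ℝ) (z : CX n) : Matrix (Fin n) (Fin n) ℂ :=
  Matrix.of fun i j => ((Dx i (Dx j W) z + Dy i (Dy j W) z : ℝ) : ℂ)
    + Complex.I * ((Dx i (Dy j W) z - Dy i (Dx j W) z : ℝ) : ℂ)

/-- twice the complex gradient -/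
noncomputable def dvec {n : ℕ} (W : CX n → ℝ) (z : CX n) : Fin n → ℂ :=
  fun i => ((Dx i W z : ℝ) : ℂ) - Complex.I * ((Dy i W z : ℝ) : ℂ)

/-! ### The covering relation -/

/-- p is reached over x, up to the error η, for the family of functionals a -/
def Reach {n : ℕ} {ι : Type} [Fintype ι] (a : ι → Fin n → ℝ) (η : ℝ) (x p : Fin n → ℝ) : Prop :=
  ∃ (y : Fin n → ℝ) (l m : ι → ℝ),
    (∀ j, |a j ⬝ᵥ x| < 1 ∧ |a j ⬝ᵥ y| < Lam (a j ⬝ᵥ x)) ∧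
    ∑ j, |l j| ≤ 1 + η ∧ ∑ j, |m j| ≤ η ∧
    (∀ j, 0 ≤ l j * (a j ⬝ᵥ y) ∧ (l j ≠ 0 → Lam (a j ⬝ᵥ x) < |a j ⬝ᵥ y| + η)) ∧
    p = ∑ j, (l j + m j) • a j

/-! ### Polytopes with plus or minus one pairing -/

/-- A and V are the vertex sets of two mutually polar symmetric polytopes, with pairing ±1 -/
structure CL {n : ℕ} (A V : Set (Fin n → ℝ)) : Prop where
  finA : A.Finite
  finV : V.Finite
  negA : ∀ a ∈ A, -a ∈ A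
  negV : ∀ v ∈ V, -v ∈ V
  pm : ∀ a ∈ A, ∀ v ∈ V, a ⬝ᵥ v = 1 ∨ a ⬝ᵥ v = -1
  hullA : convexHull ℝ A = polar V
  hullV : convexHull ℝ V = polar A

/-- two faces of the hull of A either meet or lie on opposite facets -/
def HProp {n : ℕ} (A V : Set (Fin n → ℝ)) : Prop :=
  ∀ W₁ W₂ : Set (Fin n → ℝ), W₁ ⊆ V → W₂ ⊆ V →
    (∃ a ∈ A, ∀ w ∈ W₁, a ⬝ᵥ w = 1) → (∃ a ∈ A, ∀ w ∈ W₂, a ⬝ᵥ w = 1) →
    (∃ a ∈ A, (∀ w ∈ W₁, a ⬝ᵥ w = 1) ∧ ∀ w ∈ W₂, a ⬝ᵥ w = 1) ∨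
      ∃ v ∈ V, (∀ a ∈ A, (∀ w ∈ W₁, a ⬝ᵥ w = 1) → a ⬝ᵥ v = 1) ∧
        ∀ a ∈ A, (∀ w ∈ W₂, a ⬝ᵥ w = 1) → a ⬝ᵥ v = -1

end Vale.Agent.P248
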