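import Vale.Agent.P248.CombC

open MeasureTheory Set Filter Topology Matrix
open scoped ENNReal ContDiff Real ComplexOrder Pointwise

namespace Vale.Agent.P248

/-- linear images of Hanner polytopes -/
def HI {n : ℕ} (K : Set (Fin n → ℝ)) : Prop :=
  ∃ H : Set (Fin n → ℝ), Hanner n H ∧ ∃ T : (Fin n → ℝ) ≃ₗ[ℝ] (Fin n → ℝ), K = T '' H

theorem Hanner.polar_hanner {n : ℕ} {H : Set (Fin n → ℝ)} (h : Hanner n H) :
    Hanner n (polar H) := by
  induction h with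
  | seg a ha =>
    have : polar {x : Fin 1 → ℝ | -a ≤ x 0 ∧ x 0 ≤ a} = {x | -a⁻¹ ≤ x 0 ∧ x 0 ≤ a⁻¹} := by
      ext y
      simp only [polar, mem_ofPred_eq, Fin.sum_univ_one]
      constructor
      · intro hy
        have h1 := hy (fun _ => a) ⟨by linarith, le_rfl⟩
        have h2 := hy (fun _ => -a) ⟨le_rfl, by linarith⟩
        constructor
        · rw [neg_le, inv_eq_one_div, le_div_iff₀ ha]; linarith
        · rw [inv_eq_one_div, le_div_iff₀ ha]; linarith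
      · rintro ⟨h1, h2⟩ x ⟨h3, h4⟩
        have h5 : |y 0| ≤ a⁻¹ := abs_le.2 ⟨h1, h2⟩
        have h6 : |x 0| ≤ a := abs_le.2 ⟨h3, h4⟩
        calc y 0 * x 0 ≤ |y 0 * x 0| := le_abs_self _
          _ = |y 0| * |x 0| := abs_mul _ _
          _ ≤ a⁻¹ * a := mul_le_mul h5 h6 (abs_nonneg _) (inv_pos.2 ha).le
          _ = 1 := inv_mul_cancel₀ ha.ne'
    rw [this]
    exact Hanner.seg _ (inv_pos.2 ha)
  | prod h₁ h₂ ih₁ ih₂ =>
    have := polar_bprod h₁.body h₂.body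
    unfold bprod at this
    rw [this]
    exact Hanner.hull ih₁ ih₂
  | hull h₁ h₂ ih₁ ih₂ =>
    have := polar_bhull h₁.body h₂.body
    unfold bhull at this
    rw [this]
    exact Hanner.prod ih₁ ih₂

theorem HI.polar_hi {n : ℕ} {K : Set (Fin n → ℝ)} (h : HI K) : HI (polar K) := by
  obtain ⟨H, hH, T, rfl⟩ := h
  set M := LinearMap.toMatrix' (T : (Fin n → ℝ) →ₗ[ℝ] (Fin n → ℝ)) with hM
  set N := LinearMap.toMatrix' (T.symm : (Fin n → ℝ) →ₗ[ℝ] (Fin n → ℝ)) with hN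
  have hMN : M * N = 1 := by
    rw [hM, hN, ← LinearMap.toMatrix'_comp]; simp
  have hNM : N * M = 1 := by
    rw [hM, hN, ← LinearMap.toMatrix'_comp]; simp
  have hT : ∀ x, T x = M *ᵥ x := fun x => by rw [hM, LinearMap.toMatrix'_mulVec]; rfl
  let S : (Fin n → ℝ) ≃ₗ[ℝ] (Fin n → ℝ) := LinearEquiv.ofLinearMap (toLin' Nᵀ) (toLin' Mᵀ)
    (by rw [← toLin'_mul, ← transpose_mul, hMN]; simp)
    (by rw [← toLin'_mul, ← transpose_mul, hNM]; simp)
  have hS : ∀ y, S y = y ᵥ* N := fun y => by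
    change toLin' Nᵀ y = _
    rw [toLin'_apply, mulVec_transpose]
  have key : ∀ y x, S y ⬝ᵥ T x = y ⬝ᵥ x := fun y x => by
    rw [hS, hT, ← dotProduct_mulVec, mulVec_mulVec, hNM, one_mulVec]
  refine ⟨polar H, hH.polar_hanner, S, ?_⟩
  ext y
  obtain ⟨y, rfl⟩ := S.surjective y
  rw [S.injective.mem_set_image, mem_polar, mem_polar]
  constructor
  · intro h x hx
    rw [← key]; exact h _ ⟨x, hx, rfl⟩
  · rintro h _ ⟨x, hx, rfl⟩
    rw [key]; exact h x hx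

theorem CL.hi_of_pair {n : ℕ} {A V : Set (Fin n → ℝ)} (h : CL A V) {c : Fin n → ℝ} (hc : c ∈ A)
    (hA : ∀ b ∈ A, b = c ∨ b = -c) : HI (convexHull ℝ V) := by
  obtain ⟨v, hv⟩ := h.symm.nonemptyA
  have hc0 : c ≠ 0 := by
    rintro rfl
    rcases h.pm _ hc v hv with h1 | h1 <;> simp at h1
  have hn : n = 1 := by
    have hinj : Function.Injective (dotProductBilin ℝ ℝ c : (Fin n → ℝ) →ₗ[ℝ] ℝ) := by
      rw [injective_iff_map_eq_zero]
      intro y hy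
      refine h.spanA fun a ha => ?_
      have hy' : c ⬝ᵥ y = 0 := hy
      rcases hA a ha with rfl | rfl
      · exact hy'
      · rw [neg_dotProduct, hy', neg_zero]
    have h1 := LinearMap.finrank_le_finrank_of_injective hinj
    simp only [Module.finrank_fintype_fun_eq_card, Fintype.card_fin, Module.finrank_self] at h1
    rcases Nat.eq_zero_or_pos n with rfl | h2
    · exact absurd (Subsingleton.elim _ _) hc0
    · omega
  subst hn
  have hc1 : c 0 ≠ 0 := fun h0 => hc0 (by ext i; rw [Subsingleton.elim i 0]; exact h0)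
  have hpos : 0 < |c 0| := abs_pos.2 hc1
  refine ⟨_, Hanner.seg |c 0|⁻¹ (inv_pos.2 hpos), LinearEquiv.refl ℝ _, ?_⟩
  rw [h.hullV]
  ext y
  rw [show ⇑(LinearEquiv.refl ℝ (Fin 1 → ℝ)) = id from rfl, image_id]
  simp only [mem_ofPred_eq, ← abs_le, mem_polar]
  rw [inv_eq_one_div, le_div_iff₀ hpos, ← abs_mul, abs_le]
  constructor
  · intro hy
    have h1 := hy c hc
    have h2 := hy _ (h.negA c hc)
    simp only [dotProduct, Fin.sum_univ_one, Pi.neg_apply] at h1 h2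
    constructor <;> linarith
  · rintro ⟨h1, h2⟩ x hx
    rcases hA x hx with rfl | rfl <;>
      simp only [dotProduct, Fin.sum_univ_one, Pi.neg_apply] <;> linarith

/-- coordinates adapted to a splitting -/
theorem CL.exists_coords {n : ℕ} {A V : Set (Fin n → ℝ)} (h : CL A V) (hs : VSplit A V) :
    ∃ (k l : ℕ) (M₁ : Matrix (Fin n) (Fin k) ℝ) (N₁ : Matrix (Fin k) (Fin n) ℝ)
      (M₂ : Matrix (Fin n) (Fin l) ℝ) (N₂ : Matrix (Fin l) (Fin n) ℝ) (A₁ A₂ : Set (Fin n → ℝ)),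
      k + l = n ∧ N₁ * M₁ = 1 ∧ N₂ * M₂ = 1 ∧ N₁ * M₂ = 0 ∧ N₂ * M₁ = 0 ∧
      A₁ ∪ A₂ = A ∧ A₁.Nonempty ∧ A₂.Nonempty ∧
      (∀ a ∈ A₁, M₁ *ᵥ (N₁ *ᵥ a) = a ∧ N₂ *ᵥ a = 0) ∧
      (∀ a ∈ A₂, M₂ *ᵥ (N₂ *ᵥ a) = a ∧ N₁ *ᵥ a = 0) ∧
      ∀ x ∈ V, ∃ z ∈ V, z ᵥ* M₁ = x ᵥ* M₁ ∧ (-z) ᵥ* M₂ = x ᵥ* M₂ ∧
        (∀ a ∈ A₁, a ⬝ᵥ z = a ⬝ᵥ x) ∧ ∀ a ∈ A₂, a ⬝ᵥ z = -(a ⬝ᵥ x) := by
  obtain ⟨A₁, A₂, hU, hne₁, hne₂, hz⟩ := hs
  have hz' : ∀ x ∈ V, ∃ z ∈ V, (∀ u ∈ Submodule.span ℝ A₁, u ⬝ᵥ z = u ⬝ᵥ x) ∧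
      ∀ u ∈ Submodule.span ℝ A₂, u ⬝ᵥ z = -(u ⬝ᵥ x) := by
    intro x hx
    obtain ⟨z, hzV, h1, h2⟩ := hz x hx (-x) (h.negV x hx)
    refine ⟨z, hzV, fun u hu => ?_, fun u hu => ?_⟩
    · induction hu using Submodule.span_induction with
      | mem a ha => exact h1 a ha
      | zero => simp
      | add a b _ _ ha hb => rw [add_dotProduct, add_dotProduct, ha, hb]
      | smul t a _ ha => rw [smul_dotProduct, smul_dotProduct, ha]
    · induction hu using Submodule.span_induction with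
      | mem a ha => rw [h2 a ha, dotProduct_neg]
      | zero => simp
      | add a b _ _ ha hb => rw [add_dotProduct, add_dotProduct, ha, hb, neg_add]
      | smul t a _ ha => rw [smul_dotProduct, smul_dotProduct, ha, smul_neg]
  have hc : IsCompl (Submodule.span ℝ A₁) (Submodule.span ℝ A₂) := by
    constructor
    · rw [Submodule.disjoint_def]
      intro u hu₁ hu₂
      refine h.symm.spanA fun x hx => ?_
      obtain ⟨z, -, h1, h2⟩ := hz' x hx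
      have e1 := h1 u hu₁
      have e2 := h2 u hu₂
      rw [dotProduct_comm]; linarith
    · rw [codisjoint_iff, ← Submodule.span_union, hU]
      by_contra hne
      obtain ⟨f, hf0, hf⟩ := Submodule.exists_le_ker_of_lt_top _ (lt_top_iff_ne_top.2 hne)
      have hfy : ∀ a : Fin n → ℝ, f a = a ⬝ᵥ fun i => f (Pi.single i 1) := fun a => by
        rw [LinearMap.pi_apply_eq_sum_univ]
        simp only [dotProduct, smul_eq_mul]
        refine Finset.sum_congr rfl fun i _ => ?_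
        congr 2
        ext j
        simp [Pi.single_apply, eq_comm]
      have hy := h.spanA (y := fun i => f (Pi.single i 1)) fun a ha => by
        rw [← hfy]; exact hf (Submodule.subset_span ha)
      exact hf0 (LinearMap.ext fun a => by rw [hfy, hy]; simp)
  set X₁ := Submodule.span ℝ A₁
  set X₂ := Submodule.span ℝ A₂
  let b₁ := (Module.finBasis ℝ X₁).equivFun
  let b₂ := (Module.finBasis ℝ X₂).equivFun
  let ι₁ := X₁.subtype ∘ₗ b₁.symm.toLinearMap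
  let ι₂ := X₂.subtype ∘ₗ b₂.symm.toLinearMap
  let ρ₁ := b₁.toLinearMap ∘ₗ X₁.projectionOnto X₂ hc
  let ρ₂ := b₂.toLinearMap ∘ₗ X₂.projectionOnto X₁ hc.symm
  have hvec : ∀ {k : ℕ} (ι : (Fin k → ℝ) →ₗ[ℝ] (Fin n → ℝ)) (x z : Fin n → ℝ),
      (∀ u, ι u ⬝ᵥ z = ι u ⬝ᵥ x) → z ᵥ* LinearMap.toMatrix' ι = x ᵥ* LinearMap.toMatrix' ι := by
    intro k ι x z hh
    ext j
    have := hh (Pi.single j 1)
    rw [← LinearMap.toMatrix'_mulVec, dotProduct_comm, dotProduct_comm _ x, dotProduct_mulVec,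
      dotProduct_mulVec] at this
    simpa using this
  refine ⟨_, _, LinearMap.toMatrix' ι₁, LinearMap.toMatrix' ρ₁, LinearMap.toMatrix' ι₂,
    LinearMap.toMatrix' ρ₂, A₁, A₂, ?_, ?_, ?_, ?_, ?_, hU, hne₁, hne₂, ?_, ?_, ?_⟩
  · rw [Submodule.finrank_add_eq_of_isCompl hc]; simp
  · rw [← LinearMap.toMatrix'_comp, ← LinearMap.toMatrix'_id]
    congr 1
    refine LinearMap.ext fun u => ?_
    simp [ι₁, ρ₁]
  · rw [← LinearMap.toMatrix'_comp, ← LinearMap.toMatrix'_id]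
    congr 1
    refine LinearMap.ext fun u => ?_
    simp [ι₂, ρ₂]
  · rw [← LinearMap.toMatrix'_comp, ← map_zero (LinearMap.toMatrix' (R := ℝ))]
    congr 1
    refine LinearMap.ext fun u => ?_
    simp [ι₂, ρ₁]
  · rw [← LinearMap.toMatrix'_comp, ← map_zero (LinearMap.toMatrix' (R := ℝ))]
    congr 1
    refine LinearMap.ext fun u => ?_
    simp [ι₁, ρ₂]
  · intro a ha
    have ha' : a ∈ X₁ := Submodule.subset_span ha
    simp only [LinearMap.toMatrix'_mulVec]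
    constructor
    · have := Submodule.projectionOnto_apply_left hc ⟨a, ha'⟩
      simp only at this
      simp [ι₁, ρ₁, this]
    · have := Submodule.projectionOnto_apply_of_mem_right hc.symm ha'
      simp [ρ₂, this]
  · intro a ha
    have ha' : a ∈ X₂ := Submodule.subset_span ha
    simp only [LinearMap.toMatrix'_mulVec]
    constructor
    · have := Submodule.projectionOnto_apply_left hc.symm ⟨a, ha'⟩
      simp only at this
      simp [ι₂, ρ₂, this]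
    · have := Submodule.projectionOnto_apply_of_mem_right hc ha'
      simp [ρ₁, this]
  · intro x hx
    obtain ⟨z, hzV, h1, h2⟩ := hz' x hx
    refine ⟨z, hzV, hvec _ _ _ fun u => h1 _ (b₁.symm u).2, hvec _ _ _ fun u => ?_,
      fun a ha => h1 a (Submodule.subset_span ha), fun a ha => h2 a (Submodule.subset_span ha)⟩
    rw [dotProduct_neg, neg_eq_iff_eq_neg]
    exact h2 _ (b₂.symm u).2

theorem CL.hi_of_split {n : ℕ} {A V : Set (Fin n → ℝ)} (h : CL A V) (hH : HProp A V)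
    (hs : VSplit A V)
    (ih : ∀ m < n, ∀ A V : Set (Fin m → ℝ), CL A V → HProp A V → HI (convexHull ℝ V)) :
    HI (convexHull ℝ V) := by
  obtain ⟨k, l, M₁, N₁, M₂, N₂, A₁, A₂, hkl, h11, h22, h12, h21, hU, ⟨a₁, ha₁⟩, ⟨a₂, ha₂⟩, hA₁,
    hA₂, hz⟩ := h.exists_coords hs
  subst hkl
  have hmem : ∀ a ∈ A, a ∈ A₁ ∨ a ∈ A₂ := fun a ha => by rw [← hU] at ha; exact ha
  have hs₁ : A₁ ⊆ A := hU ▸ subset_union_left
  have hs₂ : A₂ ⊆ A := hU ▸ subset_union_right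
  obtain ⟨c₁, p₁⟩ := h.component hH M₁ N₁ h11
    (fun a ha => (hmem a ha).imp (fun h => (hA₁ a h).1) fun h => (hA₂ a h).2)
    ⟨a₁, hs₁ ha₁, (hA₁ a₁ ha₁).1⟩ (fun x hx => by
      obtain ⟨z, hzV, h1, -, -, h4⟩ := hz x hx
      exact ⟨z, hzV, h1, fun a ha hne => h4 a ((hmem a ha).resolve_left fun h => hne (hA₁ a h).1)⟩)
  obtain ⟨c₂, p₂⟩ := h.component hH M₂ N₂ h22
    (fun a ha => (hmem a ha).symm.imp (fun h => (hA₂ a h).1) fun h => (hA₁ a h).2)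
    ⟨a₂, hs₂ ha₂, (hA₂ a₂ ha₂).1⟩ (fun x hx => by
      obtain ⟨z, hzV, -, h2, h3, -⟩ := hz x hx
      refine ⟨-z, h.negV z hzV, h2, fun a ha hne => ?_⟩
      rw [dotProduct_neg, h3 a ((hmem a ha).resolve_right fun h => hne (hA₂ a h).1)])
  have hpos : ∀ {m : ℕ} {A V : Set (Fin m → ℝ)}, CL A V → 0 < m := by
    intro m A V h
    rcases Nat.eq_zero_or_pos m with rfl | hm
    · obtain ⟨a, ha⟩ := h.nonemptyA
      obtain ⟨v, hv⟩ := h.symm.nonemptyA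
      rcases h.pm a ha v hv with h1 | h1 <;> simp [dotProduct] at h1
    · exact hm
  obtain ⟨H₁, hH₁, T₁, e₁⟩ := ih k (by have := hpos c₂; omega) _ _ c₁ p₁
  obtain ⟨H₂, hH₂, T₂, e₂⟩ := ih l (by have := hpos c₁; omega) _ _ c₂ p₂
  rw [c₁.hullV] at e₁
  rw [c₂.hullV] at e₂
  let T₀ : (Fin (k + l) → ℝ) →ₗ[ℝ] (Fin (k + l) → ℝ) :=
    toLin' N₁ᵀ ∘ₗ T₁.toLinearMap ∘ₗ LinearMap.funLeft ℝ ℝ (Fin.castAdd l) +
      toLin' N₂ᵀ ∘ₗ T₂.toLinearMap ∘ₗ LinearMap.funLeft ℝ ℝ (Fin.natAdd k)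
  have hT₀ : ∀ x₁ x₂, T₀ (Fin.append x₁ x₂) = T₁ x₁ ᵥ* N₁ + T₂ x₂ ᵥ* N₂ := by
    intro x₁ x₂
    have e1 : LinearMap.funLeft ℝ ℝ (Fin.castAdd l) (Fin.append x₁ x₂) = x₁ := by
      ext i; simp [LinearMap.funLeft_apply]
    have e2 : LinearMap.funLeft ℝ ℝ (Fin.natAdd k) (Fin.append x₁ x₂) = x₂ := by
      ext i; simp [LinearMap.funLeft_apply]
    simp only [T₀, LinearMap.add_apply, LinearMap.comp_apply, e1, e2, toLin'_apply,
      mulVec_transpose, LinearEquiv.coe_coe]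
  have happ : ∀ x : Fin (k + l) → ℝ, ∃ x₁ x₂, x = Fin.append x₁ x₂ := fun x =>
    ⟨fun i => x (Fin.castAdd l i), fun i => x (Fin.natAdd k i), (Fin.append_castAdd_natAdd).symm⟩
  have d₁ : ∀ x₁ x₂ u, T₀ (Fin.append x₁ x₂) ⬝ᵥ (M₁ *ᵥ u) = T₁ x₁ ⬝ᵥ u := by
    intro x₁ x₂ u
    rw [hT₀, add_dotProduct, ← dotProduct_mulVec, ← dotProduct_mulVec, mulVec_mulVec,
      mulVec_mulVec, h11, h21]
    simp
  have d₂ : ∀ x₁ x₂ u, T₀ (Fin.append x₁ x₂) ⬝ᵥ (M₂ *ᵥ u) = T₂ x₂ ⬝ᵥ u := by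
    intro x₁ x₂ u
    rw [hT₀, add_dotProduct, ← dotProduct_mulVec, ← dotProduct_mulVec, mulVec_mulVec,
      mulVec_mulVec, h12, h22]
    simp
  have hinj : Function.Injective T₀ := by
    rw [injective_iff_map_eq_zero]
    intro x hx
    obtain ⟨x₁, x₂, rfl⟩ := happ x
    have e1 := d₁ x₁ x₂ (T₁ x₁)
    have e2 := d₂ x₁ x₂ (T₂ x₂)
    rw [hx, zero_dotProduct, eq_comm, dotProduct_self_eq_zero, LinearEquiv.map_eq_zero_iff] at e1 e2
    subst e1 e2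
    ext i
    refine Fin.addCases (fun i => ?_) (fun i => ?_) i <;> simp
  refine ⟨_, Hanner.prod hH₁ hH₂, LinearEquiv.ofInjectiveEndo T₀ hinj, ?_⟩
  rw [h.hullV]
  ext y
  obtain ⟨x, rfl⟩ := (LinearEquiv.ofInjectiveEndo T₀ hinj).surjective y
  rw [(LinearEquiv.ofInjectiveEndo T₀ hinj).injective.mem_set_image]
  obtain ⟨x₁, x₂, rfl⟩ := happ x
  change T₀ (Fin.append x₁ x₂) ∈ polar A ↔ _
  constructor
  · intro hy
    have m₁ : T₁ x₁ ∈ T₁ '' H₁ := by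
      rw [← e₁]
      exact mem_polar.2 fun u hu => by rw [← d₁ x₁ x₂]; exact mem_polar.1 hy _ hu
    have m₂ : T₂ x₂ ∈ T₂ '' H₂ := by
      rw [← e₂]
      exact mem_polar.2 fun u hu => by rw [← d₂ x₁ x₂]; exact mem_polar.1 hy _ hu
    exact ⟨x₁, T₁.injective.mem_set_image.1 m₁, x₂, T₂.injective.mem_set_image.1 m₂, rfl⟩
  · rintro ⟨y₁, hy₁, y₂, hy₂, hy⟩
    rw [hy]
    have m₁ : T₁ y₁ ∈ polar {a | M₁ *ᵥ a ∈ A} := e₁ ▸ ⟨y₁, hy₁, rfl⟩
    have m₂ : T₂ y₂ ∈ polar {a | M₂ *ᵥ a ∈ A} := e₂ ▸ ⟨y₂, hy₂, rfl⟩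
    refine mem_polar.2 fun a ha => ?_
    rcases hmem a ha with h1 | h1
    · rw [← (hA₁ a h1).1, d₁]
      exact mem_polar.1 m₁ _ (by change M₁ *ᵥ (N₁ *ᵥ a) ∈ A; rwa [(hA₁ a h1).1])
    · rw [← (hA₂ a h1).1, d₂]
      exact mem_polar.1 m₂ _ (by change M₂ *ᵥ (N₂ *ᵥ a) ∈ A; rwa [(hA₂ a h1).1])

theorem CL.hanner {n : ℕ} {A V : Set (Fin n → ℝ)} (h : CL A V) (hH : HProp A V) :
    ∃ H : Set (Fin n → ℝ), Hanner n H ∧
      ∃ T : (Fin n → ℝ) ≃ₗ[ℝ] (Fin n → ℝ), convexHull ℝ V = T '' H := by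
  change HI (convexHull ℝ V)
  induction n using Nat.strong_induction_on with
  | _ n ih =>
    obtain ⟨c, hc⟩ := h.nonemptyA
    by_cases hA : ∀ b ∈ A, b = c ∨ b = -c
    · exact h.hi_of_pair hc hA
    push Not at hA
    obtain ⟨b, hb, h1, h2⟩ := hA
    rcases h.vsplit_or hH hb hc h1 h2 with hs | hs
    · exact h.hi_of_split hH hs fun m hm A V h hH => ih m hm h hH
    · have := (h.symm.hi_of_split (h.hProp_symm hH) hs fun m hm A V h hH => ih m hm h hH).polar_hi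
      rwa [h.symm.polar_hullV] at this

end Vale.Agent.P248
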