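import Mathlib

namespace Vale.Agent.P248

/-- an abstract sign pairing between the vertices of two polar polytopes -/
structure PS (α β : Type) where
  e : α → β → Prop
  na : α → α
  nb : β → β
  e_na : ∀ a v, e (na a) v ↔ ¬ e a v
  e_nb : ∀ a v, e a (nb v) ↔ ¬ e a v
  sepa : ∀ a a', (∀ v, e a v ↔ e a' v) → a = a'
  sepb : ∀ v v', (∀ a, e a v ↔ e a v') → v = v'
  anta : ∀ a b d, (∀ v, e a v → e b v → e d v) → ∃ d', ∀ v,
    ((e a v ↔ e d v) ∧ (e b v ↔ e d' v)) ∨ ((e a v ↔ e d' v) ∧ (e b v ↔ e d v))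
  antb : ∀ x y z, (∀ a, e a x → e a y → e a z) → ∃ z', ∀ a,
    ((e a x ↔ e a z) ∧ (e a y ↔ e a z')) ∨ ((e a x ↔ e a z') ∧ (e a y ↔ e a z))
  hp : ∀ W₁ W₂ : Set β, (∃ a, ∀ w ∈ W₁, e a w) → (∃ a, ∀ w ∈ W₂, e a w) →
    (∃ a, (∀ w ∈ W₁, e a w) ∧ ∀ w ∈ W₂, e a w) ∨
      ∃ v, (∀ a, (∀ w ∈ W₁, e a w) → e a v) ∧ ∀ a, (∀ w ∈ W₂, e a w) → ¬ e a v

namespace PS

variable {α β : Type} (P : PS α β)

theorem na_na (a : α) : P.na (P.na a) = a :=
  P.sepa _ _ fun v => by simp [P.e_na]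

theorem nb_nb (v : β) : P.nb (P.nb v) = v :=
  P.sepb _ _ fun a => by simp [P.e_nb]

/-- the dual property -/
theorem hp_dual (S₁ S₂ : Set α) (h₁ : ∃ v, ∀ s ∈ S₁, P.e s v) (h₂ : ∃ v, ∀ s ∈ S₂, P.e s v) :
    (∃ v, (∀ s ∈ S₁, P.e s v) ∧ ∀ s ∈ S₂, P.e s v) ∨
      ∃ a, (∀ v, (∀ s ∈ S₁, P.e s v) → P.e a v) ∧ ∀ v, (∀ s ∈ S₂, P.e s v) → ¬ P.e a v := by
  rcases S₁.eq_empty_or_nonempty with rfl | ⟨s₁, hs₁⟩
  · obtain ⟨v, hv⟩ := h₂
    exact Or.inl ⟨v, by simp, hv⟩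
  rcases S₂.eq_empty_or_nonempty with rfl | ⟨s₂, hs₂⟩
  · obtain ⟨v, hv⟩ := h₁
    exact Or.inl ⟨v, hv, by simp⟩
  rcases P.hp {v | ∀ s ∈ S₁, P.e s v} {v | ∀ s ∈ S₂, ¬ P.e s v} ⟨s₁, fun w hw => hw s₁ hs₁⟩
    ⟨P.na s₂, fun w hw => (P.e_na _ _).2 (hw s₂ hs₂)⟩ with ⟨a, ha₁, ha₂⟩ | ⟨v, hv₁, hv₂⟩
  · refine Or.inr ⟨a, fun v hv => ha₁ v hv, fun v hv => ?_⟩
    have := ha₂ (P.nb v) (fun s hs => by simpa [P.e_nb] using hv s hs)
    exact (P.e_nb _ _).1 this
  · refine Or.inl ⟨v, fun s hs => hv₁ s fun w hw => hw s hs, fun s hs => ?_⟩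
    have := hv₂ (P.na s) (fun w hw => (P.e_na _ _).2 (hw s hs))
    simpa [P.e_na] using this

/-- the dual system -/
def dual : PS β α where
  e := fun v a => P.e a v
  na := P.nb
  nb := P.na
  e_na := fun v a => P.e_nb a v
  e_nb := fun v a => P.e_na a v
  sepa := P.sepb
  sepb := P.sepa
  anta := P.antb
  antb := P.anta
  hp := P.hp_dual

/-- d lies in the face generated by a and b -/
def Cl (a b d : α) : Prop := ∀ v, P.e a v → P.e b v → P.e d v

/-- a + b = d + d' -/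
def Rect (a b d d' : α) : Prop := ∀ v,
  ((P.e a v ↔ P.e d v) ∧ (P.e b v ↔ P.e d' v)) ∨ ((P.e a v ↔ P.e d' v) ∧ (P.e b v ↔ P.e d v))

/-- a and b span an edge -/
def Edge (a b : α) : Prop := ∀ d, P.Cl a b d → d = a ∨ d = b

/-- a and b are orthogonal in the l1 sense -/
def Perp (a b : α) : Prop := b ≠ a ∧ b ≠ P.na a ∧ P.Edge a b ∧ P.Edge a (P.na b)

variable {P}

theorem Cl.neg {a b d : α} (h : P.Cl a b d) : P.Cl (P.na a) (P.na b) (P.na d) := by
  intro v ha hb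
  have := h (P.nb v)
  simp only [P.e_na, P.e_nb] at *
  exact this ha hb

theorem Cl.symm {a b d : α} (h : P.Cl a b d) : P.Cl b a d := fun v ha hb => h v hb ha

theorem na_inj {a b : α} (h : P.na a = P.na b) : a = b := by
  rw [← P.na_na a, h, P.na_na]

theorem Edge.symm {a b : α} (h : P.Edge a b) : P.Edge b a := fun d hd => (h d hd.symm).symm

theorem Edge.neg {a b : α} (h : P.Edge a b) : P.Edge (P.na a) (P.na b) := by
  intro d hd
  have := hd.neg
  rw [P.na_na, P.na_na] at this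
  rcases h _ this with h1 | h1
  · left; rw [← h1, P.na_na]
  · right; rw [← h1, P.na_na]

theorem Perp.neg_right {a b : α} (h : P.Perp a b) : P.Perp a (P.na b) := by
  refine ⟨fun h1 => h.2.1 (by rw [← h1, P.na_na]), fun h1 => h.1 (na_inj h1), h.2.2.2, ?_⟩
  rw [P.na_na]; exact h.2.2.1

theorem Perp.symm {a b : α} (h : P.Perp a b) : P.Perp b a := by
  refine ⟨fun h1 => h.1 h1.symm, fun h1 => h.2.1 (by rw [h1, P.na_na]), h.2.2.1.symm, ?_⟩
  have := h.2.2.2.neg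
  rw [P.na_na] at this
  exact this.symm

theorem Perp.neg_left {a b : α} (h : P.Perp a b) : P.Perp (P.na a) b := h.symm.neg_right.symm

theorem perp_neg_left {a b : α} : P.Perp (P.na a) b ↔ P.Perp a b :=
  ⟨fun h => by simpa [P.na_na] using h.neg_left, Perp.neg_left⟩

theorem not_perp_self (a : α) : ¬ P.Perp a a := fun h => h.1 rfl

/-- two faces generated by two points -/
theorem hp_two (a b c d : α) :
    (∃ g, P.Cl a b g ∧ P.Cl c d g) ∨ ∃ v, P.e a v ∧ P.e b v ∧ ¬ P.e c v ∧ ¬ P.e d v := by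
  rcases P.hp {v | P.e a v ∧ P.e b v} {v | P.e c v ∧ P.e d v} ⟨a, fun w hw => hw.1⟩
    ⟨c, fun w hw => hw.1⟩ with ⟨g, h₁, h₂⟩ | ⟨v, h₁, h₂⟩
  · exact Or.inl ⟨g, fun v ha hb => h₁ v ⟨ha, hb⟩, fun v ha hb => h₂ v ⟨ha, hb⟩⟩
  · exact Or.inr ⟨v, h₁ a fun w hw => hw.1, h₁ b fun w hw => hw.2, h₂ c fun w hw => hw.1,
      h₂ d fun w hw => hw.2⟩

/-- the grid lemma -/
theorem grid {a b c d e d' e' : α} (h : P.Rect a c d e) (h' : P.Rect b c d' e') :
    ∃ g, P.Cl d (P.na e') g ∧ P.Cl a (P.na b) g := by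
  rcases hp_two (P := P) d (P.na e') a (P.na b) with hg | ⟨v, h1, h2, h3, h4⟩
  · exact hg
  · exfalso
    have := h v
    have := h' v
    simp only [P.e_na] at *
    tauto

theorem Rect.swap {a b d d' : α} (h : P.Rect a b d d') : P.Rect a b d' d := fun v => (h v).symm

/-- a nontrivial splitting of a relative to c has a cell inside b -/
theorem inner_cell {a b c d e : α} (hab : P.Perp a b) (h : P.Rect a c d e) (hda : d ≠ a)
    (hac : a ≠ P.na c) (hbc : b ≠ c) : ∃ v, P.e c v ∧ ¬ P.e e v ∧ ¬ P.e b v := by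
  by_contra hcon
  push Not at hcon
  have hcl : P.Cl a b d := by
    intro v ha hb
    have h1 := h v
    have h2 := hcon (P.nb v)
    have h3 := h (P.nb v)
    simp only [P.e_nb] at *
    tauto
  rcases hab.2.2.1 d hcl with h1 | h1
  · exact hda h1
  · subst h1
    have hcl2 : P.Cl a (P.na d) (P.na c) := by
      intro v ha hb
      have h1 := h v
      simp only [P.e_na] at *
      tauto
    rcases hab.2.2.2 _ hcl2 with h2 | h2
    · exact hac h2.symm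
    · exact hbc (na_inj h2).symm

theorem Rect.ne {a c d e : α} (h : P.Rect a c d e) (hdc : d ≠ c) : e ≠ a := by
  rintro rfl
  exact hdc (P.sepa _ _ fun v => by have := h v; tauto)

theorem diag_empty {a b c d e d' e' : α} (hab : P.Perp a b) (h : P.Rect a c d e)
    (h' : P.Rect b c d' e') :
    (∀ v, P.e c v → ¬ P.e e v → P.e e' v) ∨ (∀ v, P.e c v → ¬ P.e d v → P.e d' v) := by
  obtain ⟨g, hg1, hg2⟩ := grid h h'
  rcases hab.2.2.2 g hg2 with rfl | rfl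
  · left
    intro v hc he
    have h1 := h v
    have h2 := hg1 v
    simp only [P.e_na] at *
    tauto
  · right
    intro v hc hd
    have h1 := h' v
    have h2 := hg1 (P.nb v)
    simp only [P.e_na, P.e_nb] at *
    tauto

theorem trans_aux {a b c : α} (hab : P.Perp a b) (hac : ¬ P.Edge a c) (hbc : ¬ P.Edge b c)
    (h1 : a ≠ c) (h2 : a ≠ P.na c) (h3 : b ≠ c) (h4 : b ≠ P.na c) : False := by
  unfold Edge at hac hbc
  push Not at hac hbc
  obtain ⟨d, hd, hda, hdc⟩ := hac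
  obtain ⟨d', hd', hdb, hdc'⟩ := hbc
  obtain ⟨e, he⟩ := P.anta a c d hd
  obtain ⟨e', he'⟩ := P.anta b c d' hd'
  have he : P.Rect a c d e := he
  have he' : P.Rect b c d' e' := he'
  obtain ⟨v₁, hv₁⟩ := inner_cell hab he hda h2 h3
  obtain ⟨v₂, hv₂⟩ := inner_cell hab he.swap (he.ne hdc) h2 h3
  obtain ⟨v₃, hv₃⟩ := inner_cell hab.symm he' hdb h4 h1
  obtain ⟨v₄, hv₄⟩ := inner_cell hab.symm he'.swap (he'.ne hdc') h4 h1
  rcases diag_empty hab he he' with p | p <;> rcases diag_empty hab he he'.swap with q | q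
  · have := p v₁; have := q v₁; have := he' v₁; tauto
  · have := p v₃; have := q v₃; have := he v₃; tauto
  · have := p v₄; have := q v₄; have := he v₄; tauto
  · have := p v₂; have := q v₂; have := he' v₂; tauto

/-- not being orthogonal is transitive -/
theorem Perp.trans {a b c : α} (hab : P.Perp a b) (hca : ¬ P.Perp c a) : P.Perp c b := by
  by_contra hcb
  by_cases h1 : a = c
  · subst h1; exact hcb hab
  by_cases h2 : a = P.na c
  · subst h2; exact hcb (perp_neg_left.1 hab)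
  by_cases h3 : b = c
  · subst h3; exact hca hab.symm
  by_cases h4 : b = P.na c
  · subst h4; exact hca (perp_neg_left.1 hab.symm)
  have h1' : P.na a ≠ c := fun h => h2 (by rw [← h, P.na_na])
  have h2' : P.na a ≠ P.na c := fun h => h1 (na_inj h)
  have h3' : P.na b ≠ c := fun h => h4 (by rw [← h, P.na_na])
  have h4' : P.na b ≠ P.na c := fun h => h3 (na_inj h)
  have ha : ¬ P.Edge a c ∨ ¬ P.Edge (P.na a) c := by
    by_contra hh
    push Not at hh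
    exact hca ⟨h1, h2, hh.1.symm, hh.2.symm⟩
  have hb : ¬ P.Edge b c ∨ ¬ P.Edge (P.na b) c := by
    by_contra hh
    push Not at hh
    exact hcb ⟨h3, h4, hh.1.symm, hh.2.symm⟩
  rcases ha with ha | ha <;> rcases hb with hb | hb
  · exact trans_aux hab ha hb h1 h2 h3 h4
  · exact trans_aux hab.neg_right ha hb h1 h2 h3' h4'
  · exact trans_aux hab.neg_left ha hb h1' h2' h3 h4
  · exact trans_aux hab.neg_left.neg_right ha hb h1' h2' h3' h4'

/-- a point orthogonal to all points of a subset of a facet is not in the face they generate -/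
theorem not_mem_cl [Finite α] {c : α} {x : β} (S : Set α) (hS : ∀ s ∈ S, P.e s x)
    (hc : ∀ s ∈ S, P.Perp c s) : ∃ v, (∀ s ∈ S, P.e s v) ∧ ¬ P.e c v := by
  induction S, Set.toFinite S using Set.Finite.induction_on with
  | empty =>
    by_cases h : P.e c x
    · exact ⟨P.nb x, by simp, by simpa [P.e_nb] using h⟩
    · exact ⟨x, by simp, h⟩
  | @insert s S hs _ ih =>
    have hcs := hc s (Set.mem_insert _ _)
    obtain ⟨v₀, hv₀, hv₀c⟩ := ih (fun t ht => hS t (Set.mem_insert_of_mem _ ht))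
      (fun t ht => hc t (Set.mem_insert_of_mem _ ht))
    rcases S.eq_empty_or_nonempty with rfl | ⟨s₀, hs₀⟩
    · by_contra hcon
      push Not at hcon
      refine hcs.1 (P.sepa _ _ fun v => ⟨fun h => hcon v (by simpa using h), fun h => ?_⟩)
      by_contra h'
      have := hcon (P.nb v) (by simpa [P.e_nb] using h')
      exact (P.e_nb _ _).1 this h
    rcases P.hp {v | ∀ t ∈ S, P.e t v} {v | P.e c v ∧ P.e (P.na s) v}
      ⟨s₀, fun w hw => hw s₀ hs₀⟩ ⟨c, fun w hw => hw.1⟩ with ⟨g, h₁, h₂⟩ | ⟨v, h₁, h₂⟩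
    · exfalso
      rcases hcs.2.2.2 g (fun v ha hb => h₂ v ⟨ha, hb⟩) with rfl | rfl
      · exact hv₀c (h₁ v₀ hv₀)
      · exact (P.e_na _ _).1 (h₁ x fun t ht => hS t (Set.mem_insert_of_mem _ ht))
          (hS s (Set.mem_insert _ _))
    · refine ⟨v, ?_, h₂ c fun w hw => hw.1⟩
      rintro t (rfl | ht)
      · have := h₂ (P.na t) fun w hw => hw.2
        simpa [P.e_na] using this
      · exact h₁ t fun w hw => hw t ht

variable (P) in
/-- the vertex set splits as an l1 sum -/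
def Split : Prop :=
  ∃ A' : Set α, (∃ a, a ∈ A') ∧ (∃ a, a ∉ A') ∧ (∀ a, P.na a ∈ A' ↔ a ∈ A') ∧
    ∀ x y, ∃ z, (∀ a ∈ A', P.e a z ↔ P.e a x) ∧ ∀ a, a ∉ A' → (P.e a z ↔ P.e a y)

theorem Perp.split [Finite α] {a₀ b₀ : α} (h : P.Perp a₀ b₀) : P.Split := by
  have hneg : ∀ a, P.na a ∈ {a | ¬ P.Perp a a₀} ↔ a ∈ {a | ¬ P.Perp a a₀} := fun a => by
    simp only [Set.mem_ofPred_eq, perp_neg_left]
  refine ⟨{a | ¬ P.Perp a a₀}, ⟨a₀, not_perp_self a₀⟩, ⟨b₀, fun h' => h' h.symm⟩, hneg,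
    fun x y => ?_⟩
  have hx : ∃ a, ¬ P.Perp a a₀ ∧ P.e a x := by
    by_cases h1 : P.e a₀ x
    · exact ⟨a₀, not_perp_self a₀, h1⟩
    · exact ⟨P.na a₀, fun h2 => not_perp_self a₀ (perp_neg_left.1 h2), (P.e_na _ _).2 h1⟩
  have hy : ∃ a, P.Perp a a₀ ∧ ¬ P.e a y := by
    by_cases h1 : P.e b₀ y
    · exact ⟨P.na b₀, h.symm.neg_left, by simpa [P.e_na] using h1⟩
    · exact ⟨b₀, h.symm, h1⟩
  obtain ⟨a₁, ha₁, ha₁x⟩ := hx
  obtain ⟨b₁, hb₁, hb₁y⟩ := hy
  rcases P.hp {v | ∀ s, ¬ P.Perp s a₀ ∧ P.e s x → P.e s v}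
    {v | ∀ s, P.Perp s a₀ ∧ ¬ P.e s y → P.e s v} ⟨a₁, fun w hw => hw a₁ ⟨ha₁, ha₁x⟩⟩
    ⟨b₁, fun w hw => hw b₁ ⟨hb₁, hb₁y⟩⟩ with ⟨g, h₁, h₂⟩ | ⟨z, h₁, h₂⟩
  · exfalso
    by_cases hg : P.Perp g a₀
    · obtain ⟨v, hv, hgv⟩ := not_mem_cl (c := g) (x := x) {s | ¬ P.Perp s a₀ ∧ P.e s x}
        (fun s hs => hs.2) (fun s hs => (hg.symm.trans hs.1).symm)
      exact hgv (h₁ v hv)
    · obtain ⟨v, hv, hgv⟩ := not_mem_cl (c := g) (x := P.nb y) {s | P.Perp s a₀ ∧ ¬ P.e s y}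
        (fun s hs => (P.e_nb _ _).2 hs.2) (fun s hs => hs.1.symm.trans hg)
      exact hgv (h₂ v hv)
  · refine ⟨z, fun a ha => ⟨fun haz => ?_, fun hax => h₁ a fun w hw => hw a ⟨ha, hax⟩⟩,
      fun a ha => ⟨fun haz => ?_, fun hay => ?_⟩⟩
    · by_contra hax
      have := h₁ (P.na a) fun w hw => hw _ ⟨(hneg a).2 ha, (P.e_na _ _).2 hax⟩
      exact (P.e_na _ _).1 this haz
    · by_contra hay
      have ha' : P.Perp a a₀ := by simpa using ha
      exact h₂ a (fun w hw => hw a ⟨ha', hay⟩) haz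
    · have ha' : P.Perp a a₀ := by simpa using ha
      have := h₂ (P.na a) fun w hw => hw _ ⟨ha'.neg_left, by simpa [P.e_na] using hay⟩
      simpa [P.e_na] using this

end PS

end Vale.Agent.P248
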