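import Vale.Agent.P248.CombA

namespace Vale.Agent.P248

namespace PS

variable {α β : Type} {P : PS α β}

theorem exists_mem {a c : α} (h : a ≠ c) : ∃ v, P.e c v ∧ ¬ P.e a v := by
  by_contra hcon
  push Not at hcon
  refine h (P.sepa _ _ fun v => ⟨fun h1 => ?_, hcon v⟩)
  by_contra h2
  have := hcon (P.nb v) ((P.e_nb _ _).2 h2)
  exact (P.e_nb _ _).1 this h1

/-- every point of a member lies in an atom inside the member -/
theorem exists_atom [Finite β] (c : α) (x : β) (hx : P.e c x) (a : α) (ha : ¬ P.e a x) :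
    ∃ t, ¬ P.e t x ∧ P.Cl a c t ∧ P.Edge t c := by
  classical
  induction h : {v | P.e c v ∧ ¬ P.e a v}.ncard using Nat.strong_induction_on generalizing a with
  | _ N ih =>
    by_cases hE : P.Edge a c
    · exact ⟨a, ha, fun v h1 _ => h1, hE⟩
    unfold Edge at hE
    push Not at hE
    obtain ⟨d, hd, hda, hdc⟩ := hE
    obtain ⟨d', hd'⟩ := P.anta a c d hd
    have hd' : P.Rect a c d d' := hd'
    have key : ∀ f f', P.Rect a c f f' → f' ≠ c → ¬ P.e f x →
        ∃ t, ¬ P.e t x ∧ P.Cl a c t ∧ P.Edge t c := by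
      intro f f' hf hf' hfx
      obtain ⟨w, hw1, hw2⟩ := exists_mem (P := P) hf'
      have hlt : {v | P.e c v ∧ ¬ P.e f v}.ncard < N := by
        rw [← h]
        refine Set.ncard_lt_ncard ⟨fun v hv => ?_, fun hsub => ?_⟩ (Set.toFinite _)
        · have := hf v
          simp only [Set.mem_ofPred_eq] at hv ⊢
          tauto
        · have h1 := hf w
          have h2 := @hsub w
          simp only [Set.mem_ofPred_eq] at h2
          tauto
      obtain ⟨t, ht1, ht2, ht3⟩ := ih _ hlt f hfx rfl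
      refine ⟨t, ht1, fun v h1 h2 => ht2 v ?_ h2, ht3⟩
      have := hf v
      tauto
    have hd'c : d' ≠ c := by
      rintro rfl
      exact hda (P.sepa _ _ fun v => by have := hd' v; tauto)
    by_cases hdx : P.e d x
    · exact key d' d hd'.swap hdc (by have := hd' x; tauto)
    · exact key d d' hd' hd'c hdx

/-- the complement of an atom splits -/
theorem split_compl (hA : ∀ a b, ¬ P.Perp a b) {c t : α} (h1 : t ≠ c) (h2 : t ≠ P.na c)
    (ht : P.Edge t c) : ∃ s s', P.Rect (P.na t) c s s' ∧ s ≠ c ∧ s' ≠ c := by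
  have hE : ¬ P.Edge (P.na t) c := fun h => hA c t ⟨h1, h2, ht.symm, h.symm⟩
  unfold Edge at hE
  push Not at hE
  obtain ⟨d, hd, hda, hdc⟩ := hE
  obtain ⟨d', hd'⟩ := P.anta _ c d hd
  refine ⟨d, d', hd', hdc, ?_⟩
  rintro rfl
  exact hda (P.sepa _ _ fun v => by have := hd' v; tauto)

variable (P) in
/-- the members attached to g and s are disjoint -/
def Dis (c g s : α) : Prop := ∀ v, P.e c v → ¬ P.e s v → P.e g v

variable (P) in
/-- no member disjoint from s separates x and z -/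
def Sim (c s : α) (x z : β) : Prop := ∀ g, P.Dis c g s → (P.e g x ↔ P.e g z)

variable (P) in
/-- x + p' = z + p -/
def Rel (x p' z p : β) : Prop := ∀ a,
  ((P.e a x ↔ P.e a z) ∧ (P.e a p' ↔ P.e a p)) ∨ ((P.e a x ↔ P.e a p) ∧ (P.e a p' ↔ P.e a z))

theorem Dis.symm {c g s : α} (h : P.Dis c g s) : P.Dis c s g := fun v h1 h2 => by
  have := h v; tauto

theorem dis_na (c s : α) : P.Dis c (P.na s) s := fun _ _ h => (P.e_na _ _).2 h

theorem Sim.rel {c s : α} {x z : β} (h : P.Sim c s x z) (hs : s ≠ c) (hx : P.e c x)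
    (hz : P.e c z) (hsx : P.e s x) :
    ∃ p p', P.e c p ∧ ¬ P.e s p ∧ P.e c p' ∧ ¬ P.e s p' ∧ P.Rel x p' z p := by
  have hsz : P.e s z := by
    have := h _ (dis_na c s)
    simp only [P.e_na] at this
    tauto
  obtain ⟨w, hw1, hw2⟩ := exists_mem (P := P) hs
  rcases P.hp_dual {a | P.e a x ∧ P.e a (P.nb z)} {c, P.na s} ⟨x, fun a ha => ha.1⟩
    ⟨w, by simp [hw1, P.e_na, hw2]⟩ with ⟨p, h1, h2⟩ | ⟨a, h1, h2⟩
  · have hcp : P.e c p := h2 c (by simp)
    have hsp : ¬ P.e s p := (P.e_na _ _).1 (h2 _ (by simp))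
    obtain ⟨q, hq⟩ := P.antb x (P.nb z) p (fun a ha hb => h1 a ⟨ha, hb⟩)
    refine ⟨p, P.nb q, hcp, hsp, ?_, ?_, fun a => ?_⟩
    · have := hq c
      simp only [P.e_nb] at *
      tauto
    · have := hq s
      simp only [P.e_nb] at *
      tauto
    · have := hq a
      simp only [P.e_nb] at *
      tauto
  · exfalso
    have hax : P.e a x := h1 x fun b hb => hb.1
    have haz : P.e a (P.nb z) := h1 _ fun b hb => hb.2
    have := h (P.na a) fun v hv1 hv2 => (P.e_na _ _).2 (h2 v (by simp [hv1, P.e_na, hv2]))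
    simp only [P.e_na, P.e_nb] at *
    tauto

theorem Rel.sim {c s : α} {x z p p' : β} (h : P.Rel x p' z p) (h1 : P.e c p) (h2 : ¬ P.e s p)
    (h3 : P.e c p') (h4 : ¬ P.e s p') : P.Sim c s x z := by
  intro g hg
  have := h g
  have := hg p h1 h2
  have := hg p' h3 h4
  tauto

theorem exists_sim (hB : ∀ x y, ¬ P.dual.Perp x y) {c s : α} {x : β} (hs : s ≠ c) (hx : P.e c x)
    (hsx : P.e s x) : ∃ z, z ≠ x ∧ P.e c z ∧ P.Sim c s x z := by
  obtain ⟨p, hp1, hp2⟩ := exists_mem (P := P) hs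
  have hpx : p ≠ x := by rintro rfl; exact hp2 hsx
  have hpx' : p ≠ P.nb x := by rintro rfl; exact (P.e_nb _ _).1 hp1 hx
  have hE : ¬ P.dual.Edge x p ∨ ¬ P.dual.Edge x (P.nb p) := by
    by_contra hh
    push Not at hh
    exact hB x p ⟨hpx, hpx', hh.1, hh.2⟩
  rcases hE with hE | hE
  · unfold Edge at hE
    push Not at hE
    obtain ⟨z, hz, hzx, hzp⟩ := hE
    obtain ⟨z', hz'⟩ := P.antb x p z hz
    have hc := hz' c
    have hs' := hz' s
    by_cases hsz : P.e s z
    · refine ⟨z, hzx, by grind, Rel.sim (p := z') (p' := p) hz' (by grind) (by grind) hp1 hp2⟩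
    · refine ⟨z', ?_, by grind, Rel.sim (p := z) (p' := p) (fun a => (hz' a).symm) (by grind) hsz
        hp1 hp2⟩
      rintro rfl
      exact hzp (P.sepb _ _ fun a => by have := hz' a; grind)
  · unfold Edge at hE
    push Not at hE
    obtain ⟨w, hw, hwx, hwp⟩ := hE
    obtain ⟨w', hw'⟩ := P.antb x (P.nb p) w hw
    have hc := hw' c
    have hs' := hw' s
    by_cases hcw : P.e c w
    · refine ⟨w, hwx, hcw, Rel.sim (p := p) (p' := P.nb w') (fun a => ?_) hp1 hp2 ?_ ?_⟩
      · have := hw' a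
        simp only [P.e_nb] at *
        grind
      · simp only [P.e_nb] at *
        grind
      · simp only [P.e_nb] at *
        grind
    · refine ⟨w', ?_, ?_, Rel.sim (p := p) (p' := P.nb w) (fun a => ?_) hp1 hp2 ?_ ?_⟩
      · rintro rfl
        exact hwp (P.sepb _ _ fun a => by have := hw' a; grind)
      · simp only [P.e_nb] at *
        grind
      · have := hw' a
        simp only [P.e_nb] at *
        grind
      · simp only [P.e_nb] at *
        grind
      · simp only [P.e_nb] at *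
        grind

/-- a separating member can be chosen to contain x -/
theorem sep_member {c s : α} {x z : β} (h : ¬ P.Sim c s x z) (hx : P.e c x) (hz : P.e c z)
    (hsx : P.e s x) (hsz : P.e s z) :
    ∃ r e, P.Rect (P.na r) c s e ∧ ¬ P.e r x ∧ P.e r z := by
  unfold Sim at h
  push Not at h
  obtain ⟨g, hg, hxz⟩ := h
  obtain ⟨g', hg'⟩ := P.anta (P.na s) c g (fun v h1 h2 => hg v h2 ((P.e_na _ _).1 h1))
  have key : ∀ r e, P.Rect (P.na s) c r e → ∃ e', P.Rect (P.na r) c s e' := by
    intro r e h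
    refine P.anta _ _ _ fun v h1 h2 => ?_
    have := h v
    simp only [P.e_na] at *
    grind
  have h1 := hg' x
  have h2 := hg' z
  simp only [P.e_na] at h1 h2
  rcases hxz with ⟨hgx, hgz⟩ | ⟨hgx, hgz⟩
  · obtain ⟨e', he'⟩ := key g' g (Rect.swap hg')
    exact ⟨g', e', he', by grind, by grind⟩
  · obtain ⟨e', he'⟩ := key g g' hg'
    exact ⟨g, e', he', hgx, hgz⟩

theorem sim_comparable {c t s s' : α} {x z z' : β} (hx : P.e c x) (htx : ¬ P.e t x)
    (hs : s ≠ c) (hs' : s' ≠ c) (hts : P.Dis c t s) (hts' : P.Dis c t s')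
    (hz : P.e c z) (hz' : P.e c z') (h1 : P.Sim c s x z) (h2 : ¬ P.Sim c s' x z)
    (h3 : P.Sim c s' x z') (h4 : ¬ P.Sim c s x z') : False := by
  have htz : ¬ P.e t z := fun h => htx ((h1 t hts).2 h)
  have htz' : ¬ P.e t z' := fun h => htx ((h3 t hts').2 h)
  have hsx : P.e s x := hts.symm x hx htx
  have hs'x : P.e s' x := hts'.symm x hx htx
  have hsz' : P.e s z' := hts.symm z' hz' htz'
  have hs'z : P.e s' z := hts'.symm z hz htz
  obtain ⟨r, e, hr, hrx, hrz'⟩ := sep_member h4 hx hz' hsx hsz'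
  obtain ⟨r', e', hr', hr'x, hr'z⟩ := sep_member h2 hx hz hs'x hs'z
  have hrz : ¬ P.e r z := by
    refine fun h => hrx ((h1 r fun v h1 h2 => ?_).2 h)
    have := hr v
    simp only [P.e_na] at this
    grind
  have hr'z' : ¬ P.e r' z' := by
    refine fun h => hr'x ((h3 r' fun v h1 h2 => ?_).2 h)
    have := hr' v
    simp only [P.e_na] at this
    grind
  obtain ⟨g, hg1, hg2⟩ := grid hr hr'.swap
  rw [P.na_na] at hg2
  have hgz : P.e g z := hg2 z ((P.e_na _ _).2 hrz) hr'z
  have hgz' : ¬ P.e g z' := by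
    have := hg2 (P.nb z')
    simp only [P.e_na, P.e_nb] at this
    grind
  by_cases hgx : P.e g x
  · obtain ⟨q, q', hq1, hq2, hq3, hq4, hq⟩ := h3.rel hs' hx hz' hs'x
    have a1 := hq g
    have a2 := hq r
    have a3 := hq s
    have a4 := hg1 q'
    have a5 := hr q
    have a6 := hr q'
    simp only [P.e_na] at *
    grind
  · obtain ⟨p, p', hp1, hp2, hp3, hp4, hp⟩ := h1.rel hs hx hz hsx
    have a1 := hp g
    have a2 := hp r'
    have a3 := hp s'
    have a4 := hg1 (P.nb p')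
    have a5 := hr' p
    have a6 := hr' p'
    simp only [P.e_na, P.e_nb] at *
    grind

theorem exists_common_sim [Finite α] [Finite β] (hB : ∀ x y, ¬ P.dual.Perp x y) {c t s₀ : α} {x : β}
    (hx : P.e c x) (htx : ¬ P.e t x) (hs₀ : s₀ ≠ c) (hts₀ : P.Dis c t s₀) :
    ∃ z, z ≠ x ∧ P.e c z ∧ ∀ s, s ≠ c → P.Dis c t s → P.Sim c s x z := by
  obtain ⟨s₁, ⟨hs₁, hts₁⟩, hmin⟩ := Set.exists_min_image {s | s ≠ c ∧ P.Dis c t s}
    (fun s => {z | P.e c z ∧ P.Sim c s x z}.ncard) (Set.toFinite _) ⟨s₀, hs₀, hts₀⟩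
  obtain ⟨z, hzx, hz, hsim⟩ := exists_sim hB hs₁ hx (hts₁.symm x hx htx)
  refine ⟨z, hzx, hz, fun s hs hts => ?_⟩
  by_contra hcon
  have hsub : {z | P.e c z ∧ P.Sim c s x z} ⊆ {z | P.e c z ∧ P.Sim c s₁ x z} := by
    intro z' hz'
    refine ⟨hz'.1, ?_⟩
    by_contra hcon'
    exact sim_comparable hx htx hs₁ hs hts₁ hts hz hz'.1 hsim hcon hz'.2 hcon'
  have hlt := Set.ncard_lt_ncard (s := {z | P.e c z ∧ P.Sim c s x z})
    (t := {z | P.e c z ∧ P.Sim c s₁ x z}) ⟨hsub, fun h => hcon (@h z ⟨hz, hsim⟩).2⟩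
    (Set.toFinite _)
  exact absurd (hmin s ⟨hs, hts⟩) (not_le.2 hlt)

theorem final_aux {c t s s' d d' g : α} {x z w : β} (hts : P.Rect (P.na t) c s s')
    (hd : P.Rect (P.na d) c d' g) (hx : P.e c x) (htx : ¬ P.e t x) (hdx : ¬ P.e d x)
    (hz : P.e c z) (hd'z : ¬ P.e d' z) (hw : P.e c w) (htw : ¬ P.e t w)
    (hgw : ¬ P.e g w) (hs' : s' ≠ c) (hsim : P.Sim c s' x z) {r r' : β} (hr1 : P.e c r)
    (hr2 : ¬ P.e s r) (hr3 : P.e c r') (hr4 : ¬ P.e s r') (hr : P.Rel w r' x r) : False := by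
  have hs'x : P.e s' x := by
    have := hts x
    simp only [P.e_na] at this
    grind
  obtain ⟨p, p', hp1, hp2, hp3, hp4, hp⟩ := hsim.rel hs' hx hz hs'x
  obtain ⟨γ, h1, h2⟩ := grid hd hts.swap
  rw [P.na_na] at h2
  have htz : ¬ P.e t z := by
    refine fun h => htx ((hsim t fun v h1 h2 => ?_).2 h)
    have := hts v
    simp only [P.e_na] at this
    grind
  have e1 : P.e d z := by
    have := hd z
    simp only [P.e_na] at this
    grind
  have e2 : P.e d w ∧ P.e d' w := by
    have := hd w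
    simp only [P.e_na] at this
    grind
  have e3 : P.e d' x ∧ P.e g x := by
    have := hd x
    simp only [P.e_na] at this
    grind
  have f1 : ¬ P.e γ z := by
    have := h2 (P.nb z)
    simp only [P.e_na, P.e_nb] at this
    grind
  have f2 : ¬ P.e γ w := by
    have := h2 (P.nb w)
    simp only [P.e_na, P.e_nb] at this
    grind
  have f3 : ¬ P.e γ p' := by
    have a1 := hp d'
    have a2 := hts p'
    have := h1 (P.nb p')
    simp only [P.e_na, P.e_nb] at *
    grind
  have f4 : P.e γ p := by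
    have a1 := hp d
    have a2 := hts p
    have := h2 p
    simp only [P.e_na] at *
    grind
  have f5 : P.e γ r := by
    have a1 := hr g
    have a2 := hd r
    have := h1 r
    simp only [P.e_na] at *
    grind
  have f6 : P.e γ r' := by
    have a1 := hr d
    have a2 := hd r'
    have := h1 r'
    simp only [P.e_na] at *
    grind
  have a1 := hp γ
  have a2 := hr γ
  grind

/-- in dimension at least two there is an orthogonal pair on one of the two sides -/
theorem exists_perp [Finite α] [Finite β] {c b : α} (h1 : b ≠ c) (h2 : b ≠ P.na c) :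
    (∃ a a', P.Perp a a') ∨ ∃ x y, P.dual.Perp x y := by
  by_contra hcon
  push Not at hcon
  obtain ⟨hA, hB⟩ := hcon
  obtain ⟨x, hx, hbx⟩ := exists_mem (P := P) h1
  obtain ⟨t, htx, hbt, ht⟩ := exists_atom c x hx b hbx
  have htc : t ≠ c := by rintro rfl; exact htx hx
  have htc' : t ≠ P.na c := by
    rintro rfl
    obtain ⟨v, hv1, hv2⟩ := exists_mem (P := P) (a := P.na b) (c := c)
      (fun h => h2 (by rw [← h, P.na_na]))
    have := hbt v
    simp only [P.e_na] at *
    grind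
  obtain ⟨s, s', hts, hs, hs'⟩ := split_compl hA htc htc' ht
  have hds : P.Dis c t s := fun v h1 h2 => by
    have := hts v
    simp only [P.e_na] at this
    grind
  have hds' : P.Dis c t s' := fun v h1 h2 => by
    have := hts v
    simp only [P.e_na] at this
    grind
  obtain ⟨z, hzx, hz, hsim⟩ := exists_common_sim hB hx htx hs hds
  obtain ⟨a, hax, haz⟩ : ∃ a, ¬ P.e a x ∧ P.e a z := by
    by_contra hh
    push Not at hh
    refine hzx (P.sepb _ _ fun a => ?_)
    have := hh a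
    have := hh (P.na a)
    simp only [P.e_na] at this
    grind
  obtain ⟨d, hdx, had, hd⟩ := exists_atom c x hx a hax
  have hdz : P.e d z := had z haz hz
  have hdc : d ≠ c := by rintro rfl; exact hdx hx
  have hdc' : d ≠ P.na c := by rintro rfl; exact (P.e_na _ _).1 hdz hz
  obtain ⟨d', g, hdg, hg, hd'z⟩ : ∃ d' g, P.Rect (P.na d) c d' g ∧ g ≠ c ∧ ¬ P.e d' z := by
    obtain ⟨u, u', hu, hu1, hu2⟩ := split_compl hA hdc hdc' hd
    by_cases huz : P.e u z
    · refine ⟨u', u, hu.swap, hu1, ?_⟩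
      have := hu z
      simp only [P.e_na] at this
      grind
    · exact ⟨u, u', hu, hu2, huz⟩
  by_cases hgt : P.Dis c t g
  · refine hdx ((hsim g hg hgt d fun v h1 h2 => ?_).2 hdz)
    have := hdg v
    simp only [P.e_na] at this
    grind
  unfold Dis at hgt
  push Not at hgt
  obtain ⟨w, hw, hgw, htw⟩ := hgt
  have hwx : P.Sim c (P.na t) w x := by
    intro f hf
    rcases ht f (fun v h1 h2 => hf v h2 (by simpa [P.e_na] using h1)) with rfl | rfl
    · simp [htw, htx]
    · simp [hw, hx]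
  obtain ⟨r, r', hr1, hr2, hr3, hr4, hr⟩ := hwx.rel (fun h => htc' (by rw [← h, P.na_na])) hw hx
    ((P.e_na _ _).2 htw)
  have a1 := hts r
  have a2 := hts r'
  have a3 := hr s
  have a4 := hr s'
  have a5 := hds.symm w hw htw
  have a6 := hds.symm x hx htx
  have a7 := hds'.symm w hw htw
  have a8 := hds'.symm x hx htx
  simp only [P.e_na] at a1 a2 hr2 hr4
  by_cases hsr : P.e s r
  · exact final_aux hts.swap hdg hx htx hdx hz hd'z hw htw hgw hs (hsim s hs hds) hr1
      (by grind) hr3 (by grind) hr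
  · exact final_aux hts hdg hx htx hdx hz hd'z hw htw hgw hs' (hsim s' hs' hds') hr1
      hsr hr3 (by grind) hr

theorem split_or [Finite α] [Finite β] {c b : α} (h1 : b ≠ c) (h2 : b ≠ P.na c) :
    P.Split ∨ P.dual.Split := by
  rcases exists_perp h1 h2 with ⟨a, a', h⟩ | ⟨x, y, h⟩
  · exact Or.inl h.split
  · exact Or.inr h.split

end PS

end Vale.Agent.P248
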