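import Vale.Agent.P248.HVol
import Vale.Agent.P248.CombB

open MeasureTheory Set Filter Topology Matrix
open scoped ENNReal ContDiff Real ComplexOrder Pointwise

namespace Vale.Agent.P248

variable {n : ℕ} {A V : Set (Fin n → ℝ)}

theorem CL.not_iff (h : CL A V) {a v : Fin n → ℝ} (ha : a ∈ A) (hv : v ∈ V) :
    ¬ a ⬝ᵥ v = 1 ↔ a ⬝ᵥ v = -1 := by
  rcases h.pm a ha v hv with h1 | h1 <;> rw [h1] <;> norm_num

theorem CL.eq_of_iff (h : CL A V) {v v' : Fin n → ℝ} (hv : v ∈ V) (hv' : v' ∈ V)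
    (hh : ∀ a ∈ A, a ⬝ᵥ v = 1 ↔ a ⬝ᵥ v' = 1) : v = v' := by
  refine sub_eq_zero.1 (h.spanA fun a ha => ?_)
  have := hh a ha
  rw [dotProduct_sub]
  rcases h.pm a ha v hv with h1 | h1 <;> rcases h.pm a ha v' hv' with h2 | h2
  · rw [h1, h2, sub_self]
  · rw [this.1 h1] at h2; norm_num at h2
  · rw [this.2 h2] at h1; norm_num at h1
  · rw [h1, h2, sub_self]

theorem CL.antipode (h : CL A V) {a b d : Fin n → ℝ} (ha : a ∈ A) (hb : b ∈ A) (hd : d ∈ A)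
    (hcl : ∀ v ∈ V, a ⬝ᵥ v = 1 → b ⬝ᵥ v = 1 → d ⬝ᵥ v = 1) :
    ∃ d' ∈ A, ∀ v ∈ V, ((a ⬝ᵥ v = 1 ↔ d ⬝ᵥ v = 1) ∧ (b ⬝ᵥ v = 1 ↔ d' ⬝ᵥ v = 1)) ∨
      ((a ⬝ᵥ v = 1 ↔ d' ⬝ᵥ v = 1) ∧ (b ⬝ᵥ v = 1 ↔ d ⬝ᵥ v = 1)) := by
  have key : ∀ v ∈ V, (a ⬝ᵥ v = d ⬝ᵥ v ∧ b ⬝ᵥ v = (a + b - d) ⬝ᵥ v) ∨
      (a ⬝ᵥ v = (a + b - d) ⬝ᵥ v ∧ b ⬝ᵥ v = d ⬝ᵥ v) := by
    intro v hv
    have h1 := hcl v hv
    have h2 := hcl (-v) (h.negV v hv)
    simp only [dotProduct_neg] at h2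
    rw [sub_dotProduct, add_dotProduct]
    rcases h.pm a ha v hv with p | p <;> rcases h.pm b hb v hv with q | q <;>
      rcases h.pm d hd v hv with r | r <;> rw [p, q, r] at h1 h2 ⊢ <;> revert h1 h2 <;> norm_num
  refine ⟨a + b - d, h.mem_of_pm fun v hv => ?_, fun v hv => ?_⟩
  · rcases key v hv with ⟨-, h2⟩ | ⟨h1, -⟩
    · rw [← h2]; exact h.pm b hb v hv
    · rw [← h1]; exact h.pm a ha v hv
  · rcases key v hv with ⟨h1, h2⟩ | ⟨h1, h2⟩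
    · left; rw [← h1, ← h2]; simp
    · right; rw [← h1, ← h2]; simp

/-- the abstract system attached to a pair of polytopes -/
def CL.ps (h : CL A V) (hH : HProp A V) : PS A V where
  e := fun a v => a.1 ⬝ᵥ v.1 = 1
  na := fun a => ⟨-a.1, h.negA _ a.2⟩
  nb := fun v => ⟨-v.1, h.negV _ v.2⟩
  e_na := fun a v => by
    rw [h.not_iff a.2 v.2, neg_dotProduct, neg_eq_iff_eq_neg]
  e_nb := fun a v => by
    rw [h.not_iff a.2 v.2, dotProduct_neg, neg_eq_iff_eq_neg]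
  sepa := fun a a' hh => Subtype.ext (h.symm.eq_of_iff a.2 a'.2 fun v hv => by
    rw [dotProduct_comm v, dotProduct_comm v]; exact hh ⟨v, hv⟩)
  sepb := fun v v' hh => Subtype.ext (h.eq_of_iff v.2 v'.2 fun a ha => hh ⟨a, ha⟩)
  anta := fun a b d hcl => by
    obtain ⟨d', hd', hh⟩ := h.antipode a.2 b.2 d.2 fun v hv => hcl ⟨v, hv⟩
    exact ⟨⟨d', hd'⟩, fun v => hh v.1 v.2⟩
  antb := fun x y z hcl => by
    obtain ⟨z', hz', hh⟩ := h.symm.antipode x.2 y.2 z.2 fun a ha => by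
      rw [dotProduct_comm x.1, dotProduct_comm y.1, dotProduct_comm z.1]; exact hcl ⟨a, ha⟩
    refine ⟨⟨z', hz'⟩, fun a => ?_⟩
    have := hh a.1 a.2
    rw [dotProduct_comm x.1, dotProduct_comm y.1, dotProduct_comm z.1, dotProduct_comm z'] at this
    exact this
  hp := fun W₁ W₂ h₁ h₂ => by
    obtain ⟨a₁, ha₁⟩ := h₁
    obtain ⟨a₂, ha₂⟩ := h₂
    rcases hH (Subtype.val '' W₁) (Subtype.val '' W₂) (Subtype.coe_image_subset _ _)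
      (Subtype.coe_image_subset _ _) ⟨a₁.1, a₁.2, by simpa using ha₁⟩
      ⟨a₂.1, a₂.2, by simpa using ha₂⟩ with ⟨a, ha, h₁, h₂⟩ | ⟨v, hv, h₁, h₂⟩
    · exact Or.inl ⟨⟨a, ha⟩, fun w hw => h₁ _ ⟨w, hw, rfl⟩, fun w hw => h₂ _ ⟨w, hw, rfl⟩⟩
    · refine Or.inr ⟨⟨v, hv⟩, fun a ha => h₁ a.1 a.2 (by simpa using ha), fun a ha => ?_⟩
      exact (h.not_iff a.2 hv).2 (h₂ a.1 a.2 (by simpa using ha))

theorem CL.hProp_symm (h : CL A V) (hH : HProp A V) : HProp V A := by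
  intro S₁ S₂ hS₁ hS₂ h₁ h₂
  obtain ⟨v₁, hv₁, h₁⟩ := h₁
  obtain ⟨v₂, hv₂, h₂⟩ := h₂
  rcases (h.ps hH).hp_dual (Subtype.val ⁻¹' S₁) (Subtype.val ⁻¹' S₂)
    ⟨⟨v₁, hv₁⟩, fun s hs => by
      change s.1 ⬝ᵥ v₁ = 1
      rw [dotProduct_comm]; exact h₁ _ hs⟩
    ⟨⟨v₂, hv₂⟩, fun s hs => by
      change s.1 ⬝ᵥ v₂ = 1
      rw [dotProduct_comm]; exact h₂ _ hs⟩ with ⟨v, h₁, h₂⟩ | ⟨a, h₁, h₂⟩
  · refine Or.inl ⟨v.1, v.2, fun w hw => ?_, fun w hw => ?_⟩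
    · rw [dotProduct_comm]; exact h₁ ⟨w, hS₁ hw⟩ hw
    · rw [dotProduct_comm]; exact h₂ ⟨w, hS₂ hw⟩ hw
  · refine Or.inr ⟨a.1, a.2, fun v hv hh => ?_, fun v hv hh => ?_⟩
    · rw [dotProduct_comm]
      exact h₁ ⟨v, hv⟩ fun s hs => by
        change s.1 ⬝ᵥ v = 1
        rw [dotProduct_comm]; exact hh _ hs
    · rw [dotProduct_comm, ← h.not_iff a.2 hv]
      exact h₂ ⟨v, hv⟩ fun s hs => by
        change s.1 ⬝ᵥ v = 1
        rw [dotProduct_comm]; exact hh _ hs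

/-- splitting of the vertex set, in terms of vectors -/
def VSplit (A V : Set (Fin n → ℝ)) : Prop :=
  ∃ A₁ A₂ : Set (Fin n → ℝ), A₁ ∪ A₂ = A ∧ A₁.Nonempty ∧ A₂.Nonempty ∧
    ∀ x ∈ V, ∀ y ∈ V, ∃ z ∈ V, (∀ a ∈ A₁, a ⬝ᵥ z = a ⬝ᵥ x) ∧ ∀ a ∈ A₂, a ⬝ᵥ z = a ⬝ᵥ y

theorem CL.eq_dot (h : CL A V) {a v v' : Fin n → ℝ} (ha : a ∈ A) (hv : v ∈ V) (hv' : v' ∈ V)
    (hh : a ⬝ᵥ v = 1 ↔ a ⬝ᵥ v' = 1) : a ⬝ᵥ v = a ⬝ᵥ v' := by
  rcases h.pm a ha v hv with h1 | h1 <;> rcases h.pm a ha v' hv' with h2 | h2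
  · rw [h1, h2]
  · rw [hh.1 h1] at h2; norm_num at h2
  · rw [hh.2 h2] at h1; norm_num at h1
  · rw [h1, h2]

theorem CL.vsplit_or (h : CL A V) (hH : HProp A V) {b c : Fin n → ℝ} (hb : b ∈ A) (hc : c ∈ A)
    (h1 : b ≠ c) (h2 : b ≠ -c) : VSplit A V ∨ VSplit V A := by
  have := h.finA.to_subtype
  have := h.finV.to_subtype
  rcases PS.split_or (P := h.ps hH) (b := ⟨b, hb⟩) (c := ⟨c, hc⟩)
    (fun hh => h1 (congrArg Subtype.val hh)) (fun hh => h2 (congrArg Subtype.val hh)) with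
    ⟨A', ⟨a₁, ha₁⟩, ⟨a₂, ha₂⟩, -, hz⟩ | ⟨A', ⟨a₁, ha₁⟩, ⟨a₂, ha₂⟩, -, hz⟩
  · refine Or.inl ⟨Subtype.val '' A', Subtype.val '' A'ᶜ, ?_, ⟨_, a₁, ha₁, rfl⟩,
      ⟨_, a₂, ha₂, rfl⟩, fun x hx y hy => ?_⟩
    · rw [← image_union, union_compl_self]; simp
    · obtain ⟨z, hz1, hz2⟩ := hz ⟨x, hx⟩ ⟨y, hy⟩
      refine ⟨z.1, z.2, ?_, ?_⟩
      · rintro _ ⟨a, ha, rfl⟩
        exact h.eq_dot a.2 z.2 hx (hz1 a ha)
      · rintro _ ⟨a, ha, rfl⟩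
        exact h.eq_dot a.2 z.2 hy (hz2 a ha)
  · refine Or.inr ⟨Subtype.val '' A', Subtype.val '' A'ᶜ, ?_, ⟨_, a₁, ha₁, rfl⟩,
      ⟨_, a₂, ha₂, rfl⟩, fun x hx y hy => ?_⟩
    · rw [← image_union, union_compl_self]; simp
    · obtain ⟨z, hz1, hz2⟩ := hz ⟨x, hx⟩ ⟨y, hy⟩
      refine ⟨z.1, z.2, ?_, ?_⟩
      · rintro _ ⟨a, ha, rfl⟩
        refine h.symm.eq_dot a.2 z.2 hx ?_
        rw [dotProduct_comm a.1, dotProduct_comm a.1]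
        exact hz1 a ha
      · rintro _ ⟨a, ha, rfl⟩
        refine h.symm.eq_dot a.2 z.2 hy ?_
        rw [dotProduct_comm a.1, dotProduct_comm a.1]
        exact hz2 a ha

/-- a component of a splitting -/
theorem CL.component {k : ℕ} (h : CL A V) (hH : HProp A V) (M : Matrix (Fin n) (Fin k) ℝ)
    (N : Matrix (Fin k) (Fin n) ℝ) (hNM : N * M = 1)
    (hA : ∀ a ∈ A, M *ᵥ (N *ᵥ a) = a ∨ N *ᵥ a = 0) (hne : ∃ a ∈ A, M *ᵥ (N *ᵥ a) = a)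
    (hV : ∀ x ∈ V, ∃ z ∈ V, z ᵥ* M = x ᵥ* M ∧ ∀ a ∈ A, M *ᵥ (N *ᵥ a) ≠ a → a ⬝ᵥ z = -(a ⬝ᵥ x)) :
    CL {a | M *ᵥ a ∈ A} ((fun v => v ᵥ* M) '' V) ∧
      HProp {a | M *ᵥ a ∈ A} ((fun v => v ᵥ* M) '' V) := by
  have hNMv : ∀ a : Fin k → ℝ, N *ᵥ (M *ᵥ a) = a := fun a => by
    rw [mulVec_mulVec, hNM, one_mulVec]
  have hdot : ∀ (a : Fin k → ℝ) (v : Fin n → ℝ), a ⬝ᵥ (v ᵥ* M) = (M *ᵥ a) ⬝ᵥ v := fun a v => by
    rw [dotProduct_comm, ← dotProduct_mulVec, dotProduct_comm]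
  have hpm : ∀ a ∈ {a | M *ᵥ a ∈ A}, ∀ v ∈ (fun v => v ᵥ* M) '' V, a ⬝ᵥ v = 1 ∨ a ⬝ᵥ v = -1 := by
    rintro a ha _ ⟨v, hv, rfl⟩
    rw [hdot]; exact h.pm _ ha v hv
  have hnegA : ∀ a ∈ {a | M *ᵥ a ∈ A}, -a ∈ {a | M *ᵥ a ∈ A} := fun a ha => by
    change M *ᵥ (-a) ∈ A
    rw [mulVec_neg]; exact h.negA _ ha
  constructor
  · refine ⟨?_, h.finV.image _, hnegA, ?_, hpm, ?_, ?_⟩
    · refine h.finA.preimage (f := fun a => M *ᵥ a) fun a _ b _ hab => ?_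
      rw [← hNMv a, ← hNMv b]; exact congrArg _ hab
    · rintro _ ⟨v, hv, rfl⟩
      exact ⟨-v, h.negV v hv, neg_vecMul _ _⟩
    · refine Subset.antisymm (convexHull_min (fun a ha => mem_polar.2 fun v hv => ?_)
        (convex_polar _)) fun x hx => ?_
      · rcases hpm a ha v hv with h1 | h1 <;> linarith
      · have h1 : M *ᵥ x ∈ convexHull ℝ A := by
          rw [h.hullA]
          exact mem_polar.2 fun v hv => by rw [← hdot]; exact mem_polar.1 hx _ ⟨v, hv, rfl⟩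
        have h0 : (0 : Fin k → ℝ) ∈ convexHull ℝ {a | M *ᵥ a ∈ A} := by
          obtain ⟨a, ha, hMa⟩ := hne
          have h2 : N *ᵥ a ∈ {a | M *ᵥ a ∈ A} := by change M *ᵥ (N *ᵥ a) ∈ A; rwa [hMa]
          have := convex_convexHull ℝ _ (subset_convexHull ℝ _ h2)
            (subset_convexHull ℝ _ (hnegA _ h2)) (a := 1 / 2) (b := 1 / 2) (by norm_num)
            (by norm_num) (by norm_num)
          simpa using this
        have h3 : convexHull ℝ A ⊆ (toLin' N) ⁻¹' convexHull ℝ {a | M *ᵥ a ∈ A} := by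
          refine convexHull_min (fun a ha => ?_) ((convex_convexHull ℝ _).linear_preimage _)
          rw [mem_preimage, toLin'_apply]
          rcases hA a ha with h4 | h4
          · exact subset_convexHull ℝ _ (by change M *ᵥ (N *ᵥ a) ∈ A; rwa [h4])
          · rwa [h4]
        have := h3 h1
        rwa [mem_preimage, toLin'_apply, hNMv] at this
    · refine Subset.antisymm (convexHull_min (fun v hv => mem_polar.2 fun a ha => ?_)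
        (convex_polar _)) fun y hy => ?_
      · rw [dotProduct_comm]
        rcases hpm a ha v hv with h1 | h1 <;> linarith
      · have h1 : y ᵥ* N ∈ convexHull ℝ V := by
          rw [h.hullV]
          refine mem_polar.2 fun a ha => ?_
          rw [← dotProduct_mulVec]
          rcases hA a ha with h4 | h4
          · exact mem_polar.1 hy _ (by change M *ᵥ (N *ᵥ a) ∈ A; rwa [h4])
          · rw [h4]; simp
        have h3 : convexHull ℝ V ⊆ (toLin' Mᵀ) ⁻¹' convexHull ℝ ((fun v => v ᵥ* M) '' V) := by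
          refine convexHull_min (fun v hv => ?_) ((convex_convexHull ℝ _).linear_preimage _)
          rw [mem_preimage, toLin'_apply, mulVec_transpose]
          exact subset_convexHull ℝ _ ⟨v, hv, rfl⟩
        have := h3 h1
        rwa [mem_preimage, toLin'_apply, mulVec_transpose, vecMul_vecMul, hNM, vecMul_one] at this
  · intro W₁ W₂ hW₁ hW₂ h₁ h₂
    rcases W₁.eq_empty_or_nonempty with rfl | ⟨w₁, hw₁⟩
    · obtain ⟨a, ha, h₂⟩ := h₂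
      exact Or.inl ⟨a, ha, by simp, h₂⟩
    obtain ⟨a₁, ha₁, h₁⟩ := h₁
    obtain ⟨a₂, ha₂, h₂⟩ := h₂
    rcases hH {v ∈ V | v ᵥ* M ∈ W₁} {v ∈ V | v ᵥ* M ∈ W₂} (sep_subset _ _) (sep_subset _ _)
      ⟨_, ha₁, fun w hw => by rw [← hdot]; exact h₁ _ hw.2⟩
      ⟨_, ha₂, fun w hw => by rw [← hdot]; exact h₂ _ hw.2⟩ with ⟨a, ha, h₃, h₄⟩ | ⟨v, hv, h₃, h₄⟩
    · have hMa : M *ᵥ (N *ᵥ a) = a := by
        by_contra hne'
        obtain ⟨x, hx, hxw⟩ := hW₁ hw₁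
        obtain ⟨z, hz, hzx, hza⟩ := hV x hx
        have e1 := h₃ x ⟨hx, by rw [show x ᵥ* M = w₁ from hxw]; exact hw₁⟩
        have e2 := h₃ z ⟨hz, by rw [hzx, show x ᵥ* M = w₁ from hxw]; exact hw₁⟩
        rw [hza a ha hne', e1] at e2
        norm_num at e2
      refine Or.inl ⟨N *ᵥ a, by change M *ᵥ (N *ᵥ a) ∈ A; rwa [hMa], fun w hw => ?_,
        fun w hw => ?_⟩
      · obtain ⟨x, hx, rfl⟩ := hW₁ hw
        rw [hdot, hMa]; exact h₃ x ⟨hx, hw⟩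
      · obtain ⟨x, hx, rfl⟩ := hW₂ hw
        rw [hdot, hMa]; exact h₄ x ⟨hx, hw⟩
    · refine Or.inr ⟨v ᵥ* M, ⟨v, hv, rfl⟩, fun a ha hh => ?_, fun a ha hh => ?_⟩
      · rw [hdot]; exact h₃ _ ha fun w hw => by rw [← hdot]; exact hh _ hw.2
      · rw [hdot]; exact h₄ _ ha fun w hw => by rw [← hdot]; exact hh _ hw.2

end Vale.Agent.P248
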