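import Vale.Agent.P248.Base

open MeasureTheory Set Filter Topology Matrix
open scoped ENNReal ContDiff Real ComplexOrder Pointwise

namespace Vale.Agent.P248

/-- the conformal map, before the description of its image -/
structure PreConf (F : ℂ → ℂ) : Prop where
  diffF : DifferentiableOn ℂ F (Metric.ball 0 1)
  zero : F 0 = 0
  formula : ∀ ζ ∈ Metric.ball (0 : ℂ) 1,
    ζ * deriv F ζ = (4 / π ^ 2 : ℝ) * Complex.log ((1 + ζ) / (1 - ζ))
  re_pos : ∀ ζ ∈ Metric.ball (0 : ℂ) 1, 0 < (deriv F ζ).re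
  conj : ∀ ζ ∈ Metric.ball (0 : ℂ) 1, F ((starRingEnd ℂ) ζ) = (starRingEnd ℂ) (F ζ)
  neg : ∀ ζ ∈ Metric.ball (0 : ℂ) 1, F (-ζ) = -F ζ
  inj : InjOn F (Metric.ball 0 1)
  im_neg : ∀ ζ ∈ Metric.ball (0 : ℂ) 1, ζ.im < 0 → (F ζ).im < 0

theorem confA_norm_lt {ζ : ℂ} (h : ζ ∈ Metric.ball (0 : ℂ) 1) : ‖ζ‖ < 1 := by
  simpa using h

theorem confA_sq_lt {ζ : ℂ} (h : ζ ∈ Metric.ball (0 : ℂ) 1) : ζ.re ^ 2 + ζ.im ^ 2 < 1 := by
  have h1 := confA_norm_lt h
  have h2 : ‖ζ‖ ^ 2 < 1 := by nlinarith [norm_nonneg ζ]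
  rw [Complex.sq_norm, Complex.normSq_apply] at h2
  nlinarith

theorem confA_ne {ζ : ℂ} (h : ζ ∈ Metric.ball (0 : ℂ) 1) : 1 - ζ ≠ 0 := by
  intro h0
  have : ζ = 1 := by linear_combination -h0
  have h1 := confA_norm_lt h
  rw [this] at h1
  simp at h1

theorem confA_normSq_pos {ζ : ℂ} (h : ζ ∈ Metric.ball (0 : ℂ) 1) :
    0 < Complex.normSq (1 - ζ) := Complex.normSq_pos.2 (confA_ne h)

theorem confA_re {ζ : ℂ} (h : ζ ∈ Metric.ball (0 : ℂ) 1) : 0 < ((1 + ζ) / (1 - ζ)).re := by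
  have h1 := confA_normSq_pos h
  have h2 := confA_sq_lt h
  rw [Complex.div_re, ← add_div]
  apply div_pos _ h1
  simp
  nlinarith

theorem confA_im {ζ : ℂ} (h : ζ ∈ Metric.ball (0 : ℂ) 1) :
    ((1 + ζ) / (1 - ζ)).im = 2 * ζ.im / Complex.normSq (1 - ζ) := by
  rw [Complex.div_im, ← sub_div]
  congr 1
  simp
  ring

theorem confA_arg_ne {ζ : ℂ} (h : ζ ∈ Metric.ball (0 : ℂ) 1) : ((1 + ζ) / (1 - ζ)).arg ≠ π := by
  intro h0
  have := (Complex.arg_eq_pi_iff.1 h0).1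
  linarith [confA_re h]

noncomputable def confA_G (ζ : ℂ) : ℂ := Complex.log ((1 + ζ) / (1 - ζ))

theorem confA_G_zero : confA_G 0 = 0 := by simp [confA_G]

theorem confA_G_diff : DifferentiableOn ℂ confA_G (Metric.ball 0 1) := by
  intro ζ h
  apply DifferentiableAt.differentiableWithinAt
  unfold confA_G
  apply DifferentiableAt.clog
  · exact DifferentiableAt.div (by fun_prop) (by fun_prop) (confA_ne h)
  · exact Or.inl (confA_re h)

theorem confA_G_deriv : deriv confA_G 0 = 2 := by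
  have h1 : HasDerivAt (fun ζ : ℂ => (1 + ζ) / (1 - ζ)) 2 0 := by
    have a1 : HasDerivAt (fun ζ : ℂ => 1 + ζ) 1 0 := (hasDerivAt_id _).const_add 1
    have a2 : HasDerivAt (fun ζ : ℂ => 1 - ζ) (-1) 0 := (hasDerivAt_id _).const_sub 1
    have a3 := a1.div a2 (by simp)
    refine a3.congr_deriv ?_
    norm_num
  have h2 := h1.clog (by simp)
  have h3 : HasDerivAt confA_G 2 0 := by
    refine h2.congr_deriv ?_
    simp
  exact h3.deriv

theorem confA_G_conj {ζ : ℂ} (h : ζ ∈ Metric.ball (0 : ℂ) 1) :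
    confA_G ((starRingEnd ℂ) ζ) = (starRingEnd ℂ) (confA_G ζ) := by
  unfold confA_G
  rw [← Complex.log_conj _ (confA_arg_ne h)]
  simp

theorem confA_G_neg {ζ : ℂ} (h : ζ ∈ Metric.ball (0 : ℂ) 1) : confA_G (-ζ) = -confA_G ζ := by
  unfold confA_G
  rw [← Complex.log_inv _ (confA_arg_ne h), inv_div, sub_neg_eq_add, ← sub_eq_add_neg]

theorem confA_G_re_mul {ζ : ℂ} (h : ζ ∈ Metric.ball (0 : ℂ) 1) (h0 : ζ.re ≠ 0) :
    0 < (confA_G ζ).re * ζ.re := by
  unfold confA_G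
  rw [Complex.log_re]
  have h1 := confA_normSq_pos h
  have hn : ‖(1 + ζ) / (1 - ζ)‖ ^ 2 = 1 + 4 * ζ.re / Complex.normSq (1 - ζ) := by
    rw [Complex.sq_norm, map_div₀]
    field_simp
    simp [Complex.normSq_apply]
    ring
  have hpos : 0 < ‖(1 + ζ) / (1 - ζ)‖ := by
    rw [norm_pos_iff]
    intro h2
    have := confA_re h
    rw [h2] at this
    simp at this
  rcases lt_or_gt_of_ne h0 with h2 | h2
  · have h3 : 4 * ζ.re / Complex.normSq (1 - ζ) < 0 := div_neg_of_neg_of_pos (by linarith) h1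
    have h4 : ‖(1 + ζ) / (1 - ζ)‖ < 1 := by nlinarith
    exact mul_pos_of_neg_of_neg (Real.log_neg hpos h4) h2
  · have h3 : 0 < 4 * ζ.re / Complex.normSq (1 - ζ) := div_pos (by linarith) h1
    have h4 : 1 < ‖(1 + ζ) / (1 - ζ)‖ := by nlinarith
    exact mul_pos (Real.log_pos h4) h2

theorem confA_G_im_mul {ζ : ℂ} (h : ζ ∈ Metric.ball (0 : ℂ) 1) (h0 : ζ.im ≠ 0) :
    0 < (confA_G ζ).im * ζ.im := by
  unfold confA_G
  rw [Complex.log_im]
  have h1 := confA_normSq_pos h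
  have h5 := confA_im h
  rcases lt_or_gt_of_ne h0 with h2 | h2
  · have h3 : ((1 + ζ) / (1 - ζ)).im < 0 := by
      rw [h5]; exact div_neg_of_neg_of_pos (by linarith) h1
    exact mul_pos_of_neg_of_neg (Complex.arg_neg_iff.2 h3) h2
  · have h3 : 0 < ((1 + ζ) / (1 - ζ)).im := by
      rw [h5]; exact div_pos (by linarith) h1
    have h4 : 0 ≤ ((1 + ζ) / (1 - ζ)).arg := Complex.arg_nonneg_iff.2 h3.le
    have h6 : ((1 + ζ) / (1 - ζ)).arg ≠ 0 := fun h7 => h3.ne' (Complex.arg_eq_zero_iff.1 h7).2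
    exact mul_pos (lt_of_le_of_ne h4 h6.symm) h2

noncomputable def confA_f (ζ : ℂ) : ℂ := (4 / π ^ 2 : ℝ) * dslope confA_G 0 ζ

theorem confA_f_zero : confA_f 0 = ((8 / π ^ 2 : ℝ) : ℂ) := by
  unfold confA_f
  rw [dslope_same, confA_G_deriv]
  push_cast
  ring

theorem confA_f_ne {ζ : ℂ} (h : ζ ≠ 0) : confA_f ζ = (4 / π ^ 2 : ℝ) * (confA_G ζ / ζ) := by
  unfold confA_f
  rw [dslope_of_ne _ h, slope_def_field, confA_G_zero, sub_zero, sub_zero]

theorem confA_f_diff : DifferentiableOn ℂ confA_f (Metric.ball 0 1) := by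
  unfold confA_f
  exact ((Complex.differentiableOn_dslope (Metric.ball_mem_nhds 0 one_pos)).2
    confA_G_diff).const_mul _

theorem confA_f_re {ζ : ℂ} (h : ζ ∈ Metric.ball (0 : ℂ) 1) : 0 < (confA_f ζ).re := by
  by_cases h0 : ζ = 0
  · rw [h0, confA_f_zero, Complex.ofReal_re]
    positivity
  · rw [confA_f_ne h0, Complex.re_ofReal_mul, Complex.div_re, ← add_div]
    have h1 : 0 < Complex.normSq ζ := Complex.normSq_pos.2 h0
    have h2 : 0 < (confA_G ζ).re * ζ.re + (confA_G ζ).im * ζ.im := by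
      by_cases ha : ζ.re = 0
      · have hb : ζ.im ≠ 0 := fun hb => h0 (Complex.ext ha hb)
        have := confA_G_im_mul h hb
        rw [ha]; linarith
      · have h3 := confA_G_re_mul h ha
        by_cases hb : ζ.im = 0
        · rw [hb]; linarith
        · linarith [confA_G_im_mul h hb]
    positivity

theorem confA_f_conj {ζ : ℂ} (h : ζ ∈ Metric.ball (0 : ℂ) 1) :
    confA_f ((starRingEnd ℂ) ζ) = (starRingEnd ℂ) (confA_f ζ) := by
  by_cases h0 : ζ = 0
  · rw [h0, map_zero, confA_f_zero, Complex.conj_ofReal]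
  · rw [confA_f_ne h0, confA_f_ne ((map_ne_zero _).2 h0), confA_G_conj h, map_mul, map_div₀,
      Complex.conj_ofReal]

theorem confA_f_neg {ζ : ℂ} (h : ζ ∈ Metric.ball (0 : ℂ) 1) : confA_f (-ζ) = confA_f ζ := by
  by_cases h0 : ζ = 0
  · rw [h0, neg_zero]
  · rw [confA_f_ne h0, confA_f_ne (neg_ne_zero.2 h0), confA_G_neg h, neg_div_neg_eq]

theorem confA_conj_mem {ζ : ℂ} (h : ζ ∈ Metric.ball (0 : ℂ) 1) :
    (starRingEnd ℂ) ζ ∈ Metric.ball (0 : ℂ) 1 := by
  simpa using h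

theorem confA_neg_mem {ζ : ℂ} (h : ζ ∈ Metric.ball (0 : ℂ) 1) : -ζ ∈ Metric.ball (0 : ℂ) 1 := by
  simpa using h

theorem confA_uniq {F₁ F₂ f : ℂ → ℂ} (h₁ : ∀ ζ ∈ Metric.ball (0 : ℂ) 1, HasDerivAt F₁ (f ζ) ζ)
    (h₂ : ∀ ζ ∈ Metric.ball (0 : ℂ) 1, HasDerivAt F₂ (f ζ) ζ) (h0 : F₁ 0 = F₂ 0) :
    EqOn F₁ F₂ (Metric.ball 0 1) :=
  Metric.isOpen_ball.eqOn_of_deriv_eq (convex_ball (0 : ℂ) 1).isPreconnected
    (fun ζ h => (h₁ ζ h).differentiableAt.differentiableWithinAt)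
    (fun ζ h => (h₂ ζ h).differentiableAt.differentiableWithinAt)
    (fun ζ h => by rw [(h₁ ζ h).deriv, (h₂ ζ h).deriv]) (Metric.mem_ball_self one_pos) h0

/-- the increment quotient of a function whose derivative has positive real part -/
theorem confA_quot {F f : ℂ → ℂ} (hF : ∀ ζ ∈ Metric.ball (0 : ℂ) 1, HasDerivAt F (f ζ) ζ)
    (hf : ∀ ζ ∈ Metric.ball (0 : ℂ) 1, 0 < (f ζ).re) {a b : ℂ} (ha : a ∈ Metric.ball (0 : ℂ) 1)
    (hb : b ∈ Metric.ball (0 : ℂ) 1) (hab : b - a ≠ 0) : 0 < ((F b - F a) / (b - a)).re := by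
  have hmem : ∀ t ∈ Icc (0 : ℝ) 1, a + (t : ℂ) * (b - a) ∈ Metric.ball (0 : ℂ) 1 := by
    intro t ht
    have := (convex_ball (0 : ℂ) 1).add_smul_sub_mem ha hb ht
    simpa using this
  have hd : ∀ t ∈ Icc (0 : ℝ) 1, HasDerivAt (fun t : ℝ => (F (a + (t : ℂ) * (b - a)) / (b - a)).re)
      (f (a + (t : ℂ) * (b - a))).re t := by
    intro t ht
    have h1 : HasDerivAt (fun s : ℂ => a + s * (b - a)) (b - a) (t : ℂ) := by
      have := ((hasDerivAt_id (t : ℂ)).mul_const (b - a)).const_add a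
      simpa using this
    have h2 := ((hF _ (hmem t ht)).comp (t : ℂ) h1).div_const (b - a)
    rw [mul_div_cancel_right₀ _ hab] at h2
    exact h2.real_of_complex
  have hmono : StrictMonoOn (fun t : ℝ => (F (a + (t : ℂ) * (b - a)) / (b - a)).re) (Icc 0 1) := by
    apply strictMonoOn_of_deriv_pos (convex_Icc 0 1)
    · exact fun t ht => (hd t ht).continuousAt.continuousWithinAt
    · intro t ht
      have ht' := interior_subset ht
      rw [(hd t ht').deriv]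
      exact hf _ (hmem t ht')
  have := hmono (left_mem_Icc.2 zero_le_one) (right_mem_Icc.2 zero_le_one) zero_lt_one
  simp only [Complex.ofReal_zero, zero_mul, add_zero, Complex.ofReal_one, one_mul,
    add_sub_cancel] at this
  rw [sub_div, Complex.sub_re]
  linarith

theorem exists_preConf : ∃ F : ℂ → ℂ, PreConf F := by
  obtain ⟨F, hF0, hF⟩ := confA_f_diff.isExactOn_ball.with_val_at 0 0
  have hconj : ∀ ζ ∈ Metric.ball (0 : ℂ) 1, F ((starRingEnd ℂ) ζ) = (starRingEnd ℂ) (F ζ) := by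
    have h1 : ∀ ζ ∈ Metric.ball (0 : ℂ) 1,
        HasDerivAt ((starRingEnd ℂ) ∘ F ∘ (starRingEnd ℂ)) (confA_f ζ) ζ := by
      intro ζ h
      have := (hF _ (confA_conj_mem h)).conj_conj
      rwa [confA_f_conj h, Complex.conj_conj, Complex.conj_conj] at this
    intro ζ h
    have := confA_uniq h1 hF (by simp [hF0]) h
    simp only [Function.comp] at this
    rw [← this, Complex.conj_conj]
  refine ⟨F, fun ζ h => (hF ζ h).differentiableAt.differentiableWithinAt, hF0, fun ζ h => ?_,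
    fun ζ h => by rw [(hF ζ h).deriv]; exact confA_f_re h, hconj, fun ζ h => ?_,
    fun a ha b hb hab => ?_, fun ζ h him => ?_⟩
  · rw [(hF ζ h).deriv]
    by_cases h0 : ζ = 0
    · rw [h0]; simp
    · rw [confA_f_ne h0]
      unfold confA_G
      field_simp
  · have h1 : ∀ ζ ∈ Metric.ball (0 : ℂ) 1, HasDerivAt (fun z => -F (-z)) (confA_f ζ) ζ := by
      intro ζ h
      have := ((hF _ (confA_neg_mem h)).comp ζ (hasDerivAt_neg ζ)).neg
      rw [confA_f_neg h, mul_neg_one, neg_neg] at this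
      exact this
    have := confA_uniq h1 hF (by simp [hF0]) h
    simp only at this
    rw [← this, neg_neg]
  · by_contra hne
    have := confA_quot hF (fun ζ h => confA_f_re h) ha hb (sub_ne_zero.2 (Ne.symm hne))
    rw [hab] at this
    simp at this
  · have hne : ζ - (starRingEnd ℂ) ζ ≠ 0 := by
      intro h0
      have := congrArg Complex.im h0
      simp at this
      linarith
    have := confA_quot hF (fun ζ h => confA_f_re h) (confA_conj_mem h) h hne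
    rw [hconj ζ h, Complex.sub_conj, Complex.sub_conj, mul_div_mul_right _ _ Complex.I_ne_zero,
      ← Complex.ofReal_div, Complex.ofReal_re] at this
    by_contra hc
    push Not at hc
    have h2 : 2 * (F ζ).im / (2 * ζ.im) ≤ 0 := div_nonpos_of_nonneg_of_nonpos (by linarith)
      (by linarith)
    linarith

theorem PreConf.confA_strict {F : ℂ → ℂ} (h : PreConf F) {ζ : ℂ} (hζ : ζ ∈ Metric.ball (0 : ℂ) 1) :
    HasStrictDerivAt F (deriv F ζ) ζ ∧ deriv F ζ ≠ 0 := by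
  refine ⟨(h.diffF.analyticAt (Metric.isOpen_ball.mem_nhds hζ)).hasStrictDerivAt, fun h0 => ?_⟩
  have := h.re_pos ζ hζ
  rw [h0] at this
  simp at this

/-- once the image is known to be the lens, the inverse map has the required properties -/
theorem PreConf.conf {F : ℂ → ℂ} (h : PreConf F) (him : F '' Metric.ball 0 1 = Omega) :
    ∃ g : ℂ → ℂ, Conf F g := by
  have hleft : ∀ ζ ∈ Metric.ball (0 : ℂ) 1, Function.invFunOn F (Metric.ball 0 1) (F ζ) = ζ :=
    fun ζ hζ => h.inj.leftInvOn_invFunOn hζ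
  have hsurj : ∀ w ∈ Omega, ∃ ζ ∈ Metric.ball (0 : ℂ) 1, F ζ = w := by
    intro w hw
    rw [← him] at hw
    exact hw
  refine ⟨Function.invFunOn F (Metric.ball 0 1), h.diffF, h.zero, h.formula, h.re_pos,
    fun ζ hζ => him ▸ mem_image_of_mem F hζ, fun w hw => ?_, fun w hw => ?_, hleft,
    fun w hw => ?_, fun w hw => ?_, fun w hw hw2 => ?_⟩
  · obtain ⟨ζ, hζ, rfl⟩ := hsurj w hw
    obtain ⟨h1, h2⟩ := h.confA_strict hζ
    have := h1.to_local_left_inverse h2 (g := Function.invFunOn F (Metric.ball 0 1)) (by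
      filter_upwards [Metric.isOpen_ball.mem_nhds hζ] with x hx
      exact hleft x hx)
    exact this.hasDerivAt.differentiableAt.differentiableWithinAt
  · obtain ⟨ζ, hζ, rfl⟩ := hsurj w hw
    rw [hleft ζ hζ]; exact hζ
  · obtain ⟨ζ, hζ, rfl⟩ := hsurj w hw
    rw [hleft ζ hζ]
  · obtain ⟨ζ, hζ, rfl⟩ := hsurj w hw
    rw [← h.conj ζ hζ, hleft ζ hζ, hleft _ (confA_conj_mem hζ)]
  · obtain ⟨ζ, hζ, rfl⟩ := hsurj w hw
    rw [hleft ζ hζ]
    by_contra hc
    push Not at hc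
    linarith [h.im_neg ζ hζ hc]

theorem PreConf.isOpen_image {F : ℂ → ℂ} (h : PreConf F) : IsOpen (F '' Metric.ball 0 1) := by
  rw [isOpen_iff_mem_nhds]
  rintro _ ⟨ζ, hζ, rfl⟩
  obtain ⟨h1, h2⟩ := h.confA_strict hζ
  rw [← h1.map_nhds_eq h2]
  exact image_mem_map (Metric.isOpen_ball.mem_nhds hζ)

end Vale.Agent.P248
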