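import Vale.Agent.P248.Base

open MeasureTheory Set Filter Topology Matrix
open scoped ENNReal ContDiff Real ComplexOrder Pointwise

namespace Vale.Agent.P248

theorem Lam_neg (s : ℝ) : Lam (-s) = Lam s := by
  simp [Lam]

theorem Lam_abs (s : ℝ) : Lam |s| = Lam s := by
  simp [Lam]

theorem Lam_one : Lam 1 = 0 := by
  simp [Lam]

theorem Lam_eq_zero {s : ℝ} (hs : |s| = 1) : Lam s = 0 := by
  rw [← Lam_abs, hs, Lam_one]

theorem Lam_aux_sin_pos {θ : ℝ} (h0 : 0 < θ) (h1 : θ ≤ π / 2) : 0 < Real.sin (θ / 2) :=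
  Real.sin_pos_of_pos_of_lt_pi (by linarith) (by linarith [Real.pi_pos])

theorem Lam_aux_cos_pos {θ : ℝ} (h0 : 0 ≤ θ) (h1 : θ ≤ π / 2) : 0 < Real.cos (θ / 2) :=
  Real.cos_pos_of_mem_Ioo ⟨by linarith [Real.pi_pos], by linarith [Real.pi_pos]⟩

/-- the integrand of Lam is integrable on the quarter circle -/
theorem intervalIntegrable_logCot :
    IntervalIntegrable (fun θ : ℝ => Real.log (Real.cos (θ / 2) / Real.sin (θ / 2))) volume
      0 (π / 2) := by
  have h1 : IntervalIntegrable (fun θ : ℝ => (Real.log ∘ Real.cos) ((1 / 2) * θ)) volume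
      (0 / (1 / 2)) ((π / 4) / (1 / 2)) :=
    (intervalIntegrable_log_cos (a := 0) (b := π / 4)).comp_mul_left
  have h2 : IntervalIntegrable (fun θ : ℝ => (Real.log ∘ Real.sin) ((1 / 2) * θ)) volume
      (0 / (1 / 2)) ((π / 4) / (1 / 2)) :=
    (intervalIntegrable_log_sin (a := 0) (b := π / 4)).comp_mul_left
  have e0 : (0 : ℝ) / (1 / 2) = 0 := by norm_num
  have e1 : (π / 4) / (1 / 2 : ℝ) = π / 2 := by ring
  rw [e0, e1] at h1 h2
  refine (h1.sub h2).congr ?_
  intro θ hθ
  rw [uIoc_of_le (by positivity)] at hθ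
  have hs := Lam_aux_sin_pos hθ.1 hθ.2
  have hc := Lam_aux_cos_pos hθ.1.le hθ.2
  have e : (1 / 2 : ℝ) * θ = θ / 2 := by ring
  simp only [Function.comp, e]
  rw [Real.log_div hc.ne' hs.ne']

theorem Lam_aux_sin_le_cos {θ : ℝ} (h0 : 0 ≤ θ) (h1 : θ ≤ π / 2) :
    Real.sin (θ / 2) ≤ Real.cos (θ / 2) := by
  rw [← Real.sin_pi_div_two_sub]
  apply Real.sin_le_sin_of_le_of_le_pi_div_two <;> linarith [Real.pi_pos]

theorem Lam_aux_sin_lt_cos {θ : ℝ} (h0 : 0 ≤ θ) (h1 : θ < π / 2) :
    Real.sin (θ / 2) < Real.cos (θ / 2) := by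
  rw [← Real.sin_pi_div_two_sub]
  apply Real.sin_lt_sin_of_lt_of_le_pi_div_two <;> linarith [Real.pi_pos]

theorem logCot_nonneg {θ : ℝ} (h0 : 0 ≤ θ) (h1 : θ ≤ π / 2) :
    0 ≤ Real.log (Real.cos (θ / 2) / Real.sin (θ / 2)) := by
  rcases h0.eq_or_lt with h | h
  · subst h; simp
  · apply Real.log_nonneg
    rw [le_div_iff₀ (Lam_aux_sin_pos h h1), one_mul]
    exact Lam_aux_sin_le_cos h0 h1

theorem Lam_aux_logCot_pos {θ : ℝ} (h0 : 0 < θ) (h1 : θ < π / 2) :
    0 < Real.log (Real.cos (θ / 2) / Real.sin (θ / 2)) := by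
  apply Real.log_pos
  rw [lt_div_iff₀ (Lam_aux_sin_pos h0 h1.le), one_mul]
  exact Lam_aux_sin_lt_cos h0.le h1

theorem Lam_aux_int {x : ℝ} (h0 : 0 ≤ x) (h1 : x ≤ π / 2) :
    IntervalIntegrable (fun θ : ℝ => Real.log (Real.cos (θ / 2) / Real.sin (θ / 2))) volume
      0 x := by
  refine intervalIntegrable_logCot.mono_set ?_
  rw [uIcc_of_le h0, uIcc_of_le (by positivity)]
  exact Icc_subset_Icc le_rfl h1

theorem Lam_aux_le (s : ℝ) : π / 2 * (1 - |s|) ≤ π / 2 := by
  have := abs_nonneg s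
  have := Real.pi_pos
  nlinarith

theorem Lam_pos {s : ℝ} (hs : |s| < 1) : 0 < Lam s := by
  have hp := Real.pi_pos
  have hx : 0 < π / 2 * (1 - |s|) := by
    have : 0 < 1 - |s| := by linarith
    positivity
  unfold Lam
  apply mul_pos (by positivity)
  apply intervalIntegral.intervalIntegral_pos_of_pos_on (Lam_aux_int hx.le (Lam_aux_le s)) _ hx
  intro θ hθ
  exact Lam_aux_logCot_pos hθ.1 (hθ.2.trans_le (Lam_aux_le s))

theorem Lam_nonneg {s : ℝ} (hs : |s| ≤ 1) : 0 ≤ Lam s := by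
  rcases hs.eq_or_lt with h | h
  · rw [Lam_eq_zero h]
  · exact (Lam_pos h).le

theorem Lam_anti {s t : ℝ} (hst : |s| ≤ |t|) (ht : |t| ≤ 1) : Lam t ≤ Lam s := by
  have hp := Real.pi_pos
  have hx : 0 ≤ π / 2 * (1 - |t|) := by
    have : 0 ≤ 1 - |t| := by linarith
    positivity
  have hxy : π / 2 * (1 - |t|) ≤ π / 2 * (1 - |s|) := by nlinarith
  unfold Lam
  apply mul_le_mul_of_nonneg_left _ (by positivity)
  apply intervalIntegral.integral_mono_interval le_rfl hx hxy _
    (Lam_aux_int (hx.trans hxy) (Lam_aux_le s))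
  refine (ae_restrict_mem measurableSet_Ioc).mono ?_
  intro θ hθ
  exact logCot_nonneg hθ.1.le (hθ.2.trans (Lam_aux_le s))

theorem Lam_le {s : ℝ} (hs : |s| ≤ 1) : Lam s ≤ Lam 0 :=
  Lam_anti (by simp) hs

theorem Lam_continuousOn : ContinuousOn Lam (Icc (-1) 1) := by
  have hp := Real.pi_pos
  have h := intervalIntegral.continuousOn_primitive_interval' intervalIntegrable_logCot
    (a := 0) left_mem_uIcc
  have hc : ContinuousOn (fun s : ℝ => π / 2 * (1 - |s|)) (Icc (-1) 1) := by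
    fun_prop
  have hm : MapsTo (fun s : ℝ => π / 2 * (1 - |s|)) (Icc (-1) 1) (uIcc 0 (π / 2)) := by
    intro s hs
    rw [uIcc_of_le (by positivity)]
    have h1 : |s| ≤ 1 := abs_le.2 hs
    refine ⟨?_, Lam_aux_le s⟩
    have : 0 ≤ 1 - |s| := by linarith
    positivity
  exact continuousOn_const.mul (h.comp hc hm)

theorem Lam_aux_lower {θ : ℝ} (h0 : 0 < θ) (h1 : θ ≤ 1) :
    -Real.log θ ≤ Real.log (Real.cos (θ / 2) / Real.sin (θ / 2)) := by
  have hpi : θ ≤ π / 2 := by linarith [Real.pi_gt_three]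
  have hs := Lam_aux_sin_pos h0 hpi
  have hc : 1 - (θ / 2) ^ 2 / 2 ≤ Real.cos (θ / 2) := Real.one_sub_sq_div_two_le_cos
  have hs' : Real.sin (θ / 2) ≤ θ / 2 := Real.sin_le (by linarith)
  rw [← Real.log_inv]
  apply Real.log_le_log (by positivity)
  rw [le_div_iff₀ hs, inv_mul_le_iff₀ h0]
  have : 1 / 2 ≤ Real.cos (θ / 2) := by nlinarith
  nlinarith

theorem Lam_aux_upper {θ : ℝ} (h0 : 0 < θ) (h1 : θ ≤ 1) :
    Real.log (Real.cos (θ / 2) / Real.sin (θ / 2)) ≤ Real.log 4 - Real.log θ := by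
  have hpi : θ ≤ π / 2 := by linarith [Real.pi_gt_three]
  have hs := Lam_aux_sin_pos h0 hpi
  have hc0 := Lam_aux_cos_pos h0.le hpi
  have hc : Real.cos (θ / 2) ≤ 1 := Real.cos_le_one _
  have hs' : θ / 2 - (θ / 2) ^ 3 / 6 < Real.sin (θ / 2) :=
    Real.sin_gt_sub_cube (by linarith)
  rw [← Real.log_div (by norm_num) h0.ne']
  apply Real.log_le_log (by positivity)
  rw [div_le_div_iff₀ hs h0]
  have h3 : θ ^ 3 ≤ θ := by
    have : θ ^ 2 ≤ 1 := by nlinarith
    nlinarith
  nlinarith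

theorem Lam_aux_G_lower {x : ℝ} (h0 : 0 < x) (h1 : x ≤ 1) :
    x - x * Real.log x ≤ ∫ θ in (0 : ℝ)..x, Real.log (Real.cos (θ / 2) / Real.sin (θ / 2)) := by
  have hpi : x ≤ π / 2 := by linarith [Real.pi_gt_three]
  have e : x - x * Real.log x = ∫ θ in (0 : ℝ)..x, -Real.log θ := by
    rw [intervalIntegral.integral_neg, integral_log]; ring
  rw [e]
  apply intervalIntegral.integral_mono_on_of_le_Ioo h0.le
    (intervalIntegral.intervalIntegrable_log'.neg) (Lam_aux_int h0.le hpi)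
  intro θ hθ
  exact Lam_aux_lower hθ.1 (hθ.2.le.trans h1)

theorem Lam_aux_G_upper {x : ℝ} (h0 : 0 < x) (h1 : x ≤ 1) :
    ∫ θ in (0 : ℝ)..x, Real.log (Real.cos (θ / 2) / Real.sin (θ / 2))
      ≤ x * Real.log 4 + x - x * Real.log x := by
  have hpi : x ≤ π / 2 := by linarith [Real.pi_gt_three]
  have e : x * Real.log 4 + x - x * Real.log x
      = ∫ θ in (0 : ℝ)..x, (Real.log 4 - Real.log θ) := by
    rw [intervalIntegral.integral_sub intervalIntegrable_const
      intervalIntegral.intervalIntegrable_log', integral_log]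
    simp only [intervalIntegral.integral_const, smul_eq_mul]; ring
  rw [e]
  apply intervalIntegral.integral_mono_on_of_le_Ioo h0.le (Lam_aux_int h0.le hpi)
    (intervalIntegrable_const.sub intervalIntegral.intervalIntegrable_log')
  intro θ hθ
  exact Lam_aux_upper hθ.1 (hθ.2.le.trans h1)

theorem Lam_aux_L : Tendsto (fun t : ℝ => Real.log (1 / t)) (𝓝[>] 0) atTop := by
  have h : Tendsto (fun t : ℝ => -Real.log t) (𝓝[>] 0) atTop :=
    tendsto_neg_atBot_atTop.comp Real.tendsto_log_nhdsGT_zero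
  refine h.congr ?_
  intro t
  rw [one_div, Real.log_inv]

theorem Lam_aux_lim (c : ℝ) :
    Tendsto (fun t : ℝ => 2 / π * (1 + c / Real.log (1 / t))) (𝓝[>] 0) (𝓝 (2 / π)) := by
  have h : Tendsto (fun t : ℝ => c / Real.log (1 / t)) (𝓝[>] 0) (𝓝 0) :=
    tendsto_const_nhds.div_atTop Lam_aux_L
  have h2 := (h.const_add 1).const_mul (2 / π)
  simpa using h2

theorem Lam_aux_small : ∀ᶠ t : ℝ in 𝓝[>] 0, 0 < t ∧ t < 1 / 2 := by
  have : Ioo (0 : ℝ) (1 / 2) ∈ 𝓝[>] (0 : ℝ) := Ioo_mem_nhdsGT (by norm_num)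
  filter_upwards [this] with t ht using ht

theorem Lam_aux_eq {t : ℝ} (h1 : t ≤ 1) :
    Lam (1 - t) = 4 / π ^ 2 *
      ∫ θ in (0 : ℝ)..(π / 2 * t), Real.log (Real.cos (θ / 2) / Real.sin (θ / 2)) := by
  unfold Lam
  rw [abs_of_nonneg (by linarith)]
  congr 3
  ring

theorem Lam_asymp :
    Tendsto (fun t : ℝ => Lam (1 - t) / (t * Real.log (1 / t))) (𝓝[>] 0) (𝓝 (2 / π)) := by
  have hp := Real.pi_pos
  have hp4 := Real.pi_lt_four
  refine tendsto_of_tendsto_of_tendsto_of_le_of_le' (Lam_aux_lim (1 - Real.log (π / 2)))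
    (Lam_aux_lim (Real.log 4 + 1 - Real.log (π / 2))) ?_ ?_
  · filter_upwards [Lam_aux_small] with t ht
    have hL : 0 < Real.log (1 / t) := Real.log_pos (by rw [lt_div_iff₀ ht.1]; linarith [ht.2])
    have ht0 := ht.1
    have hx0 : 0 < π / 2 * t := by positivity
    have hx1 : π / 2 * t ≤ 1 := by nlinarith [ht.2]
    have hG := Lam_aux_G_lower hx0 hx1
    have hlog : Real.log (π / 2 * t) = Real.log (π / 2) - Real.log (1 / t) := by
      rw [Real.log_mul (by positivity) ht0.ne', one_div, Real.log_inv]; ring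
    rw [Lam_aux_eq (by linarith [ht.2]), le_div_iff₀ (by positivity)]
    rw [hlog] at hG
    refine le_trans (le_of_eq ?_) (mul_le_mul_of_nonneg_left hG (by positivity))
    field_simp
    ring
  · filter_upwards [Lam_aux_small] with t ht
    have hL : 0 < Real.log (1 / t) := Real.log_pos (by rw [lt_div_iff₀ ht.1]; linarith [ht.2])
    have ht0 := ht.1
    have hx0 : 0 < π / 2 * t := by positivity
    have hx1 : π / 2 * t ≤ 1 := by nlinarith [ht.2]
    have hG := Lam_aux_G_upper hx0 hx1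
    have hlog : Real.log (π / 2 * t) = Real.log (π / 2) - Real.log (1 / t) := by
      rw [Real.log_mul (by positivity) ht0.ne', one_div, Real.log_inv]; ring
    rw [Lam_aux_eq (by linarith [ht.2]), div_le_iff₀ (by positivity)]
    rw [hlog] at hG
    refine le_trans (mul_le_mul_of_nonneg_left hG (by positivity)) (le_of_eq ?_)
    field_simp
    ring

theorem Lam_ratio {s : ℝ} (hs : 0 ≤ s) :
    Tendsto (fun ε : ℝ => Lam (1 - ε * s) / Lam (1 - ε)) (𝓝[>] 0) (𝓝 s) := by
  have hp := Real.pi_pos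
  rcases hs.eq_or_lt with h | h
  · subst h
    simp [Lam_one]
  · have hm : Tendsto (fun ε : ℝ => ε * s) (𝓝[>] 0) (𝓝[>] 0) := by
      apply tendsto_nhdsWithin_iff.2
      constructor
      · have : Tendsto (fun ε : ℝ => ε * s) (𝓝 0) (𝓝 (0 * s)) :=
          (continuous_id.mul continuous_const).tendsto 0
        rw [zero_mul] at this
        exact this.mono_left nhdsWithin_le_nhds
      · filter_upwards [self_mem_nhdsWithin] with ε hε
        exact mul_pos hε h
    have h1 := Lam_asymp.comp hm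
    have h2 := h1.div Lam_asymp (by positivity)
    have h3 : Tendsto (fun t : ℝ => Real.log (1 / s) / Real.log (1 / t)) (𝓝[>] 0) (𝓝 0) :=
      tendsto_const_nhds.div_atTop Lam_aux_L
    have h4 := h2.mul ((h3.const_add 1).const_mul s)
    have e : 2 / π / (2 / π) * (s * (1 + 0)) = s := by
      field_simp
      ring
    rw [e] at h4
    refine h4.congr' ?_
    filter_upwards [Lam_aux_small, hm.eventually Lam_aux_small] with t ht hts
    have ht0 := ht.1
    have hL : 0 < Real.log (1 / t) := Real.log_pos (by rw [lt_div_iff₀ ht.1]; linarith [ht.2])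
    have hL2 : 0 < Real.log (1 / (t * s)) :=
      Real.log_pos (by rw [lt_div_iff₀ hts.1]; linarith [hts.2])
    have hlog : Real.log (1 / s) = Real.log (1 / (t * s)) - Real.log (1 / t) := by
      rw [one_div, one_div, one_div, Real.log_inv, Real.log_inv, Real.log_inv,
        Real.log_mul ht0.ne' h.ne']
      ring
    have hpos : 0 < Lam (1 - t) := Lam_pos (by rw [abs_lt]; constructor <;> linarith [ht.2])
    simp only [Function.comp, Pi.div_apply]
    rw [hlog]
    field_simp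
    ring

theorem Lam_sqrt :
    Tendsto (fun t : ℝ => Lam (1 - t) / Real.sqrt t) (𝓝[>] 0) (𝓝 0) := by
  have h1 := tendsto_log_mul_rpow_nhdsGT_zero (r := 1 / 2) (by norm_num)
  have h2 := Lam_asymp.mul h1.neg
  rw [neg_zero, mul_zero] at h2
  refine h2.congr' ?_
  filter_upwards [Lam_aux_small] with t ht
  have ht0 := ht.1
  have hL : 0 < Real.log (1 / t) := Real.log_pos (by rw [lt_div_iff₀ ht.1]; linarith [ht.2])
  have hlog : Real.log t = -Real.log (1 / t) := by rw [one_div, Real.log_inv, neg_neg]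
  rw [← Real.sqrt_eq_rpow, hlog]
  have hq : 0 < Real.sqrt t := Real.sqrt_pos.2 ht0
  have hsq : Real.sqrt t * Real.sqrt t = t := Real.mul_self_sqrt ht0.le
  rw [div_mul_eq_mul_div, div_eq_div_iff (by positivity) hq.ne']
  linear_combination (Lam (1 - t) * Real.log (1 / t)) * hsq

theorem isOpen_Omega : IsOpen Omega := by
  have hU : IsOpen {w : ℂ | |w.re| < 1} :=
    isOpen_lt (continuous_abs.comp Complex.continuous_re) continuous_const
  have hc : ContinuousOn (fun w : ℂ => Lam w.re - |w.im|) {w : ℂ | |w.re| < 1} := by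
    apply ContinuousOn.sub
    · apply Lam_continuousOn.comp Complex.continuous_re.continuousOn
      intro w hw
      exact abs_le.1 (le_of_lt hw)
    · exact (continuous_abs.comp Complex.continuous_im).continuousOn
  have h := hc.isOpen_inter_preimage hU (isOpen_Ioi (a := (0 : ℝ)))
  convert h using 1
  ext w
  simp [Omega]

theorem isPreconnected_Omega : IsPreconnected Omega := by
  have hS : IsPreconnected (Ioo (-1 : ℝ) 1 ×ˢ Ioo (-1 : ℝ) 1) :=
    isPreconnected_Ioo.prod isPreconnected_Ioo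
  have hc : ContinuousOn (fun p : ℝ × ℝ => (p.1 : ℂ) + ((p.2 * Lam p.1 : ℝ) : ℂ) * Complex.I)
      (Ioo (-1 : ℝ) 1 ×ˢ Ioo (-1 : ℝ) 1) := by
    have hl : ContinuousOn (fun p : ℝ × ℝ => Lam p.1) (Ioo (-1 : ℝ) 1 ×ˢ Ioo (-1 : ℝ) 1) := by
      apply Lam_continuousOn.comp continuous_fst.continuousOn
      intro p hp
      exact Ioo_subset_Icc_self hp.1
    apply ContinuousOn.add
    · exact (Complex.continuous_ofReal.comp continuous_fst).continuousOn
    · apply ContinuousOn.mul _ continuousOn_const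
      exact Complex.continuous_ofReal.comp_continuousOn (continuous_snd.continuousOn.mul hl)
  have h := hS.image _ hc
  convert h using 1
  ext w
  constructor
  · rintro ⟨h1, h2⟩
    have hp := Lam_pos h1
    refine ⟨(w.re, w.im / Lam w.re), ⟨abs_lt.1 h1, ?_⟩, ?_⟩
    · have : |w.im / Lam w.re| < 1 := by
        rw [abs_div, abs_of_pos hp, div_lt_one hp]; exact h2
      exact abs_lt.1 this
    · simp only
      rw [div_mul_cancel₀ _ hp.ne']
      exact Complex.re_add_im w
  · rintro ⟨p, ⟨h1, h2⟩, rfl⟩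
    have h1' : |p.1| < 1 := abs_lt.2 h1
    have h2' : |p.2| < 1 := abs_lt.2 h2
    have hp := Lam_pos h1'
    constructor
    · simpa using h1'
    · have : |p.2 * Lam p.1| < Lam p.1 := by
        rw [abs_mul, abs_of_pos hp]
        nlinarith
      simpa using this

theorem isBounded_Omega : Bornology.IsBounded Omega := by
  refine (Metric.isBounded_closedBall (x := (0 : ℂ)) (r := 1 + Lam 0)).subset ?_
  rintro w ⟨h1, h2⟩
  rw [mem_closedBall_zero_iff]
  have := Complex.norm_le_abs_re_add_abs_im w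
  have := Lam_le h1.le
  linarith

end Vale.Agent.P248
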