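import Vale.Agent.P248.ConfA
import Vale.Agent.P248.Lam

open MeasureTheory Set Filter Topology Matrix
open scoped ENNReal ContDiff Real ComplexOrder Pointwise

namespace Vale.Agent.P248

namespace ConfB

/-- the logarithm in polar coordinates -/
noncomputable def L (r φ : ℝ) : ℂ :=
  Complex.log ((1 + r * Complex.exp (φ * Complex.I)) / (1 - r * Complex.exp (φ * Complex.I)))

/-- the boundary value of the real part -/
noncomputable def A (φ : ℝ) : ℝ := Real.log (Real.cos (φ / 2) / Real.sin (φ / 2))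

theorem M_re (z : ℂ) : ((1 + z) / (1 - z)).re = (1 - Complex.normSq z) / Complex.normSq (1 - z) := by
  rw [Complex.div_re, ← add_div]
  congr 1
  simp [Complex.normSq_apply]
  ring

theorem M_im (z : ℂ) : ((1 + z) / (1 - z)).im = 2 * z.im / Complex.normSq (1 - z) := by
  rw [Complex.div_im, ← sub_div]
  congr 1
  simp
  ring

theorem norm_pol {r : ℝ} (hr0 : 0 ≤ r) (φ : ℝ) :
    ‖(r : ℂ) * Complex.exp (φ * Complex.I)‖ = r := by
  rw [norm_mul, Complex.norm_exp_ofReal_mul_I, mul_one, Complex.norm_real, Real.norm_of_nonneg hr0]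

theorem mem_pol {r : ℝ} (hr0 : 0 ≤ r) (hr : r < 1) (φ : ℝ) :
    (r : ℂ) * Complex.exp (φ * Complex.I) ∈ Metric.ball (0 : ℂ) 1 := by
  rw [mem_ball_zero_iff, norm_pol hr0]; exact hr

theorem ne_of_lt {z : ℂ} (hz : ‖z‖ < 1) : 1 - z ≠ 0 := by
  intro h
  rw [← sub_eq_zero.1 h] at hz
  simp at hz

theorem M_re_pos {z : ℂ} (hz : ‖z‖ < 1) : 0 < ((1 + z) / (1 - z)).re := by
  rw [M_re]
  refine div_pos ?_ (Complex.normSq_pos.2 (ne_of_lt hz))
  rw [Complex.normSq_eq_norm_sq]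
  nlinarith [norm_nonneg z]

theorem L_cont {r : ℝ} (hr0 : 0 ≤ r) (hr : r < 1) : Continuous (L r) := by
  refine Continuous.clog (Continuous.div (by fun_prop) (by fun_prop) fun φ => ?_) fun φ => ?_
  · exact ne_of_lt (by rw [norm_pol hr0]; exact hr)
  · exact Or.inl (M_re_pos (by rw [norm_pol hr0]; exact hr))

theorem deriv_pol {F : ℂ → ℂ} (h : PreConf F) {r : ℝ} (hr0 : 0 ≤ r) (hr : r < 1) (θ : ℝ) :
    HasDerivAt (fun θ : ℝ => F (r * Complex.exp (θ * Complex.I)))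
      (Complex.I * ((4 / π ^ 2 : ℝ) * L r θ)) θ := by
  have hm := mem_pol hr0 hr θ
  have h1 := (h.diffF.differentiableAt (Metric.isOpen_ball.mem_nhds hm)).hasDerivAt
  have h2 : HasDerivAt (fun w : ℂ => (r : ℂ) * Complex.exp (w * Complex.I))
      (r * (Complex.exp (θ * Complex.I) * Complex.I)) (θ : ℂ) := by
    simpa using (((hasDerivAt_id (θ : ℂ)).mul_const Complex.I).cexp).const_mul (r : ℂ)
  have h3 := (HasDerivAt.comp (θ : ℂ) h1 h2).comp_ofReal
  refine h3.congr_deriv ?_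
  rw [L, ← h.formula _ hm]
  ring

theorem pol_re (r φ : ℝ) : ((r : ℂ) * Complex.exp (φ * Complex.I)).re = r * Real.cos φ := by
  simp [Complex.exp_ofReal_mul_I_re, Complex.exp_ofReal_mul_I_im]

theorem pol_im (r φ : ℝ) : ((r : ℂ) * Complex.exp (φ * Complex.I)).im = r * Real.sin φ := by
  simp [Complex.exp_ofReal_mul_I_re, Complex.exp_ofReal_mul_I_im]

theorem im_bounds {r φ : ℝ} (hr0 : 0 ≤ r) (hr : r < 1) (h0 : 0 ≤ φ) (h1 : φ ≤ π / 2) :
    0 ≤ (L r φ).im ∧ (L r φ).im ≤ π / 2 := by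
  rw [L, Complex.log_im]
  refine ⟨Complex.arg_nonneg_iff.2 ?_, Complex.arg_le_pi_div_two_iff.2 (Or.inl
    (M_re_pos (by rw [norm_pol hr0]; exact hr)).le)⟩
  rw [M_im, pol_im]
  have := Real.sin_nonneg_of_nonneg_of_le_pi h0 (by linarith [Real.pi_pos])
  exact div_nonneg (by positivity) (Complex.normSq_nonneg _)

theorem normSq_add (r φ : ℝ) : Complex.normSq (1 + r * Complex.exp (φ * Complex.I)) =
    1 + r ^ 2 + 2 * r * Real.cos φ := by
  rw [Complex.normSq_apply, Complex.add_re, Complex.add_im, pol_re, pol_im]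
  simp only [Complex.one_re, Complex.one_im]
  linear_combination r ^ 2 * Real.sin_sq_add_cos_sq φ

theorem normSq_sub (r φ : ℝ) : Complex.normSq (1 - r * Complex.exp (φ * Complex.I)) =
    1 + r ^ 2 - 2 * r * Real.cos φ := by
  rw [Complex.normSq_apply, Complex.sub_re, Complex.sub_im, pol_re, pol_im]
  simp only [Complex.one_re, Complex.one_im]
  linear_combination r ^ 2 * Real.sin_sq_add_cos_sq φ

theorem half_pos {φ : ℝ} (h0 : 0 < φ) (h1 : φ ≤ π / 2) :
    0 < Real.sin (φ / 2) ∧ 0 < Real.cos (φ / 2) :=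
  ⟨Real.sin_pos_of_pos_of_lt_pi (by linarith) (by linarith [Real.pi_pos]),
    Real.cos_pos_of_mem_Ioo ⟨by linarith [Real.pi_pos], by linarith [Real.pi_pos]⟩⟩

theorem cos_eq (φ : ℝ) : Real.cos φ = Real.cos (φ / 2) ^ 2 - Real.sin (φ / 2) ^ 2 := by
  rw [← Real.cos_two_mul']; congr 1; ring

theorem sin_eq (φ : ℝ) : Real.sin φ = 2 * Real.sin (φ / 2) * Real.cos (φ / 2) := by
  rw [← Real.sin_two_mul]; congr 1; ring

theorem ne_one {φ : ℝ} (h0 : 0 < φ) (h1 : φ ≤ π / 2) :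
    1 - ((1 : ℝ) : ℂ) * Complex.exp (φ * Complex.I) ≠ 0 := by
  rw [← Complex.normSq_pos, normSq_sub, cos_eq]
  have := (half_pos h0 h1).1
  nlinarith [Real.sin_sq_add_cos_sq (φ / 2)]

theorem M_one {φ : ℝ} (h0 : 0 < φ) (h1 : φ ≤ π / 2) :
    (1 + ((1 : ℝ) : ℂ) * Complex.exp (φ * Complex.I)) /
      (1 - ((1 : ℝ) : ℂ) * Complex.exp (φ * Complex.I)) =
      (Real.cos (φ / 2) / Real.sin (φ / 2) : ℝ) * Complex.I := by
  obtain ⟨hs, hc⟩ := half_pos h0 h1
  have e := Real.sin_sq_add_cos_sq (φ / 2)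
  apply Complex.ext
  · rw [M_re, Complex.normSq_eq_norm_sq, norm_pol zero_le_one, Complex.re_ofReal_mul]
    simp
  · rw [M_im, pol_im, normSq_sub, sin_eq φ, cos_eq φ]
    simp only [Complex.mul_im, Complex.ofReal_re, Complex.I_im, Complex.ofReal_im, Complex.I_re]
    have : 1 + (1 : ℝ) ^ 2 - 2 * 1 * (Real.cos (φ / 2) ^ 2 - Real.sin (φ / 2) ^ 2) =
        4 * Real.sin (φ / 2) ^ 2 := by linear_combination (-2) * e
    rw [this]
    field_simp
    ring

theorem L_one {φ : ℝ} (h0 : 0 < φ) (h1 : φ ≤ π / 2) :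
    (L 1 φ).re = A φ ∧ (L 1 φ).im = π / 2 := by
  obtain ⟨hs, hc⟩ := half_pos h0 h1
  rw [L, M_one h0 h1, Complex.log_ofReal_mul (div_pos hc hs) Complex.I_ne_zero, Complex.log_I]
  constructor
  · simp only [Complex.add_re, Complex.ofReal_re, A]
    simp
  · simp only [Complex.add_im, Complex.ofReal_im]
    simp

theorem L_tendsto {φ : ℝ} (h0 : 0 < φ) (h1 : φ ≤ π / 2) :
    Tendsto (fun r => L r φ) (𝓝[<] 1) (𝓝 (L 1 φ)) := by
  obtain ⟨hs, hc⟩ := half_pos h0 h1
  refine Tendsto.mono_left ?_ nhdsWithin_le_nhds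
  refine ContinuousAt.clog (f := fun r : ℝ => (1 + r * Complex.exp (φ * Complex.I)) /
    (1 - r * Complex.exp (φ * Complex.I)))
    (ContinuousAt.div (by fun_prop) (by fun_prop) (ne_one h0 h1)) (Or.inr ?_)
  rw [M_one h0 h1]
  simp only [Complex.mul_im, Complex.ofReal_re, Complex.I_im, Complex.ofReal_im, Complex.I_re]
  have := div_pos hc hs
  linarith

theorem re_nonneg {r φ : ℝ} (hr0 : 0 ≤ r) (hr : r < 1) (h0 : 0 ≤ φ) (h1 : φ ≤ π / 2) :
    0 ≤ (L r φ).re := by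
  rw [L, Complex.log_re]
  refine Real.log_nonneg ?_
  have hc : 0 ≤ Real.cos φ := Real.cos_nonneg_of_mem_Icc ⟨by linarith [Real.pi_pos], h1⟩
  have hp := Complex.normSq_pos.2 (ne_of_lt (z := r * Complex.exp (φ * Complex.I))
    (by rw [norm_pol hr0]; exact hr))
  rw [← Real.sqrt_one, Complex.norm_def]
  refine Real.sqrt_le_sqrt ?_
  rw [map_div₀, le_div_iff₀ hp, normSq_add, normSq_sub]
  nlinarith [mul_nonneg hr0 hc]

theorem re_le {r φ : ℝ} (hr0 : 0 ≤ r) (hr : r < 1) (h0 : 0 < φ) (h1 : φ ≤ π / 2) :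
    (L r φ).re ≤ A φ := by
  rw [← (L_one h0 h1).1, L, L, Complex.log_re, Complex.log_re]
  have hz : ‖(r : ℂ) * Complex.exp (φ * Complex.I)‖ < 1 := by rw [norm_pol hr0]; exact hr
  refine Real.log_le_log (norm_pos_iff.2 fun h => ?_) ?_
  · have := M_re_pos hz
    rw [h] at this
    simp at this
  have hc : 0 ≤ Real.cos φ := Real.cos_nonneg_of_mem_Icc ⟨by linarith [Real.pi_pos], h1⟩
  have hp := Complex.normSq_pos.2 (ne_of_lt hz)
  have hp' := Complex.normSq_pos.2 (ne_one h0 h1)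
  rw [Complex.norm_def, Complex.norm_def]
  refine Real.sqrt_le_sqrt ?_
  rw [map_div₀, map_div₀, div_le_div_iff₀ hp hp', normSq_add, normSq_sub, normSq_add, normSq_sub]
  nlinarith [mul_nonneg hc (sq_nonneg (1 - r))]

theorem A_int {θ : ℝ} (h0 : 0 ≤ θ) (h1 : θ ≤ π / 2) : IntervalIntegrable A volume 0 θ :=
  intervalIntegrable_logCot.mono_set (by
    rw [uIcc_of_le h0, uIcc_of_le (h0.trans h1)]; exact Icc_subset_Icc le_rfl h1)

theorem t_mem {θ : ℝ} (h0 : 0 ≤ θ) (h1 : θ ≤ π / 2) :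
    0 ≤ 1 - 2 * θ / π ∧ 1 - 2 * θ / π ≤ 1 := by
  have := Real.pi_pos
  constructor
  · rw [sub_nonneg, div_le_one this]; linarith
  · have : 0 ≤ 2 * θ / π := by positivity
    linarith

theorem Lam_eq {θ : ℝ} (h0 : 0 ≤ θ) (h1 : θ ≤ π / 2) :
    Lam (1 - 2 * θ / π) = 4 / π ^ 2 * ∫ φ in (0 : ℝ)..θ, A φ := by
  have := Real.pi_pos
  have e : π / 2 * (1 - |1 - 2 * θ / π|) = θ := by
    rw [abs_of_nonneg (t_mem h0 h1).1]
    field_simp
    ring
  rw [Lam, e]
  rfl

theorem t_eq (θ : ℝ) : 1 - 2 * θ / π = 4 / π ^ 2 * ∫ _ in θ..(π / 2), π / 2 := by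
  have := Real.pi_pos
  rw [intervalIntegral.integral_const, smul_eq_mul]
  field_simp
  ring

theorem reduce {F : ℂ → ℂ} (h : PreConf F) {z : ℂ} (hz : ‖z‖ < 1) :
    ∃ θ : ℝ, 0 ≤ θ ∧ θ ≤ π / 2 ∧
      |(F z).re| = |(F (‖z‖ * Complex.exp (θ * Complex.I))).re| ∧
      |(F z).im| = |(F (‖z‖ * Complex.exp (θ * Complex.I))).im| := by
  set w : ℂ := ⟨|z.re|, |z.im|⟩ with hw
  have hn : ‖w‖ = ‖z‖ := by
    rw [Complex.norm_def, Complex.norm_def]
    simp [hw, Complex.normSq_apply]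
  have hwm : w ∈ Metric.ball (0 : ℂ) 1 := by rw [mem_ball_zero_iff, hn]; exact hz
  have hwc : (starRingEnd ℂ) w ∈ Metric.ball (0 : ℂ) 1 := by simpa using hwm
  refine ⟨w.arg, Complex.arg_nonneg_iff.2 (abs_nonneg _),
    Complex.arg_le_pi_div_two_iff.2 (Or.inl (abs_nonneg _)), ?_⟩
  rw [← hn, Complex.norm_mul_exp_arg_mul_I]
  have : z = w ∨ z = -w ∨ z = (starRingEnd ℂ) w ∨ z = -(starRingEnd ℂ) w := by
    rcases abs_cases z.re with h1 | h1 <;> rcases abs_cases z.im with h2 | h2 <;>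
      simp [hw, Complex.ext_iff, h1.1, h2.1]
  rcases this with e | e | e | e <;> rw [e]
  · exact ⟨rfl, rfl⟩
  · simp [h.neg _ hwm]
  · simp [h.conj _ hwm]
  · simp [h.neg _ hwc, h.conj _ hwm]

end ConfB

open ConfB

/-- polar formula for the real part -/
theorem PreConf.re_polar {F : ℂ → ℂ} (h : PreConf F) {r : ℝ} (hr0 : 0 ≤ r) (hr : r < 1) (θ : ℝ) :
    (F (r * Complex.exp (θ * Complex.I))).re = 4 / π ^ 2 * ∫ φ in θ..(π / 2),
      (Complex.log ((1 + r * Complex.exp (φ * Complex.I)) /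
        (1 - r * Complex.exp (φ * Complex.I)))).im := by
  have hd := fun φ => (Complex.reCLM.hasFDerivAt.comp_hasDerivAt φ (deriv_pol h hr0 hr φ))
  have hc : Continuous fun φ => Complex.reCLM (Complex.I * ((4 / π ^ 2 : ℝ) * L r φ)) := by
    have := L_cont hr0 hr
    fun_prop
  have e := intervalIntegral.integral_eq_sub_of_hasDerivAt (a := θ) (b := π / 2)
    (fun φ _ => hd φ) (hc.intervalIntegrable _ _)
  have z : (F (r * Complex.exp ((π / 2 : ℝ) * Complex.I))).re = 0 := by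
    have hm := mem_pol hr0 hr (π / 2)
    have h1 := h.conj _ hm
    have h2 : (starRingEnd ℂ) (r * Complex.exp ((π / 2 : ℝ) * Complex.I)) =
        -(r * Complex.exp ((π / 2 : ℝ) * Complex.I)) := by
      apply Complex.ext
      · rw [Complex.conj_re, Complex.neg_re, pol_re]; simp
      · rw [Complex.conj_im, Complex.neg_im]
    rw [h2, h.neg _ hm] at h1
    have := congrArg Complex.re h1
    rw [Complex.neg_re, Complex.conj_re] at this
    linarith
  simp only [Function.comp, Complex.reCLM_apply, z, Complex.I_mul_re, Complex.im_ofReal_mul,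
    intervalIntegral.integral_neg, intervalIntegral.integral_const_mul] at e
  exact (by linarith : _ = 4 / π ^ 2 * ∫ φ in θ..(π / 2), (L r φ).im)

/-- polar formula for the imaginary part -/
theorem PreConf.im_polar {F : ℂ → ℂ} (h : PreConf F) {r : ℝ} (hr0 : 0 ≤ r) (hr : r < 1) (θ : ℝ) :
    (F (r * Complex.exp (θ * Complex.I))).im = 4 / π ^ 2 * ∫ φ in (0 : ℝ)..θ,
      (Complex.log ((1 + r * Complex.exp (φ * Complex.I)) /
        (1 - r * Complex.exp (φ * Complex.I)))).re := by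
  have hd := fun φ => (Complex.imCLM.hasFDerivAt.comp_hasDerivAt φ (deriv_pol h hr0 hr φ))
  have hc : Continuous fun φ => Complex.imCLM (Complex.I * ((4 / π ^ 2 : ℝ) * L r φ)) := by
    have := L_cont hr0 hr
    fun_prop
  have e := intervalIntegral.integral_eq_sub_of_hasDerivAt (a := 0) (b := θ)
    (fun φ _ => hd φ) (hc.intervalIntegrable _ _)
  have z : (F (r * Complex.exp ((0 : ℝ) * Complex.I))).im = 0 := by
    have hm := mem_pol hr0 hr 0
    have h1 := h.conj _ hm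
    have h2 : (starRingEnd ℂ) (r * Complex.exp ((0 : ℝ) * Complex.I)) =
        r * Complex.exp ((0 : ℝ) * Complex.I) := by simp
    rw [h2] at h1
    have := congrArg Complex.im h1
    rw [Complex.conj_im] at this
    linarith
  simp only [Function.comp, Complex.imCLM_apply, z, Complex.I_mul_im, Complex.re_ofReal_mul,
    intervalIntegral.integral_const_mul] at e
  exact (by linarith : _ = 4 / π ^ 2 * ∫ φ in (0 : ℝ)..θ, (L r φ).re)

theorem ConfB.quad {F : ℂ → ℂ} (h : PreConf F) {r θ : ℝ} (hr0 : 0 ≤ r) (hr : r < 1)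
    (h0 : 0 ≤ θ) (h1 : θ ≤ π / 2) :
    (0 ≤ (F (r * Complex.exp (θ * Complex.I))).re ∧
      (F (r * Complex.exp (θ * Complex.I))).re ≤ 1 - 2 * θ / π) ∧
    0 ≤ (F (r * Complex.exp (θ * Complex.I))).im ∧
      (F (r * Complex.exp (θ * Complex.I))).im ≤ Lam (1 - 2 * θ / π) := by
  have hc := L_cont hr0 hr
  have hp : (0 : ℝ) ≤ 4 / π ^ 2 := by positivity
  rw [h.re_polar hr0 hr, h.im_polar hr0 hr, Lam_eq h0 h1, t_eq]
  refine ⟨⟨mul_nonneg hp ?_, mul_le_mul_of_nonneg_left ?_ hp⟩, mul_nonneg hp ?_,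
    mul_le_mul_of_nonneg_left ?_ hp⟩
  · exact intervalIntegral.integral_nonneg h1 fun φ hφ =>
      (im_bounds hr0 hr (h0.trans hφ.1) hφ.2).1
  · exact intervalIntegral.integral_mono_on h1
      ((Complex.continuous_im.comp hc).intervalIntegrable _ _) intervalIntegrable_const
      fun φ hφ => (im_bounds hr0 hr (h0.trans hφ.1) hφ.2).2
  · exact intervalIntegral.integral_nonneg h0 fun φ hφ => re_nonneg hr0 hr hφ.1 (hφ.2.trans h1)
  · exact intervalIntegral.integral_mono_on_of_le_Ioo h0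
      ((Complex.continuous_re.comp hc).intervalIntegrable _ _) (A_int h0 h1)
      fun φ hφ => re_le hr0 hr hφ.1 (hφ.2.le.trans h1)

theorem ConfB.closed_lens {F : ℂ → ℂ} (h : PreConf F) {w : ℂ} (hw : w ∈ F '' Metric.ball 0 1) :
    |w.re| ≤ 1 ∧ |w.im| ≤ Lam w.re := by
  obtain ⟨z, hz, rfl⟩ := hw
  rw [mem_ball_zero_iff] at hz
  obtain ⟨θ, h0, h1, e1, e2⟩ := reduce h hz
  obtain ⟨⟨a1, a2⟩, a3, a4⟩ := quad h (norm_nonneg z) hz h0 h1
  obtain ⟨t0, t1⟩ := t_mem h0 h1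
  rw [abs_of_nonneg a1] at e1
  rw [abs_of_nonneg a3] at e2
  refine ⟨by linarith, ?_⟩
  rw [e2]
  exact a4.trans (Lam_anti (by rw [abs_of_nonneg t0]; linarith) (by rw [abs_of_nonneg t0]; exact t1))

theorem PreConf.mapsTo {F : ℂ → ℂ} (h : PreConf F) : MapsTo F (Metric.ball 0 1) Omega := by
  intro z hz
  have hw : F z ∈ F '' Metric.ball 0 1 := mem_image_of_mem F hz
  obtain ⟨δ, hδ, hb⟩ := Metric.isOpen_iff.1 h.isOpen_image _ hw
  have key : ∀ t : ℝ, |t| < δ → |(F z).im + t| ≤ Lam (F z).re := fun t ht => by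
    have := (closed_lens h (hb (show F z + t * Complex.I ∈ Metric.ball (F z) δ by
      simpa [dist_eq_norm] using ht))).2
    simpa using this
  have k1 := key (δ / 2) (by rw [abs_of_pos (by linarith)]; linarith)
  have k2 := key (-(δ / 2)) (by rw [abs_neg, abs_of_pos (by linarith)]; linarith)
  have k3 : |(F z).im| < Lam (F z).re := by
    rw [abs_le] at k1 k2
    rw [abs_lt]
    constructor <;> linarith [k1.2, k2.1]
  refine ⟨lt_of_le_of_ne (closed_lens h hw).1 fun e => ?_, k3⟩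
  rw [Lam_eq_zero e] at k3
  exact absurd k3 (not_lt.2 (abs_nonneg _))

/-- uniform boundary behaviour in the first quadrant -/
theorem PreConf.boundary {F : ℂ → ℂ} (h : PreConf F) {ε : ℝ} (hε : 0 < ε) :
    ∃ r₀ : ℝ, r₀ < 1 ∧ ∀ r θ : ℝ, r₀ < r → 0 ≤ r → r < 1 → 0 ≤ θ → θ ≤ π / 2 →
      |(F (r * Complex.exp (θ * Complex.I))).re - (1 - 2 * θ / π)| ≤ ε ∧
      |(F (r * Complex.exp (θ * Complex.I))).im - Lam (1 - 2 * θ / π)| ≤ ε := by
  have hpi := Real.pi_pos
  have hp : (0 : ℝ) ≤ 4 / π ^ 2 := by positivity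
  have hev : ∀ᶠ r : ℝ in 𝓝[<] 1, 0 ≤ r ∧ r < 1 :=
    mem_of_superset (Ioo_mem_nhdsLT zero_lt_one) fun r hr => ⟨hr.1.le, hr.2⟩
  have hI : uIoc (0 : ℝ) (π / 2) = Ioc 0 (π / 2) := uIoc_of_le (by positivity)
  have T1 : Tendsto (fun r => ∫ φ in (0 : ℝ)..(π / 2), (π / 2 - (L r φ).im)) (𝓝[<] 1)
      (𝓝 (∫ _ in (0 : ℝ)..(π / 2), (0 : ℝ))) := by
    refine intervalIntegral.tendsto_integral_filter_of_dominated_convergence (fun _ => π / 2)
      (hev.mono fun r hr => ?_) (hev.mono fun r hr => Eventually.of_forall fun φ hφ => ?_)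
      intervalIntegrable_const (Eventually.of_forall fun φ hφ => ?_)
    · exact (continuous_const.sub
        (Complex.continuous_im.comp (L_cont hr.1 hr.2))).aestronglyMeasurable
    · rw [hI] at hφ
      have := im_bounds hr.1 hr.2 hφ.1.le hφ.2
      rw [Real.norm_of_nonneg (by linarith)]
      linarith
    · rw [hI] at hφ
      have := ((Complex.continuous_im.tendsto _).comp (L_tendsto hφ.1 hφ.2)).const_sub (π / 2)
      rwa [(L_one hφ.1 hφ.2).2, sub_self] at this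
  have T2 : Tendsto (fun r => ∫ φ in (0 : ℝ)..(π / 2), (A φ - (L r φ).re)) (𝓝[<] 1)
      (𝓝 (∫ _ in (0 : ℝ)..(π / 2), (0 : ℝ))) := by
    refine intervalIntegral.tendsto_integral_filter_of_dominated_convergence A
      (hev.mono fun r hr => ?_) (hev.mono fun r hr => Eventually.of_forall fun φ hφ => ?_)
      intervalIntegrable_logCot (Eventually.of_forall fun φ hφ => ?_)
    · exact intervalIntegrable_logCot.def'.aestronglyMeasurable.sub
        (Complex.continuous_re.comp (L_cont hr.1 hr.2)).aestronglyMeasurable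
    · rw [hI] at hφ
      have := re_le hr.1 hr.2 hφ.1 hφ.2
      have := re_nonneg hr.1 hr.2 hφ.1.le hφ.2
      rw [Real.norm_of_nonneg (by linarith)]
      linarith
    · rw [hI] at hφ
      have := ((Complex.continuous_re.tendsto _).comp (L_tendsto hφ.1 hφ.2)).const_sub (A φ)
      rwa [(L_one hφ.1 hφ.2).1, sub_self] at this
  simp only [intervalIntegral.integral_zero] at T1 T2
  have T1' := T1.const_mul (4 / π ^ 2)
  have T2' := T2.const_mul (4 / π ^ 2)
  rw [mul_zero] at T1' T2'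
  obtain ⟨r₀, hr₀, hsub⟩ := mem_nhdsLT_iff_exists_Ioo_subset.1
    ((T1'.eventually (gt_mem_nhds hε)).and (T2'.eventually (gt_mem_nhds hε)))
  refine ⟨r₀, hr₀, fun r θ h2 hr0 hr h0 h1 => ?_⟩
  obtain ⟨b1, b2⟩ := hsub ⟨h2, hr⟩
  obtain ⟨⟨-, a2⟩, -, a4⟩ := quad h hr0 hr h0 h1
  have hc := L_cont hr0 hr
  have i1 : ∀ a b, IntervalIntegrable (fun φ => (L r φ).im) volume a b :=
    fun a b => (Complex.continuous_im.comp hc).intervalIntegrable _ _
  have i2 : ∀ a b, IntervalIntegrable (fun φ => (L r φ).re) volume a b :=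
    fun a b => (Complex.continuous_re.comp hc).intervalIntegrable _ _
  rw [abs_sub_comm, abs_of_nonneg (sub_nonneg.2 a2), abs_sub_comm, abs_of_nonneg (sub_nonneg.2 a4),
    h.re_polar hr0 hr, h.im_polar hr0 hr, Lam_eq h0 h1, t_eq, ← mul_sub, ← mul_sub]
  refine ⟨le_trans (mul_le_mul_of_nonneg_left ?_ hp) b1.le,
    le_trans (mul_le_mul_of_nonneg_left ?_ hp) b2.le⟩
  · refine (intervalIntegral.integral_sub intervalIntegrable_const (i1 _ _)).symm.trans_le ?_
    refine intervalIntegral.integral_mono_interval h0 h1 le_rfl ?_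
      (intervalIntegrable_const.sub (i1 _ _))
    refine (ae_restrict_iff' measurableSet_Ioc).2 (Eventually.of_forall fun φ hφ => ?_)
    exact sub_nonneg.2 (im_bounds hr0 hr hφ.1.le hφ.2).2
  · refine (intervalIntegral.integral_sub (A_int h0 h1) (i2 _ _)).symm.trans_le ?_
    refine intervalIntegral.integral_mono_interval le_rfl h0 h1 ?_
      (intervalIntegrable_logCot.sub (i2 _ _))
    refine (ae_restrict_iff' measurableSet_Ioc).2 (Eventually.of_forall fun φ hφ => ?_)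
    exact sub_nonneg.2 (re_le hr0 hr hφ.1 hφ.2)

theorem PreConf.image_eq {F : ℂ → ℂ} (h : PreConf F) : F '' Metric.ball 0 1 = Omega := by
  refine Subset.antisymm h.mapsTo.image_subset ?_
  have h0 : (0 : ℂ) ∈ Metric.ball (0 : ℂ) 1 := Metric.mem_ball_self one_pos
  refine isPreconnected_Omega.subset_of_closure_inter_subset h.isOpen_image
    ⟨F 0, h.mapsTo h0, mem_image_of_mem F h0⟩ ?_
  rintro w ⟨hw, hw1, hw2⟩
  set δ := Lam w.re - |w.im| with hδ
  have hδ0 : 0 < δ := sub_pos.2 hw2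
  obtain ⟨η, hη, hη'⟩ := Metric.continuousWithinAt_iff.1
    (Lam_continuousOn |w.re| ⟨by linarith [abs_nonneg w.re], hw1.le⟩) (δ / 3) (by positivity)
  have hε : 0 < min (η / 3) (δ / 3) := by positivity
  have e1 : min (η / 3) (δ / 3) ≤ η / 3 := min_le_left _ _
  have e2 : min (η / 3) (δ / 3) ≤ δ / 3 := min_le_right _ _
  set ε := min (η / 3) (δ / 3)
  obtain ⟨r₀, hr₀, hb⟩ := h.boundary hε
  have hs : Metric.closedBall (0 : ℂ) r₀ ⊆ Metric.ball 0 1 := Metric.closedBall_subset_ball hr₀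
  have hK : IsClosed (F '' Metric.closedBall 0 r₀) :=
    ((isCompact_closedBall 0 r₀).image_of_continuousOn (h.diffF.continuousOn.mono hs)).isClosed
  by_contra hn
  have hwK : w ∈ (F '' Metric.closedBall 0 r₀)ᶜ := fun hh => hn (image_mono hs hh)
  obtain ⟨_, ⟨hz1, hz2⟩, z, hz, rfl⟩ := mem_closure_iff_nhds.1 hw _
    (inter_mem (hK.isOpen_compl.mem_nhds hwK) (Metric.ball_mem_nhds w hε))
  rw [mem_ball_zero_iff] at hz
  have hz3 : r₀ < ‖z‖ := by
    by_contra hh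
    exact hz1 (mem_image_of_mem F (mem_closedBall_zero_iff.2 (not_lt.1 hh)))
  obtain ⟨θ, t0, t1, f1, f2⟩ := reduce h hz
  obtain ⟨⟨a1, -⟩, a3, -⟩ := quad h (norm_nonneg z) hz t0 t1
  obtain ⟨b1, b2⟩ := hb _ θ hz3 (norm_nonneg z) hz t0 t1
  rw [abs_of_nonneg a1] at f1
  rw [abs_of_nonneg a3] at f2
  rw [← f1] at b1
  rw [← f2] at b2
  rw [Metric.mem_ball, dist_eq_norm] at hz2
  have c1 := (abs_abs_sub_abs_le_abs_sub _ _).trans (Complex.abs_re_le_norm (F z - w))
  have c2 := (abs_abs_sub_abs_le_abs_sub _ _).trans (Complex.abs_im_le_norm (F z - w))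
  obtain ⟨s0, s1⟩ := t_mem t0 t1
  rw [abs_le] at b1 b2 c1 c2
  have d := hη' (x := 1 - 2 * θ / π) ⟨by linarith, s1⟩ (by
    rw [Real.dist_eq, abs_lt]; constructor <;> linarith [b1.1, b1.2, c1.1, c1.2])
  rw [Real.dist_eq, Lam_abs, abs_lt] at d
  linarith [d.1, d.2, b2.1, b2.2, c2.1, c2.2]

theorem exists_conf : ∃ F g : ℂ → ℂ, Conf F g := by
  obtain ⟨F, hF⟩ := exists_preConf
  obtain ⟨g, hg⟩ := hF.conf hF.image_eq
  exact ⟨F, g, hg⟩

end Vale.Agent.P248
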