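import Vale.Agent.P248.Base

open MeasureTheory Set Filter Topology Matrix
open scoped ENNReal ContDiff Real ComplexOrder Pointwise

namespace Vale.Agent.P248

/-- directional derivative -/
noncomputable def leviD {n : ℕ} (v : CX n) (W : CX n → ℝ) : CX n → ℝ := fun z => fderiv ℝ W z v

theorem levi_Dx {n : ℕ} (i : Fin n) (W : CX n → ℝ) : Dx i W = leviD (Pi.single i 1, 0) W := rfl

theorem levi_Dy {n : ℕ} (i : Fin n) (W : CX n → ℝ) : Dy i W = leviD (0, Pi.single i 1) W := rfl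

theorem leviD_congr {n : ℕ} {U W : CX n → ℝ} {z : CX n} (h : U =ᶠ[𝓝 z] W) (v : CX n) :
    leviD v U =ᶠ[𝓝 z] leviD v W := by
  filter_upwards [h.fderiv (𝕜 := ℝ)] with y hy
  simp only [leviD, hy]

theorem levi_diff {E : Type*} [NormedAddCommGroup E] [NormedSpace ℝ E] {W : E → ℝ} {z : E}
    (hW : ContDiffAt ℝ 2 W z) : ∀ᶠ y in 𝓝 z, DifferentiableAt ℝ W y :=
  (hW.eventually (by simp)).mono fun _ hy => hy.differentiableAt (by simp)

theorem leviD_diff {n : ℕ} {W : CX n → ℝ} {z : CX n} (hW : ContDiffAt ℝ 2 W z) (v : CX n) :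
    DifferentiableAt ℝ (leviD v W) z :=
  ((hW.fderiv_right (m := 1) (by norm_num)).differentiableAt one_ne_zero).clm_apply
    (differentiableAt_const v)

theorem leviD_lin {n : ℕ} {U W : CX n → ℝ} {z : CX n} (hU : DifferentiableAt ℝ U z)
    (hW : DifferentiableAt ℝ W z) (a b : ℝ) (v : CX n) :
    leviD v (fun x => a * U x + b * W x) z = a * leviD v U z + b * leviD v W z := by
  have := ((hU.hasFDerivAt.const_mul a).fun_add (hW.hasFDerivAt.const_mul b)).fderiv
  simp only [leviD, this]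
  simp

theorem leviD_lin2 {n : ℕ} {U W : CX n → ℝ} {z : CX n} (hU : ContDiffAt ℝ 2 U z)
    (hW : ContDiffAt ℝ 2 W z) (a b : ℝ) (v w : CX n) :
    leviD v (leviD w fun x => a * U x + b * W x) z =
      a * leviD v (leviD w U) z + b * leviD v (leviD w W) z := by
  have h : (leviD w fun x => a * U x + b * W x) =ᶠ[𝓝 z]
      fun x => a * leviD w U x + b * leviD w W x := by
    filter_upwards [levi_diff hU, levi_diff hW] with y h1 h2
    exact leviD_lin h1 h2 a b w
  rw [(leviD_congr h v).eq_of_nhds, leviD_lin (leviD_diff hU w) (leviD_diff hW w)]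

theorem leviD_comp {n : ℕ} {W : CX n → ℝ} {χ : ℝ → ℝ} {z : CX n} (hW : DifferentiableAt ℝ W z)
    (hχ : DifferentiableAt ℝ χ (W z)) (v : CX n) :
    leviD v (fun x => χ (W x)) z = deriv χ (W z) * leviD v W z := by
  have : fderiv ℝ (fun x => χ (W x)) z = _ :=
    (hχ.hasDerivAt.comp_hasFDerivAt z hW.hasFDerivAt).fderiv
  simp only [leviD, this]
  simp

theorem leviD_mul {n : ℕ} {U W : CX n → ℝ} {z : CX n} (hU : DifferentiableAt ℝ U z)
    (hW : DifferentiableAt ℝ W z) (v : CX n) :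
    leviD v (fun x => U x * W x) z = U z * leviD v W z + W z * leviD v U z := by
  simp only [leviD, fderiv_fun_mul hU hW]
  simp

theorem leviD_comp2 {n : ℕ} {W : CX n → ℝ} {χ : ℝ → ℝ} {z : CX n} (hW : ContDiffAt ℝ 2 W z)
    (hχ : ContDiffAt ℝ 2 χ (W z)) (v w : CX n) :
    leviD v (leviD w fun x => χ (W x)) z = deriv χ (W z) * leviD v (leviD w W) z +
      deriv (deriv χ) (W z) * (leviD v W z * leviD w W z) := by
  have h : (leviD w fun x => χ (W x)) =ᶠ[𝓝 z] fun x => deriv χ (W x) * leviD w W x := by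
    filter_upwards [levi_diff hW, hW.continuousAt.eventually (levi_diff hχ)] with y h1 h2
    exact leviD_comp h1 h2 w
  have h1 : DifferentiableAt ℝ W z := hW.differentiableAt (by simp)
  have h2 : DifferentiableAt ℝ (deriv χ) (W z) :=
    ((hχ.fderiv_right (m := 1) (by norm_num)).differentiableAt one_ne_zero).clm_apply
      (differentiableAt_const (1 : ℝ))
  rw [(leviD_congr h v).eq_of_nhds, leviD_mul (U := fun x => deriv χ (W x)) (h2.comp z h1)
    (leviD_diff hW w), leviD_comp h1 h2]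
  ring

theorem levi_psd_smul {n : ℕ} {A : Matrix (Fin n) (Fin n) ℂ} (hA : A.PosSemidef) {c : ℝ}
    (hc : 0 ≤ c) : ((c : ℂ) • A).PosSemidef :=
  hA.smul (Complex.zero_le_real.2 hc)

theorem dvec_congr {n : ℕ} {U W : CX n → ℝ} {z : CX n} (h : U =ᶠ[𝓝 z] W) :
    dvec U z = dvec W z := by
  ext i
  simp only [dvec, levi_Dx, levi_Dy, (leviD_congr h _).eq_of_nhds]

theorem levi_congr {n : ℕ} {U W : CX n → ℝ} {z : CX n} (h : U =ᶠ[𝓝 z] W) :
    levi U z = levi W z := by
  ext i j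
  simp only [levi, of_apply, levi_Dx, levi_Dy, (leviD_congr (leviD_congr h _) _).eq_of_nhds]

theorem dvec_const {n : ℕ} (c : ℝ) (z : CX n) : dvec (fun _ => c) z = 0 := by
  ext i
  simp [dvec, Dx, Dy]

theorem levi_const {n : ℕ} (c : ℝ) (z : CX n) : levi (fun _ => c) z = 0 := by
  have h : ∀ (v : CX n) (c : ℝ), leviD v (fun _ => c) = fun _ => 0 := fun v c => by
    funext y
    simp [leviD]
  ext i j
  simp [levi, levi_Dx, levi_Dy, h]

theorem dvec_lin {n : ℕ} {U W : CX n → ℝ} {z : CX n} (hU : ContDiffAt ℝ 2 U z)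
    (hW : ContDiffAt ℝ 2 W z) (a b : ℝ) :
    dvec (fun x => a * U x + b * W x) z = (a : ℂ) • dvec U z + (b : ℂ) • dvec W z := by
  ext i
  simp only [dvec, levi_Dx, levi_Dy, leviD_lin (hU.differentiableAt (by simp))
    (hW.differentiableAt (by simp)), Pi.add_apply, Pi.smul_apply, smul_eq_mul]
  push_cast
  ring

theorem levi_lin {n : ℕ} {U W : CX n → ℝ} {z : CX n} (hU : ContDiffAt ℝ 2 U z)
    (hW : ContDiffAt ℝ 2 W z) (a b : ℝ) :
    levi (fun x => a * U x + b * W x) z = (a : ℂ) • levi U z + (b : ℂ) • levi W z := by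
  ext i j
  simp only [levi, of_apply, levi_Dx, levi_Dy, leviD_lin2 hU hW, Matrix.add_apply,
    Matrix.smul_apply, smul_eq_mul]
  push_cast
  ring

theorem dvec_add_const {n : ℕ} (W : CX n → ℝ) (c : ℝ) (z : CX n) :
    dvec (fun x => W x + c) z = dvec W z := by
  ext i
  simp only [dvec, Dx, Dy, fderiv_add_const]

theorem levi_add_const {n : ℕ} (W : CX n → ℝ) (c : ℝ) (z : CX n) :
    levi (fun x => W x + c) z = levi W z := by
  have h : ∀ v : CX n, leviD v (fun x => W x + c) = leviD v W := fun v => by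
    funext y
    simp only [leviD, fderiv_add_const]
  ext i j
  simp only [levi, of_apply, levi_Dx, levi_Dy, h]

theorem dvec_comp {n : ℕ} {W : CX n → ℝ} {χ : ℝ → ℝ} {z : CX n} (hW : ContDiffAt ℝ 2 W z)
    (hχ : ContDiffAt ℝ 2 χ (W z)) :
    dvec (fun x => χ (W x)) z = ((deriv χ (W z) : ℝ) : ℂ) • dvec W z := by
  ext i
  simp only [dvec, levi_Dx, levi_Dy, leviD_comp (hW.differentiableAt (by simp))
    (hχ.differentiableAt (by simp)), Pi.smul_apply, smul_eq_mul]
  push_cast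
  ring

theorem levi_comp {n : ℕ} {W : CX n → ℝ} {χ : ℝ → ℝ} {z : CX n} (hW : ContDiffAt ℝ 2 W z)
    (hχ : ContDiffAt ℝ 2 χ (W z)) :
    levi (fun x => χ (W x)) z = ((deriv χ (W z) : ℝ) : ℂ) • levi W z
      + ((deriv (deriv χ) (W z) : ℝ) : ℂ) • vecMulVec (dvec W z) (star (dvec W z)) := by
  ext i j
  simp only [levi, of_apply, levi_Dx, levi_Dy, leviD_comp2 hW hχ, Matrix.add_apply,
    Matrix.smul_apply, smul_eq_mul, vecMulVec_apply, dvec, Pi.star_apply]
  apply Complex.ext <;> simp <;> ring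

/-- a convex nondecreasing function of a plurisubharmonic function -/
theorem levi_comp_psd {n : ℕ} {W : CX n → ℝ} {χ : ℝ → ℝ} {z : CX n} (hW : ContDiffAt ℝ 2 W z)
    (hχ : ContDiffAt ℝ 2 χ (W z)) (h1 : 0 ≤ deriv χ (W z)) (h2 : 0 ≤ deriv (deriv χ) (W z))
    (hp : (levi W z).PosSemidef) : (levi (fun x => χ (W x)) z).PosSemidef := by
  rw [levi_comp hW hχ]
  exact (levi_psd_smul hp h1).add (levi_psd_smul (posSemidef_vecMulVec_self_star _) h2)

/-- the logarithm of a shifted log-plurisubharmonic function -/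
theorem levi_log_psd {n : ℕ} {u : CX n → ℝ} {z : CX n} {τ : ℝ} (hu : ContDiffAt ℝ 2 u z)
    (h0 : 0 ≤ u z) (hτ : 0 < τ) (hp : (levi u z).PosSemidef)
    (hlog : (((u z : ℝ) : ℂ) • levi u z - vecMulVec (dvec u z) (star (dvec u z))).PosSemidef) :
    (levi (fun x => Real.log (u x + τ)) z).PosSemidef := by
  have hpos : 0 < u z + τ := by linarith
  have d1 : ∀ t, 0 < t + τ → HasDerivAt (fun t => Real.log (t + τ)) (t + τ)⁻¹ t := fun t ht => by
    simpa using ((hasDerivAt_id t).add_const τ).log ht.ne'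
  have d2 : deriv (fun t => Real.log (t + τ)) =ᶠ[𝓝 (u z)] fun t => (t + τ)⁻¹ := by
    have : ∀ᶠ t in 𝓝 (u z), 0 < t + τ :=
      (continuous_id.add continuous_const).continuousAt.eventually (lt_mem_nhds hpos)
    exact this.mono fun t ht => (d1 t ht).deriv
  have d3 : HasDerivAt (fun t => (t + τ)⁻¹) (-((u z + τ) ^ 2)⁻¹) (u z) := by
    have := ((hasDerivAt_id (u z)).add_const τ).fun_inv hpos.ne'
    rwa [neg_div, one_div] at this
  have hχ : ContDiffAt ℝ 2 (fun t => Real.log (t + τ)) (u z) :=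
    (contDiffAt_id.add contDiffAt_const).log hpos.ne'
  rw [levi_comp (χ := fun t => Real.log (t + τ)) hu hχ, d2.deriv_eq, d3.deriv, d2.eq_of_nhds]
  have h := levi_psd_smul (hlog.add (levi_psd_smul hp hτ.le))
    (c := ((u z + τ) ^ 2)⁻¹) (by positivity)
  have e : (u z + τ)⁻¹ = ((u z + τ) ^ 2)⁻¹ * u z + ((u z + τ) ^ 2)⁻¹ * τ := by field_simp
  rw [e]
  refine (congrArg PosSemidef ?_).mp h
  push_cast
  module

/-- regularized maximum of two plurisubharmonic functions -/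
theorem levi_smax_psd {n : ℕ} {U W : CX n → ℝ} {m : ℝ → ℝ} {z : CX n} (hU : ContDiffAt ℝ 2 U z)
    (hW : ContDiffAt ℝ 2 W z) (hm : ContDiff ℝ ∞ m) (h0 : ∀ t, 0 ≤ deriv m t)
    (h1 : ∀ t, deriv m t ≤ 1) (h2 : ∀ t, 0 ≤ deriv (deriv m) t)
    (hpU : (levi U z).PosSemidef) (hpW : (levi W z).PosSemidef) :
    (levi (fun x => U x + m (W x - U x)) z).PosSemidef := by
  have hD : ContDiffAt ℝ 2 (fun x => W x - U x) z := hW.sub hU
  have hm2 : ContDiffAt ℝ 2 m (W z - U z) :=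
    (hm.of_le (WithTop.coe_le_coe.2 (le_top : (2 : ℕ∞) ≤ ⊤))).contDiffAt
  have e1 := levi_lin hU (hm2.comp z hD) 1 1
  have e2 := levi_lin hW hU 1 (-1)
  simp only [one_mul, neg_mul, ← sub_eq_add_neg, Function.comp_apply] at e1 e2
  have e3 := levi_comp (χ := m) hD hm2
  rw [e1, show m ∘ (fun x => W x - U x) = fun x => m (W x - U x) from rfl, e3, e2]
  have h := ((levi_psd_smul hpU (sub_nonneg.2 (h1 (W z - U z)))).add
    (levi_psd_smul hpW (h0 (W z - U z)))).add
    (levi_psd_smul (posSemidef_vecMulVec_self_star (dvec (fun x => W x - U x) z)) (h2 (W z - U z)))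
  refine (congrArg PosSemidef ?_).mp h
  push_cast
  module

/-- the squared Euclidean norm -/
def nsq {n : ℕ} (z : CX n) : ℝ := ∑ i, z.1 i ^ 2 + ∑ i, z.2 i ^ 2

theorem contDiff_nsq {n : ℕ} : ContDiff ℝ ∞ (nsq : CX n → ℝ) := by
  unfold nsq
  fun_prop

theorem nsq_nonneg {n : ℕ} (z : CX n) : 0 ≤ nsq z := by
  unfold nsq
  positivity

theorem norm_sq_le_nsq {n : ℕ} (z : CX n) : ‖z‖ ^ 2 ≤ nsq z := by
  have h0 := nsq_nonneg z
  have h1 : 0 ≤ ∑ i, z.1 i ^ 2 := by positivity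
  have h2 : 0 ≤ ∑ i, z.2 i ^ 2 := by positivity
  rw [← Real.le_sqrt (norm_nonneg _) h0, norm_prod_le_iff,
    pi_norm_le_iff_of_nonneg (Real.sqrt_nonneg _), pi_norm_le_iff_of_nonneg (Real.sqrt_nonneg _)]
  refine ⟨fun i => Real.abs_le_sqrt ?_, fun i => Real.abs_le_sqrt ?_⟩
  · exact (Finset.single_le_sum (f := fun i => z.1 i ^ 2) (fun _ _ => sq_nonneg _)
      (Finset.mem_univ i)).trans (le_add_of_nonneg_right h2)
  · exact (Finset.single_le_sum (f := fun i => z.2 i ^ 2) (fun _ _ => sq_nonneg _)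
      (Finset.mem_univ i)).trans (le_add_of_nonneg_left h1)

theorem leviD_bil {n : ℕ} (v w z : CX n) :
    leviD v (fun z : CX n => 2 * (∑ i, z.1 i * w.1 i + ∑ i, z.2 i * w.2 i)) z =
      2 * (∑ i, v.1 i * w.1 i + ∑ i, v.2 i * w.2 i) := by
  have hd : DifferentiableAt ℝ
      (fun z : CX n => 2 * (∑ i, z.1 i * w.1 i + ∑ i, z.2 i * w.2 i)) z := by fun_prop
  refine (hd.hasFDerivAt.hasLineDerivAt v).unique ?_
  have h := ((hasDerivAt_id (0 : ℝ)).mul_const
    (2 * (∑ i, v.1 i * w.1 i + ∑ i, v.2 i * w.2 i))).const_add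
    (2 * (∑ i, z.1 i * w.1 i + ∑ i, z.2 i * w.2 i))
  rw [one_mul] at h
  refine HasDerivAt.congr_of_eventuallyEq h (Eventually.of_forall fun t => ?_)
  simp only [Prod.fst_add, Prod.snd_add, Prod.smul_fst, Prod.smul_snd, Pi.add_apply,
    Pi.smul_apply, smul_eq_mul, add_mul, Finset.sum_add_distrib, mul_assoc, ← Finset.mul_sum, id]
  ring

theorem leviD_nsq {n : ℕ} (w : CX n) :
    leviD w nsq = fun z => 2 * (∑ i, z.1 i * w.1 i + ∑ i, z.2 i * w.2 i) := by
  funext z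
  have hd : DifferentiableAt ℝ nsq z := contDiff_nsq.differentiable (by simp) z
  refine (hd.hasFDerivAt.hasLineDerivAt w).unique ?_
  have h := (((hasDerivAt_id (0 : ℝ)).mul_const
    (2 * (∑ i, z.1 i * w.1 i + ∑ i, z.2 i * w.2 i))).const_add (nsq z)).fun_add
    ((hasDerivAt_pow 2 (0 : ℝ)).mul_const (nsq w))
  simp only [one_mul, Nat.cast_ofNat, Nat.add_one_sub_one, pow_one, mul_zero, zero_mul,
    add_zero] at h
  refine HasDerivAt.congr_of_eventuallyEq h (Eventually.of_forall fun t => ?_)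
  have e : ∀ a b : ℝ, (a + t * b) ^ 2 = a ^ 2 + 2 * t * (a * b) + t ^ 2 * b ^ 2 :=
    fun a b => by ring
  simp only [nsq, Prod.fst_add, Prod.snd_add, Prod.smul_fst, Prod.smul_snd, Pi.add_apply,
    Pi.smul_apply, smul_eq_mul, e, Finset.sum_add_distrib, ← Finset.mul_sum, id]
  ring

theorem levi_cs {n : ℕ} (g : Fin n → ℂ) :
    ((star g ⬝ᵥ g) • (1 : Matrix (Fin n) (Fin n) ℂ) - vecMulVec g (star g)).PosSemidef := by
  have h0 : 0 ≤ star g ⬝ᵥ g := dotProduct_star_self_nonneg g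
  refine PosSemidef.of_dotProduct_mulVec_nonneg ((PosSemidef.one.smul h0).isHermitian.sub
    (posSemidef_vecMulVec_self_star g).isHermitian) fun x => ?_
  rw [sub_mulVec, dotProduct_sub, smul_mulVec, one_mulVec, dotProduct_smul, vecMulVec_mulVec,
    op_smul_eq_smul, dotProduct_smul, smul_eq_mul, smul_eq_mul]
  have e1 := EuclideanSpace.inner_toLp_toLp (𝕜 := ℂ) g g
  have e2 := EuclideanSpace.inner_toLp_toLp (𝕜 := ℂ) x x
  have e3 := EuclideanSpace.inner_toLp_toLp (𝕜 := ℂ) g x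
  have e4 := EuclideanSpace.inner_toLp_toLp (𝕜 := ℂ) x g
  rw [dotProduct_comm] at e1 e2 e3 e4
  rw [← e1, ← e2, ← e3, ← e4, inner_self_eq_norm_sq_to_K, inner_self_eq_norm_sq_to_K,
    ← inner_conj_symm (WithLp.toLp 2 x), Complex.mul_conj']
  have h := pow_le_pow_left₀ (norm_nonneg _)
    (norm_inner_le_norm (𝕜 := ℂ) (WithLp.toLp 2 g) (WithLp.toLp 2 x)) 2
  rw [mul_pow, ← sub_nonneg] at h
  refine (Complex.zero_le_real.2 h).trans_eq ?_
  push_cast
  rfl

theorem levi_nsq {n : ℕ} (z : CX n) : levi nsq z = (4 : ℂ) • (1 : Matrix (Fin n) (Fin n) ℂ) := by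
  ext i j
  have e : ∀ v w : CX n, leviD v (leviD w nsq) z =
      2 * (∑ i, v.1 i * w.1 i + ∑ i, v.2 i * w.2 i) := fun v w => by
    rw [leviD_nsq, leviD_bil]
  simp only [levi, of_apply, levi_Dx, levi_Dy, e]
  by_cases h : i = j
  · subst h
    have e1 : ∑ k, (Pi.single i 1 : Fin n → ℝ) k * (Pi.single i 1 : Fin n → ℝ) k = 1 := by
      simp [Pi.single_apply]
    simp only [e1]
    simp
    norm_num
  · simp [Pi.single_apply, h, Ne.symm h]

theorem nsq_log {n : ℕ} (z : CX n) :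
    (((nsq z : ℝ) : ℂ) • levi nsq z - vecMulVec (dvec nsq z) (star (dvec nsq z))).PosSemidef := by
  rw [levi_nsq]
  have hs : star (dvec nsq z) ⬝ᵥ dvec nsq z = ((4 * nsq z : ℝ) : ℂ) := by
    simp only [dotProduct, Pi.star_apply, dvec, levi_Dx, levi_Dy, leviD_nsq, nsq, mul_add,
      Finset.mul_sum, ← Finset.sum_add_distrib, Complex.ofReal_sum]
    refine Finset.sum_congr rfl fun i _ => ?_
    apply Complex.ext <;> simp [Pi.single_apply, sq] <;> ring
  have h := levi_cs (dvec nsq z)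
  rw [hs] at h
  refine (congrArg PosSemidef ?_).mp h
  push_cast
  module

theorem volume_nsq_lt {n : ℕ} (hn : 1 ≤ n) {ρ : ℝ} (hρ : 0 < ρ) :
    volume {z : CX n | nsq z < ρ} = ENNReal.ofReal ((π * ρ) ^ n / (n.factorial : ℝ)) := by
  have : Nonempty (Fin n) := ⟨⟨0, hn⟩⟩
  have h1 := (volume_measurePreserving_sumPiEquivProdPi fun _ : Fin n ⊕ Fin n => ℝ).comp
    (PiLp.volume_preserving_ofLp (Fin n ⊕ Fin n))
  have h2 : MeasurableSet {z : CX n | nsq z < ρ} :=
    (isOpen_lt contDiff_nsq.continuous continuous_const).measurableSet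
  rw [← h1.measure_preimage h2.nullMeasurableSet]
  have h3 : (MeasurableEquiv.sumPiEquivProdPi (fun _ : Fin n ⊕ Fin n => ℝ) ∘ WithLp.ofLp) ⁻¹'
      {z : CX n | nsq z < ρ} = Metric.ball (0 : EuclideanSpace ℝ (Fin n ⊕ Fin n)) √ρ := by
    ext x
    rw [mem_ball_zero_iff, EuclideanSpace.norm_eq, Real.sqrt_lt_sqrt_iff (by positivity),
      Fintype.sum_sum_type]
    simp only [Real.norm_eq_abs, sq_abs]
    rfl
  have h4 : Module.finrank ℝ (EuclideanSpace ℝ (Fin n ⊕ Fin n)) = 2 * n := by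
    simp [two_mul]
  rw [h3, InnerProductSpace.volume_ball_of_dim_even h4, h4, pow_mul,
    ← ENNReal.ofReal_pow (Real.sqrt_nonneg _), Real.sq_sqrt hρ.le, ← ENNReal.ofReal_pow hρ.le,
    ← ENNReal.ofReal_mul (by positivity)]
  congr 1
  ring

end Vale.Agent.P248
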