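import Vale.Agent.P248.Base

open MeasureTheory Set Filter Topology Matrix
open scoped ENNReal ContDiff Real ComplexOrder Pointwise

namespace Vale.Agent.P248

/-- primitive of the smooth transition function -/
noncomputable def Smax_M (t : ℝ) : ℝ := ∫ x in (0 : ℝ)..t, Real.smoothTransition x

theorem Smax_hasDerivAt (t : ℝ) : HasDerivAt Smax_M (Real.smoothTransition t) t :=
  (Real.smoothTransition.continuous.integral_hasStrictDerivAt 0 t).hasDerivAt

theorem Smax_deriv : deriv Smax_M = Real.smoothTransition :=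
  funext fun t => (Smax_hasDerivAt t).deriv

theorem Smax_contDiff : ContDiff ℝ ∞ Smax_M := by
  rw [contDiff_infty_iff_deriv]
  exact ⟨fun t => (Smax_hasDerivAt t).differentiableAt, by
    rw [Smax_deriv]; exact Real.smoothTransition.contDiff⟩

theorem Smax_zero {t : ℝ} (ht : t ≤ 0) : Smax_M t = 0 := by
  unfold Smax_M
  have : ∫ x in (0 : ℝ)..t, Real.smoothTransition x = ∫ _ in (0 : ℝ)..t, (0 : ℝ) := by
    apply intervalIntegral.integral_congr
    intro x hx
    rw [uIcc_of_ge ht] at hx
    exact Real.smoothTransition.zero_of_nonpos hx.2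
  rw [this]; simp

theorem Smax_nonneg (t : ℝ) : 0 ≤ Smax_M t := by
  rcases le_total t 0 with h | h
  · rw [Smax_zero h]
  · exact intervalIntegral.integral_nonneg h fun x _ => Real.smoothTransition.nonneg x

theorem Smax_big {t : ℝ} (ht : 1 ≤ t) : Smax_M t = Smax_M 1 + (t - 1) := by
  unfold Smax_M
  have hc := Real.smoothTransition.continuous
  rw [← intervalIntegral.integral_add_adjacent_intervals (b := 1) (hc.intervalIntegrable _ _)
    (hc.intervalIntegrable _ _)]
  have : ∫ x in (1 : ℝ)..t, Real.smoothTransition x = ∫ _ in (1 : ℝ)..t, (1 : ℝ) := by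
    apply intervalIntegral.integral_congr
    intro x hx
    rw [uIcc_of_le ht] at hx
    exact Real.smoothTransition.one_of_one_le hx.1
  rw [this]; simp

theorem Smax_one_le : Smax_M 1 ≤ 1 := by
  unfold Smax_M
  have hc := Real.smoothTransition.continuous
  have := intervalIntegral.integral_mono_on (μ := volume) (a := (0 : ℝ)) (b := 1) zero_le_one
    (hc.intervalIntegrable _ _) (intervalIntegrable_const (c := (1 : ℝ)))
    (fun x _ => Real.smoothTransition.le_one x)
  simpa using this

/-- a smooth convex regularization of the positive part -/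
theorem exists_smax {δ : ℝ} (hδ : 0 < δ) :
    ∃ m : ℝ → ℝ, ContDiff ℝ ∞ m ∧ (∀ t, t ≤ -δ → m t = 0) ∧ (∀ t, δ ≤ t → m t = t) ∧
      (∀ t, 0 ≤ deriv m t) ∧ (∀ t, deriv m t ≤ 1) ∧ (∀ t, 0 ≤ deriv (deriv m) t) ∧
      (∀ t, 0 ≤ m t) ∧ (∀ t, t ≤ m t) := by
  set c : ℝ := 1 - Smax_M 1 with hc
  have hc0 : 0 ≤ c := by have := Smax_one_le; linarith
  have hc1 : c ≤ 1 := by have := Smax_nonneg 1; linarith
  set m : ℝ → ℝ := fun t => δ * Smax_M (t / δ + c) with hm
  have hd : ∀ t, HasDerivAt m (Real.smoothTransition (t / δ + c)) t := by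
    intro t
    have h1 : HasDerivAt (fun t : ℝ => t / δ + c) (1 / δ) t :=
      ((hasDerivAt_id t).div_const δ).add_const c
    have h2 := ((Smax_hasDerivAt (t / δ + c)).comp t h1).const_mul δ
    have e : Real.smoothTransition (t / δ + c)
        = δ * (Real.smoothTransition (t / δ + c) * (1 / δ)) := by
      field_simp
    rw [e]
    exact h2
  have hdm : deriv m = fun t => Real.smoothTransition (t / δ + c) := funext fun t => (hd t).deriv
  have hbig : ∀ t, δ ≤ t → m t = t := by
    intro t ht
    have h1 : 1 ≤ t / δ := by rw [le_div_iff₀ hδ]; linarith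
    simp only [hm]
    rw [Smax_big (by linarith), hc]
    field_simp
    ring
  refine ⟨m, ?_, ?_, hbig, ?_, ?_, ?_, ?_, ?_⟩
  · exact contDiff_const.mul (Smax_contDiff.comp ((contDiff_id.div_const δ).add contDiff_const))
  · intro t ht
    have h1 : t / δ ≤ -1 := by rw [div_le_iff₀ hδ]; linarith
    simp only [hm]
    rw [Smax_zero (by linarith), mul_zero]
  · intro t; rw [hdm]; exact Real.smoothTransition.nonneg _
  · intro t; rw [hdm]; exact Real.smoothTransition.le_one _
  · intro t
    rw [hdm]
    apply Monotone.deriv_nonneg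
    intro a b hab
    apply Real.smoothTransition.monotone
    have := div_le_div_of_nonneg_right hab hδ.le
    linarith
  · intro t; exact mul_nonneg hδ.le (Smax_nonneg _)
  · intro t
    rcases le_total δ t with h | h
    · rw [hbig t h]
    · have hd2 : ∀ t, HasDerivAt (fun t => m t - t) (Real.smoothTransition (t / δ + c) - 1) t :=
        fun t => (hd t).sub (hasDerivAt_id t)
      have ha : Antitone (fun t => m t - t) := by
        apply antitone_of_deriv_nonpos (fun t => (hd2 t).differentiableAt)
        intro t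
        rw [(hd2 t).deriv]
        have := Real.smoothTransition.le_one (t / δ + c)
        linarith
      have h2 := ha h
      simp only at h2
      rw [hbig δ le_rfl] at h2
      linarith

theorem Smax_one_le_det {n : ℕ} {P : Matrix (Fin n) (Fin n) ℝ} (hP : P.PosSemidef) :
    1 ≤ (1 + P).det := by
  have h := hP.1.spectral_theorem
  rw [Unitary.conjStarAlgAut_apply] at h
  set U : Matrix (Fin n) (Fin n) ℝ := (hP.1.eigenvectorUnitary : Matrix (Fin n) (Fin n) ℝ) with hU
  have h1 : U * star U = 1 := Unitary.coe_mul_star_self _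
  have h2 : star U * U = 1 := Unitary.coe_star_mul_self _
  set D : Matrix (Fin n) (Fin n) ℝ := diagonal (RCLike.ofReal ∘ hP.1.eigenvalues) with hD
  have e : 1 + P = U * (1 + D) * star U := by
    rw [mul_add, add_mul, mul_one, h1, ← h]
  rw [e, det_mul_comm, ← mul_assoc, h2, one_mul, hD, ← diagonal_one, diagonal_add, det_diagonal]
  refine le_trans (le_of_eq (Finset.prod_const_one (s := Finset.univ)).symm)
    (Finset.prod_le_prod (fun _ _ => zero_le_one) ?_)
  intro i _
  have := hP.eigenvalues_nonneg i
  simpa using this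

open scoped MatrixOrder in
theorem Smax_factor {n : ℕ} {H : Matrix (Fin n) (Fin n) ℝ} (hH : H.PosSemidef) :
    ∃ B : Matrix (Fin n) (Fin n) ℝ, H = star B * B :=
  CStarAlgebra.nonneg_iff_eq_star_mul_self.mp hH.nonneg

/-- the determinant is monotone on positive semidefinite matrices -/
theorem det_le_det_add {n : ℕ} {H G : Matrix (Fin n) (Fin n) ℝ} (hH : H.PosSemidef)
    (hG : G.PosSemidef) : H.det ≤ (H + G).det := by
  rcases hH.det_nonneg.eq_or_lt with h0 | h0
  · rw [← h0]; exact (hH.add hG).det_nonneg
  · obtain ⟨B, hB⟩ := Smax_factor hH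
    have hdB : IsUnit B.det := by
      rw [isUnit_iff_ne_zero]
      intro hb
      rw [hB, det_mul, hb, mul_zero] at h0
      exact lt_irrefl _ h0
    have hP : (B⁻¹ᴴ * G * B⁻¹).PosSemidef := hG.conjTranspose_mul_mul_same B⁻¹
    have h1 := Smax_one_le_det hP
    have hi : B⁻¹ * B = 1 := nonsing_inv_mul B hdB
    have hi' : star B * B⁻¹ᴴ = 1 := by
      rw [star_eq_conjTranspose, ← conjTranspose_mul, hi, conjTranspose_one]
    have e : H + G = star B * (1 + B⁻¹ᴴ * G * B⁻¹) * B := by
      rw [mul_add, add_mul, mul_one, ← hB]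
      congr 1
      calc G = (star B * B⁻¹ᴴ) * G * (B⁻¹ * B) := by rw [hi, hi', one_mul, mul_one]
        _ = _ := by simp only [mul_assoc]
    have e2 : (H + G).det = H.det * (1 + B⁻¹ᴴ * G * B⁻¹).det := by
      rw [e, det_mul, det_mul]
      conv_rhs => rw [hB, det_mul]
      ring
    rw [e2]
    nlinarith

end Vale.Agent.P248
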