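import Vale.Agent.P248.Null
import Vale.Agent.P248.Levi
import Vale.Agent.P248.Smax

open MeasureTheory Set Filter Topology Matrix
open scoped ENNReal ContDiff Real ComplexOrder Pointwise

namespace Vale.Agent.P248

theorem mass_hasDeriv {m : ℝ → ℝ} (hm : ContDiff ℝ ∞ m) :
    (∀ t, HasDerivAt m (deriv m t) t) ∧ ∀ t, HasDerivAt (deriv m) (deriv (deriv m) t) t := by
  have h := contDiff_infty_iff_deriv.1 hm
  exact ⟨fun t => (h.1 t).hasDerivAt, fun t => ((contDiff_infty_iff_deriv.1 h.2).1 t).hasDerivAt⟩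

/-- convex gluing of a line and the exponential -/
theorem exists_theta_one {l δ : ℝ} (hl : 0 < l) (hδ : 0 < δ) :
    ∃ Θ : ℝ → ℝ, ContDiff ℝ ∞ Θ ∧ (∀ s, 0 ≤ deriv Θ s) ∧ (∀ s, 0 ≤ deriv (deriv Θ) s) ∧
      (∀ s, Real.log l + δ ≤ s → Θ s = Real.exp s) ∧
      (∀ s, s ≤ Real.log l - δ → Θ s = l + l * (s - Real.log l)) := by
  obtain ⟨m, hm, hm1, hm2, hm3, hm4, hm5, hm6, -⟩ := exists_smax hδ
  obtain ⟨hd1, hd2⟩ := mass_hasDeriv hm
  set s0 := Real.log l with hs0
  have e1 : ∀ s, HasDerivAt (fun s => m (s - s0)) (deriv m (s - s0)) s := fun s =>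
    (hd1 (s - s0)).comp_sub_const s s0
  have e2 : ∀ s, HasDerivAt (fun s => deriv m (s - s0)) (deriv (deriv m) (s - s0)) s := fun s =>
    (hd2 (s - s0)).comp_sub_const s s0
  have d1 : ∀ s, HasDerivAt (fun s => Real.exp (s0 + m (s - s0)) + l * (s - (s0 + m (s - s0))))
      (Real.exp (s0 + m (s - s0)) * deriv m (s - s0) + l * (1 - deriv m (s - s0))) s := fun s =>
    ((e1 s).const_add s0).exp.add (((hasDerivAt_id s).sub ((e1 s).const_add s0)).const_mul l)
  have d1' : deriv (fun s => Real.exp (s0 + m (s - s0)) + l * (s - (s0 + m (s - s0))))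
      = fun s => Real.exp (s0 + m (s - s0)) * deriv m (s - s0) + l * (1 - deriv m (s - s0)) :=
    funext fun s => (d1 s).deriv
  have d2 : ∀ s, HasDerivAt
      (fun s => Real.exp (s0 + m (s - s0)) * deriv m (s - s0) + l * (1 - deriv m (s - s0)))
      (Real.exp (s0 + m (s - s0)) * deriv m (s - s0) * deriv m (s - s0)
        + Real.exp (s0 + m (s - s0)) * deriv (deriv m) (s - s0)
        + l * -deriv (deriv m) (s - s0)) s := fun s =>
    (((e1 s).const_add s0).exp.mul (e2 s)).add (((e2 s).const_sub 1).const_mul l)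
  have hms : ContDiff ℝ ∞ fun s => s0 + m (s - s0) :=
    contDiff_const.add (hm.comp (contDiff_id.sub contDiff_const))
  refine ⟨fun s => Real.exp (s0 + m (s - s0)) + l * (s - (s0 + m (s - s0))),
    hms.exp.add (contDiff_const.mul (contDiff_id.sub hms)), fun s => ?_, fun s => ?_,
    fun s hs => ?_, fun s hs => ?_⟩
  · rw [d1']
    exact add_nonneg (mul_nonneg (Real.exp_pos _).le (hm3 _))
      (mul_nonneg hl.le (by linarith [hm4 (s - s0)]))
  · rw [d1', (d2 s).deriv]
    have h1 : l ≤ Real.exp (s0 + m (s - s0)) := by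
      rw [← Real.exp_log hl]; exact Real.exp_le_exp.2 (by linarith [hm6 (s - s0)])
    have h2 := mul_nonneg (sub_nonneg.2 h1) (hm5 (s - s0))
    have h3 := mul_nonneg (mul_nonneg (Real.exp_pos (s0 + m (s - s0))).le (hm3 (s - s0)))
      (hm3 (s - s0))
    linarith
  · simp only [hm2 (s - s0) (by linarith)]
    simp
  · simp only [hm1 (s - s0) (by linarith), add_zero]
    rw [hs0, Real.exp_log hl]

/-- convex gluing of the exponential and a line -/
theorem exists_theta_two {δ : ℝ} (hδ : 0 < δ) :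
    ∃ Θ : ℝ → ℝ, ContDiff ℝ ∞ Θ ∧ (∀ s, 0 ≤ deriv Θ s) ∧ (∀ s, 0 ≤ deriv (deriv Θ) s) ∧
      (∀ s, s ≤ -δ → Θ s = Real.exp s) ∧ (∀ s, δ ≤ s → Θ s = 1 + s) := by
  obtain ⟨m, hm, hm1, hm2, hm3, hm4, hm5, -, hm7⟩ := exists_smax hδ
  obtain ⟨hd1, hd2⟩ := mass_hasDeriv hm
  have d1 : ∀ s, HasDerivAt (fun s => Real.exp (s - m s) + m s)
      (Real.exp (s - m s) * (1 - deriv m s) + deriv m s) s := fun s =>
    ((hasDerivAt_id s).sub (hd1 s)).exp.add (hd1 s)
  have d1' : deriv (fun s => Real.exp (s - m s) + m s)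
      = fun s => Real.exp (s - m s) * (1 - deriv m s) + deriv m s := funext fun s => (d1 s).deriv
  have d2 : ∀ s, HasDerivAt (fun s => Real.exp (s - m s) * (1 - deriv m s) + deriv m s)
      (Real.exp (s - m s) * (1 - deriv m s) * (1 - deriv m s)
        + Real.exp (s - m s) * -deriv (deriv m) s + deriv (deriv m) s) s := fun s =>
    (((hasDerivAt_id s).sub (hd1 s)).exp.mul ((hd2 s).const_sub 1)).add (hd2 s)
  refine ⟨fun s => Real.exp (s - m s) + m s, (contDiff_id.sub hm).exp.add hm, fun s => ?_,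
    fun s => ?_, fun s hs => ?_, fun s hs => ?_⟩
  · rw [d1']
    exact add_nonneg (mul_nonneg (Real.exp_pos _).le (by linarith [hm4 s])) (hm3 s)
  · rw [d1', (d2 s).deriv]
    have h1 : Real.exp (s - m s) ≤ 1 := Real.exp_le_one_iff.2 (by linarith [hm7 s])
    have h2 := mul_nonneg (sub_nonneg.2 h1) (hm5 s)
    have h4 : 0 ≤ 1 - deriv m s := by linarith [hm4 s]
    have h3 := mul_nonneg (mul_nonneg (Real.exp_pos (s - m s)).le h4) h4
    linarith
  · simp [hm1 s hs]
  · simp [hm2 s hs]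

/-- comparison of masses: W is a competitor equal to u up to a constant near the boundary -/
theorem mass_compare {n : ℕ} {u W : CX n → ℝ} {r r' c : ℝ} (hu : ContDiff ℝ ∞ u)
    (hW : ContDiff ℝ ∞ W) (hb : Bornology.IsBounded {z | u z < r}) (hr : r' < r)
    (heq : ∀ z, r' ≤ u z → W z = u z + c)
    (hpu : ∀ z, u z < r → (levi u z).PosSemidef) (hpW : ∀ z, u z < r → (levi W z).PosSemidef) :
    ∫⁻ z in {z | u z < r}, ENNReal.ofReal (levi W z).det.re
      = ∫⁻ z in {z | u z < r}, ENNReal.ofReal (levi u z).det.re := by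
  have hopen : IsOpen {z | u z < r} := isOpen_lt hu.continuous continuous_const
  have huc : ContDiff ℝ ∞ fun z => u z + c := hu.add contDiff_const
  have hc : HasCompactSupport (W - fun z => u z + c) := by
    refine HasCompactSupport.intro (K := {z | u z ≤ r'}) ?_ fun z hz => ?_
    · exact Metric.isCompact_of_isClosed_isBounded (isClosed_le hu.continuous continuous_const)
        (hb.subset fun z hz => lt_of_le_of_lt hz hr)
    · have : r' ≤ u z := (not_le.1 hz).le
      simp [heq z this]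
  have h1 := integral_det_levi_sub hW huc hc
  simp only [levi_add_const] at h1
  have hz : ∀ z, z ∉ {z | u z < r} → (levi W z).det - (levi u z).det = 0 := by
    intro z hz
    have h2 : r' < u z := lt_of_lt_of_le hr (not_lt.1 hz)
    have h3 : W =ᶠ[𝓝 z] fun z => u z + c := by
      filter_upwards [(isOpen_lt continuous_const hu.continuous).mem_nhds h2] with y hy
      exact heq y (le_of_lt hy)
    rw [levi_congr h3, levi_add_const, sub_self]
  rw [← setIntegral_eq_integral_of_forall_compl_eq_zero hz] at h1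
  have hint : ∀ {V : CX n → ℝ}, ContDiff ℝ ∞ V →
      IntegrableOn (fun z => (levi V z).det) {z | u z < r} := fun hV =>
    ((continuous_det_levi hV).continuousOn.integrableOn_compact hb.isCompact_closure).mono_set
      subset_closure
  rw [integral_sub (hint hW) (hint hu), sub_eq_zero] at h1
  have key : ∀ {V : CX n → ℝ}, ContDiff ℝ ∞ V → (∀ z, u z < r → (levi V z).PosSemidef) →
      ∫⁻ z in {z | u z < r}, ENNReal.ofReal (levi V z).det.re
        = ENNReal.ofReal (∫ z in {z | u z < r}, (levi V z).det).re := by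
    intro V hV hp
    have h4 := ofReal_integral_eq_lintegral_ofReal (hint hV).re
      ((ae_restrict_iff' hopen.measurableSet).2 (Eventually.of_forall fun z hz =>
        (Complex.nonneg_iff.1 (hp z hz).det_nonneg).1))
    have h5 := integral_re (hint hV)
    simp only [RCLike.re_to_complex] at h4 h5
    rw [← h4, h5]
  rw [key hW hpW, key hu hpu, h1]

theorem mass_levi_aff {n : ℕ} {U : CX n → ℝ} {z : CX n} (hU : ContDiffAt ℝ 2 U z) (a c : ℝ) :
    levi (fun x => a * U x + c) z = (a : ℂ) • levi U z := by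
  have := levi_lin hU hU a 0
  simp only [zero_mul, add_zero, Complex.ofReal_zero, zero_smul] at this
  rw [levi_add_const (fun x => a * U x), this]

theorem mass_two {n : ℕ} {U : CX n → ℝ} (hU : ContDiff ℝ ∞ U) (z : CX n) : ContDiffAt ℝ 2 U z :=
  (contDiff_infty.1 hU 2).contDiffAt

theorem mass_two' {U : ℝ → ℝ} (hU : ContDiff ℝ ∞ U) (z : ℝ) : ContDiffAt ℝ 2 U z :=
  (contDiff_infty.1 hU 2).contDiffAt

theorem mass_lower_aux {n : ℕ} (hn : 1 ≤ n) {k : ℕ} (hk : 1 ≤ k) {u : CX n → ℝ} {r : ℝ}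
    (hu : ContDiff ℝ ∞ u) (h0 : ∀ z, 0 ≤ u z) (hb : Bornology.IsBounded {z | u z < r})
    (hp : ∀ z, u z < r → (levi u z).PosSemidef)
    (hlog : ∀ z, u z < r →
      (((u z : ℝ) : ℂ) • levi u z - vecMulVec (dvec u z) (star (dvec u z))).PosSemidef)
    (hv : ∃ C δ : ℝ, 0 < δ ∧ ∀ z, ‖z‖ ≤ δ → u z ≤ C * ‖z‖ ^ (2 * k))
    {l l₂ δ : ℝ} (hl : 0 < l) (hl₂ : 0 < l₂) (hlk : l₂ < l * k) (hδ : 0 < δ)
    (hδ1 : 0 < Real.exp (-δ) - δ) (hlr : l * Real.exp δ < r) :
    ENNReal.ofReal ((4 * π * l₂ * (Real.exp (-δ) - δ)) ^ n / (n.factorial : ℝ))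
      ≤ ∫⁻ z in {z | u z < r}, ENNReal.ofReal (levi u z).det.re := by
  obtain ⟨C₀, δ₀, hδ₀, hC₀⟩ := hv
  obtain ⟨C, hC1, hC⟩ : ∃ C : ℝ, 0 ≤ C ∧ ∀ z, ‖z‖ ≤ δ₀ → u z ≤ C * ‖z‖ ^ (2 * k) :=
    ⟨max C₀ 0, le_max_right _ _, fun z hz => (hC₀ z hz).trans
      (mul_le_mul_of_nonneg_right (le_max_left _ _) (by positivity))⟩
  obtain ⟨R, hR, hRb⟩ := hb.subset_ball_lt 0 (0 : CX n)
  let b : ContDiffBump (0 : CX n) := ⟨R, R + 1, hR, by linarith⟩
  obtain ⟨N, hN⟩ := (isCompact_closedBall (0 : CX n) (R + 1)).exists_bound_of_continuousOn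
    (contDiff_nsq (n := n)).continuous.continuousOn
  have hN0 : 0 ≤ N := (norm_nonneg _).trans (hN 0 (Metric.mem_closedBall_self (by linarith)))
  obtain ⟨Θ₁, hΘ₁, a1, a2, a3, a4⟩ := exists_theta_one hl hδ
  obtain ⟨Θ₂, hΘ₂, b1, b2, b3, b4⟩ := exists_theta_two hδ
  obtain ⟨m, hm, m1, m2, m3, m4, m5, -, -⟩ := exists_smax one_pos
  have hmon₁ : Monotone Θ₁ := monotone_of_deriv_nonneg (contDiff_infty_iff_deriv.1 hΘ₁).1 a1
  have hmon₂ : Monotone Θ₂ := monotone_of_deriv_nonneg (contDiff_infty_iff_deriv.1 hΘ₂).1 b1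
  have hexp : Real.exp (-δ) ≤ 1 := Real.exp_le_one_iff.2 (by linarith)
  have hk1 : (1 : ℝ) ≤ k := by exact_mod_cast hk
  set B : ℝ := l₂ * (1 + δ + Real.log (N + 1)) + 1 with hB
  obtain ⟨L, hL0, hL1, hL2, hL3⟩ : ∃ L : ℝ, 0 ≤ L ∧ -Real.log (δ₀ ^ 2) ≤ L ∧
      Real.log (C + 1) - Real.log l + δ ≤ L ∧
      (1 + B + l + l * Real.log (C + 1) - l * Real.log l) / (l * k - l₂) ≤ L :=
    ⟨max (max 0 (-Real.log (δ₀ ^ 2))) (max (Real.log (C + 1) - Real.log l + δ)
      ((1 + B + l + l * Real.log (C + 1) - l * Real.log l) / (l * k - l₂))),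
      le_max_of_le_left (le_max_left _ _), le_max_of_le_left (le_max_right _ _),
      le_max_of_le_right (le_max_left _ _), le_max_of_le_right (le_max_right _ _)⟩
  rw [div_le_iff₀ (by linarith)] at hL3
  obtain ⟨s, hs, hsL⟩ : ∃ s : ℝ, 0 < s ∧ Real.log s = -L := ⟨Real.exp (-L), Real.exp_pos _,
    Real.log_exp _⟩
  have hs1 : s ≤ 1 := by
    rw [← Real.exp_log hs, hsL]; exact Real.exp_le_one_iff.2 (by linarith)
  have hs2 : s ≤ δ₀ ^ 2 := by
    rw [← Real.log_le_log_iff hs (by positivity), hsL]; linarith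
  have hτ : 0 < s ^ k := by positivity
  have hδs : 0 < δ * s := by positivity
  have hupos : ∀ z, 0 < u z + s ^ k := fun z => by linarith [h0 z]
  have hnpos : ∀ z : CX n, 0 < nsq z + δ * s := fun z => by linarith [nsq_nonneg z]
  have sV₁ : ContDiff ℝ ∞ fun z => Real.log (u z + s ^ k) :=
    (hu.add contDiff_const).log fun z => (hupos z).ne'
  have sV₂ : ContDiff ℝ ∞ fun z : CX n => Real.log (nsq z + δ * s) + L :=
    ((contDiff_nsq.add contDiff_const).log fun z => (hnpos z).ne').add contDiff_const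
  obtain ⟨W₁, hW₁⟩ : ∃ W₁ : CX n → ℝ, W₁ = fun z => Θ₁ (Real.log (u z + s ^ k)) := ⟨_, rfl⟩
  obtain ⟨W₂, hW₂⟩ : ∃ W₂ : CX n → ℝ,
    W₂ = fun z => l₂ * Θ₂ (Real.log (nsq z + δ * s) + L) + (-(l₂ * L) - B) := ⟨_, rfl⟩
  have sW₁ : ContDiff ℝ ∞ W₁ := hW₁ ▸ hΘ₁.comp sV₁
  have sW₂ : ContDiff ℝ ∞ W₂ := hW₂ ▸ (contDiff_const.mul (hΘ₂.comp sV₂)).add contDiff_const
  have sW : ContDiff ℝ ∞ fun z => W₁ z + b z * m (W₂ z - W₁ z) :=
    sW₁.add (b.contDiff.mul (hm.comp (sW₂.sub sW₁)))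
  have hb1 : ∀ z, u z < r → b z = 1 := fun z hz =>
    b.one_of_mem_closedBall (Metric.ball_subset_closedBall (hRb hz))
  have hopen : IsOpen {z | u z < r} := isOpen_lt hu.continuous continuous_const
  have heq : ∀ z, l * Real.exp δ ≤ u z → W₁ z + b z * m (W₂ z - W₁ z) = u z + s ^ k := by
    intro z hz
    have e1 : W₁ z = u z + s ^ k := by
      rw [hW₁]
      simp only
      rw [a3, Real.exp_log (hupos z)]
      rw [← Real.log_exp δ, ← Real.log_mul hl.ne' (Real.exp_pos _).ne']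
      exact Real.log_le_log (by positivity) (by linarith)
    by_cases hzb : z ∈ Metric.closedBall (0 : CX n) (R + 1)
    · have h1 : nsq z ≤ N := (le_abs_self _).trans (hN z hzb)
      have h2 : Real.log (nsq z + δ * s) ≤ Real.log (N + 1) :=
        Real.log_le_log (hnpos z) (by nlinarith)
      have h3 : 0 ≤ Real.log (N + 1) := Real.log_nonneg (by linarith)
      have h4 : Θ₂ (Real.log (nsq z + δ * s) + L) ≤ 1 + (Real.log (N + 1) + L + δ) := by
        rw [← b4 _ (by linarith)]; exact hmon₂ (by linarith)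
      have h5 : W₂ z ≤ -1 := by
        rw [hW₂]
        have := mul_le_mul_of_nonneg_left h4 hl₂.le
        simp only
        linarith
      rw [m1 _ (by linarith [hupos z]), mul_zero, add_zero, e1]
    · rw [b.zero_of_le_dist (le_of_lt (not_le.1 hzb)), zero_mul, add_zero, e1]
  have hpW : ∀ z, u z < r → (levi (fun z => W₁ z + b z * m (W₂ z - W₁ z)) z).PosSemidef := by
    intro z hz
    have e : (fun z => W₁ z + b z * m (W₂ z - W₁ z)) =ᶠ[𝓝 z] fun z => W₁ z + m (W₂ z - W₁ z) := by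
      filter_upwards [hopen.mem_nhds hz] with y hy
      rw [hb1 y hy, one_mul]
    rw [levi_congr e]
    refine levi_smax_psd (mass_two sW₁ z) (mass_two sW₂ z) hm m3 m4 m5 ?_ ?_
    · rw [hW₁]
      exact levi_comp_psd (mass_two sV₁ z) (mass_two' hΘ₁ _) (a1 _) (a2 _)
        (levi_log_psd (mass_two hu z) (h0 z) hτ (hp z hz) (hlog z hz))
    · rw [hW₂, mass_levi_aff (U := fun z => Θ₂ (Real.log (nsq z + δ * s) + L))
        (mass_two (hΘ₂.comp sV₂) z)]
      refine PosSemidef.smul ?_ (Complex.zero_le_real.2 hl₂.le)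
      refine levi_comp_psd (mass_two sV₂ z) (mass_two' hΘ₂ _) (b1 _) (b2 _) ?_
      rw [levi_add_const (fun z : CX n => Real.log (nsq z + δ * s))]
      refine levi_log_psd (mass_two contDiff_nsq z) (nsq_nonneg z) hδs ?_ (nsq_log z)
      rw [levi_nsq]
      exact PosSemidef.one.smul (by norm_num)
  rw [← mass_compare hu sW hb hlr heq hp hpW]
  have hS : ∀ z : CX n, nsq z < s * (Real.exp (-δ) - δ) → u z < r ∧
      W₁ z + b z * m (W₂ z - W₁ z) = l₂ / s * nsq z + (l₂ * δ + (-(l₂ * L) - B)) := by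
    intro z hz
    have h1 : ‖z‖ ^ 2 ≤ s := by nlinarith [norm_sq_le_nsq z]
    have h2 : ‖z‖ ≤ δ₀ := by
      by_contra h
      nlinarith [not_le.1 h]
    have h3 : u z + s ^ k ≤ (C + 1) * s ^ k := by
      have h4 : ‖z‖ ^ (2 * k) ≤ s ^ k := by
        rw [pow_mul]; exact pow_le_pow_left₀ (by positivity) h1 k
      have := (hC z h2).trans (mul_le_mul_of_nonneg_left h4 hC1)
      linarith
    have h4 : Real.log (u z + s ^ k) ≤ Real.log (C + 1) - k * L := by
      refine (Real.log_le_log (hupos z) h3).trans (le_of_eq ?_)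
      rw [Real.log_mul (by positivity) hτ.ne', Real.log_pow, hsL]; ring
    have h5 : Real.log (C + 1) - k * L ≤ Real.log l - δ := by nlinarith
    have h6 : u z < r := by
      have h7 : u z + s ^ k ≤ l := by
        rw [← Real.log_le_log_iff (hupos z) hl]; linarith
      have h8 : l ≤ l * Real.exp δ := le_mul_of_one_le_right hl.le (Real.one_le_exp hδ.le)
      linarith
    have h7 : W₁ z ≤ l + l * (Real.log (C + 1) - k * L - Real.log l) := by
      rw [hW₁, ← a4 _ h5]; exact hmon₁ h4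
    have h8 : Real.exp (Real.log (nsq z + δ * s) + L) = (nsq z + δ * s) / s := by
      rw [Real.exp_add, Real.exp_log (hnpos z), div_eq_mul_inv, ← Real.exp_log (inv_pos.2 hs),
        Real.log_inv, hsL, neg_neg]
    have h9 : W₂ z = l₂ / s * nsq z + (l₂ * δ + (-(l₂ * L) - B)) := by
      rw [hW₂]
      simp only
      rw [b3, h8]
      · field_simp; ring
      · rw [← Real.exp_le_exp, h8, div_le_iff₀ hs]; linarith
    have h10 : 0 ≤ l₂ / s * nsq z := mul_nonneg (by positivity) (nsq_nonneg z)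
    have h11 : 0 ≤ l₂ * δ := by positivity
    refine ⟨h6, ?_⟩
    rw [hb1 z h6, m2 _ (by linarith), h9]; ring
  have hSo : IsOpen {z : CX n | nsq z < s * (Real.exp (-δ) - δ)} :=
    isOpen_lt contDiff_nsq.continuous continuous_const
  refine le_trans (le_of_eq ?_) (lintegral_mono_set (fun z hz => (hS z hz).1 :
    {z : CX n | nsq z < s * (Real.exp (-δ) - δ)} ⊆ {z | u z < r}))
  rw [setLIntegral_congr_fun hSo.measurableSet (g := fun _ => ENNReal.ofReal ((4 * l₂ / s) ^ n)),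
    setLIntegral_const, volume_nsq_lt hn (by positivity), ← ENNReal.ofReal_mul (by positivity)]
  · congr 1
    rw [← mul_div_assoc, ← mul_pow]
    congr 2
    field_simp
  · intro z hz
    have e : (fun z => W₁ z + b z * m (W₂ z - W₁ z))
        =ᶠ[𝓝 z] fun z => l₂ / s * nsq z + (l₂ * δ + (-(l₂ * L) - B)) := by
      filter_upwards [hSo.mem_nhds hz] with y hy using (hS y hy).2
    simp only
    rw [levi_congr e, mass_levi_aff (mass_two contDiff_nsq z), levi_nsq, smul_smul, det_smul,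
      det_one, mul_one, Fintype.card_fin]
    congr 1
    rw [show ((l₂ / s : ℝ) : ℂ) * 4 = ((4 * l₂ / s : ℝ) : ℂ) by push_cast; ring,
      ← Complex.ofReal_pow, Complex.ofReal_re]

/-- lower bound for the Monge-Ampere mass by the order of vanishing at the origin -/
theorem mass_lower {n : ℕ} (hn : 1 ≤ n) {k : ℕ} (hk : 1 ≤ k) {u : CX n → ℝ} {r : ℝ} (hr : 0 < r)
    (hu : ContDiff ℝ ∞ u) (h0 : ∀ z, 0 ≤ u z) (hb : Bornology.IsBounded {z | u z < r})
    (hp : ∀ z, u z < r → (levi u z).PosSemidef)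
    (hlog : ∀ z, u z < r →
      (((u z : ℝ) : ℂ) • levi u z - vecMulVec (dvec u z) (star (dvec u z))).PosSemidef)
    (hv : ∃ C δ : ℝ, 0 < δ ∧ ∀ z, ‖z‖ ≤ δ → u z ≤ C * ‖z‖ ^ (2 * k)) :
    ENNReal.ofReal ((4 * π * k * r) ^ n / (n.factorial : ℝ))
      ≤ ∫⁻ z in {z | u z < r}, ENNReal.ofReal (levi u z).det.re := by
  have hk0 : (0 : ℝ) < k := by exact_mod_cast hk
  have hc : Continuous fun t : ℝ => (4 * π * (r * Real.exp (-(2 * t)) * k * Real.exp (-t))
      * (Real.exp (-t) - t)) ^ n / (n.factorial : ℝ) := by fun_prop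
  have h1 : Tendsto (fun t : ℝ => ENNReal.ofReal ((4 * π * (r * Real.exp (-(2 * t)) * k
      * Real.exp (-t)) * (Real.exp (-t) - t)) ^ n / (n.factorial : ℝ))) (𝓝[>] 0)
      (𝓝 (ENNReal.ofReal ((4 * π * k * r) ^ n / (n.factorial : ℝ)))) := by
    have := ENNReal.tendsto_ofReal ((hc.tendsto 0).mono_left (nhdsWithin_le_nhds (s := Ioi 0)))
    rwa [show (4 * π * (r * Real.exp (-(2 * 0)) * k * Real.exp (-0)) * (Real.exp (-0) - 0))
      = 4 * π * k * r by simp; ring] at this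
  refine le_of_tendsto h1 ?_
  have h2 : ∀ᶠ t : ℝ in 𝓝 0, 0 < Real.exp (-t) - t :=
    (show Continuous fun t : ℝ => Real.exp (-t) - t by fun_prop).continuousAt.eventually
      (lt_mem_nhds (by simp))
  filter_upwards [h2.filter_mono nhdsWithin_le_nhds, self_mem_nhdsWithin] with t ht ht0
  have ht0 : 0 < t := ht0
  refine mass_lower_aux hn hk hu h0 hb hp hlog hv (l := r * Real.exp (-(2 * t))) (by positivity)
    (by positivity) ?_ ht0 ht ?_
  · exact mul_lt_of_lt_one_right (by positivity) (Real.exp_lt_one_iff.2 (by linarith))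
  · rw [mul_assoc, ← Real.exp_add]
    exact mul_lt_of_lt_one_right hr (Real.exp_lt_one_iff.2 (by linarith))

end Vale.Agent.P248
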