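import Vale.Agent.P248.WeightA
import Vale.Agent.P248.Lam
import Vale.Agent.P248.Smax

open MeasureTheory Set Filter Topology Matrix
open scoped ENNReal ContDiff Real ComplexOrder Pointwise

namespace Vale.Agent.P248

theorem weightB_seg {s t τ : ℝ} (h : (⟨s, t⟩ : ℂ) ∈ Omega) (hτ : |τ| ≤ |t|) :
    (⟨s, τ⟩ : ℂ) ∈ Omega := ⟨h.1, hτ.trans_lt h.2⟩

theorem weightB_seg' {s t τ : ℝ} (h : (⟨s, t⟩ : ℂ) ∈ Omega) (hτ : τ ∈ Icc 0 t) :
    (⟨s, τ⟩ : ℂ) ∈ Omega :=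
  weightB_seg h (by rw [abs_of_nonneg hτ.1]; exact hτ.2.trans (le_abs_self t))

theorem weightB_cont (s : ℝ) : Continuous fun τ : ℝ => (⟨s, τ⟩ : ℂ) := by
  simp only [Complex.mk_eq_add_mul_I]
  fun_prop

theorem weightB_conj {w : ℂ} (h : w ∈ Omega) : (starRingEnd ℂ) w ∈ Omega :=
  ⟨h.1, by simpa using h.2⟩

theorem Conf.weightB_lt {F g : ℂ → ℂ} (h : Conf F g) {w : ℂ} (hw : w ∈ Omega) : ‖g w‖ < 1 := by
  simpa using h.mapsg hw

theorem Conf.weightB_deriv_conj {F g : ℂ → ℂ} (h : Conf F g) {w : ℂ} (hw : w ∈ Omega) :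
    ‖deriv g ((starRingEnd ℂ) w)‖ = ‖deriv g w‖ := by
  have e : g =ᶠ[𝓝 ((starRingEnd ℂ) w)] (starRingEnd ℂ) ∘ g ∘ (starRingEnd ℂ) := by
    filter_upwards [isOpen_Omega.mem_nhds (weightB_conj hw)] with z hz
    simp only [Function.comp_apply, h.conj z hz, Complex.conj_conj]
  rw [e.deriv_eq, deriv_conj_conj]
  simp

theorem Conf.weightB_mono {F g : ℂ → ℂ} (h : Conf F g) {s t : ℝ} (hw : (⟨s, t⟩ : ℂ) ∈ Omega) :
    MonotoneOn (fun τ : ℝ => ‖g ⟨s, τ⟩‖ ^ 2) (Icc 0 t) := by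
  have hd := fun τ (hτ : τ ∈ Icc 0 t) => h.hasDerivAt_normSq isOpen_Omega (weightB_seg' hw hτ)
  refine monotoneOn_of_deriv_nonneg (convex_Icc 0 t)
    (fun τ hτ => (hd τ hτ).continuousAt.continuousWithinAt)
    (fun τ hτ => (hd τ (interior_subset hτ)).differentiableAt.differentiableWithinAt)
    fun τ hτ => ?_
  have h1 := interior_subset hτ
  have h2 := weightB_seg' hw h1
  rw [(hd τ h1).deriv]
  have := h.im_mul_nonneg (h.weightB_lt h2) (h.im_nonneg _ h2 h1.1)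
  positivity

/-- the vertical estimate, in terms of g only -/
theorem Conf.vertical {F g : ℂ → ℂ} (h : Conf F g) {η : ℝ} (hη : 0 < η) :
    ∀ᶠ k : ℕ in atTop, ∀ s t : ℝ, 0 ≤ t → (⟨s, t⟩ : ℂ) ∈ Omega →
      ∫ τ in (0 : ℝ)..t, 4 * (k : ℝ) ^ 2 * (‖g ⟨s, τ⟩‖ ^ 2) ^ (k - 1) * ‖deriv g ⟨s, τ⟩‖ ^ 2
        ≤ k * π * ((1 + η) * (‖g ⟨s, t⟩‖ ^ 2) ^ k + η) := by
  obtain ⟨T, hT, htri⟩ := h.trichotomy hη
  have hπ := Real.pi_pos
  set β : ℝ := π * η / 2 with hβ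
  have hβ0 : 0 < β := by positivity
  obtain ⟨δ, hδ0, hδ1, htri⟩ := htri (4 * T / β)
  obtain ⟨M, hM0, hM⟩ := h.inv_deriv_bound hδ0
  have hδ2 : 0 < 1 - δ := by linarith
  have hlim := (tendsto_pow_const_mul_const_pow_of_lt_one 2 hδ2.le
    (by linarith : 1 - δ < 1)).mul_const (4 * M / (1 - δ) * Lam 0)
  rw [zero_mul] at hlim
  filter_upwards [hlim.eventually_le_const hβ0, eventually_ge_atTop 2] with k hk hk2 s t ht hw
  obtain ⟨j, rfl⟩ : ∃ j, k = j + 1 := ⟨k - 1, by omega⟩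
  have hj : (1 : ℝ) ≤ j := by exact_mod_cast (show 1 ≤ j by omega)
  rw [Nat.add_sub_cancel]
  set K : ℝ := ((j + 1 : ℕ) : ℝ) with hK
  have hKj : K = j + 1 := by rw [hK]; push_cast; ring
  have hK0 : 0 < K := by linarith
  set c : ℝ := 4 * K ^ 2 * (1 - δ) ^ j * M with hc
  have hc0 : 0 ≤ c := by positivity
  have hcL : c * Lam 0 ≤ β := by
    refine le_of_eq_of_le ?_ hk
    rw [hc, pow_succ (1 - δ)]
    field_simp
  have hd : ∀ τ ∈ Icc 0 t, HasDerivAt (fun τ : ℝ => K * π * (1 + η) * (‖g ⟨s, τ⟩‖ ^ 2) ^ (j + 1)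
      - β * K * Real.exp (-(K / T) * (g ⟨s, τ⟩).im) + c * τ)
      (K * π * (1 + η) * (K * (‖g ⟨s, τ⟩‖ ^ 2) ^ j *
        (2 * (g ⟨s, τ⟩ * deriv F (g ⟨s, τ⟩)).im / ‖deriv F (g ⟨s, τ⟩)‖ ^ 2))
      - β * K * (Real.exp (-(K / T) * (g ⟨s, τ⟩).im) *
        (-(K / T) * ((deriv F (g ⟨s, τ⟩)).re / ‖deriv F (g ⟨s, τ⟩)‖ ^ 2))) + c * 1) τ := by
    intro τ hτ
    have h1 := h.hasDerivAt_normSq isOpen_Omega (weightB_seg' hw hτ)
    have h2 := h.hasDerivAt_im isOpen_Omega (weightB_seg' hw hτ)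
    exact (((h1.fun_pow (j + 1)).const_mul _).fun_sub
      ((h2.const_mul _).exp.const_mul _)).fun_add ((hasDerivAt_id τ).const_mul c)
  have hg : ContinuousOn (fun τ : ℝ => g ⟨s, τ⟩) (Icc 0 t) :=
    h.diffg.continuousOn.comp (weightB_cont s).continuousOn fun τ hτ => weightB_seg' hw hτ
  have hg' : ContinuousOn (fun τ : ℝ => deriv g ⟨s, τ⟩) (Icc 0 t) :=
    (h.diffg.deriv isOpen_Omega).continuousOn.comp (weightB_cont s).continuousOn
      fun τ hτ => weightB_seg' hw hτ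
  refine (intervalIntegral.integral_le_sub_of_hasDeriv_right_of_le ht
    (fun τ hτ => (hd τ hτ).continuousAt.continuousWithinAt)
    (fun τ hτ => (hd τ (Ioo_subset_Icc_self hτ)).hasDerivWithinAt)
    (((continuousOn_const.mul ((hg.norm.pow 2).pow j)).mul
      (hg'.norm.pow 2)).integrableOn_compact isCompact_Icc) fun τ hτ => ?_).trans ?_
  · have h1 := weightB_seg' hw (Ioo_subset_Icc_self hτ)
    have hz := h.weightB_lt h1
    have hy := h.im_nonneg _ h1 hτ.1.le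
    obtain ⟨e1, e2⟩ := h.deriv_g h1 isOpen_Omega
    have hA := h.im_mul_nonneg hz hy
    have hR := h.re_pos _ (h.mapsg h1)
    have hcase := htri _ hz hy
    have hM' := hM (g ⟨s, τ⟩)
    change 4 * K ^ 2 * (‖g ⟨s, τ⟩‖ ^ 2) ^ j * ‖deriv g ⟨s, τ⟩‖ ^ 2 ≤ _
    rw [e1, norm_inv, inv_pow]
    rw [one_div] at hM'
    simp only [div_eq_mul_inv _ (‖deriv F (g ⟨s, τ⟩)‖ ^ 2)]
    have hD : 0 < (‖deriv F (g ⟨s, τ⟩)‖ ^ 2)⁻¹ := by
      have := norm_pos_iff.2 e2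
      positivity
    have hN0 : 0 ≤ ‖g ⟨s, τ⟩‖ ^ 2 := sq_nonneg _
    have hN1 : ‖g ⟨s, τ⟩‖ ^ 2 < 1 := by nlinarith [norm_nonneg (g ⟨s, τ⟩)]
    set D := (‖deriv F (g ⟨s, τ⟩)‖ ^ 2)⁻¹
    set N := ‖g ⟨s, τ⟩‖ ^ 2
    set A := (g ⟨s, τ⟩ * deriv F (g ⟨s, τ⟩)).im
    set R := (deriv F (g ⟨s, τ⟩)).re
    set y := (g ⟨s, τ⟩).im
    have hE := Real.exp_pos (-(K / T) * y)
    have t1 : K * π * (1 + η) * (K * N ^ j * (2 * A * D)) =
        (K ^ 2 * N ^ j * D) * (2 * (A * (π * (1 + η)))) := by ring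
    have t2 : β * K * (Real.exp (-(K / T) * y) * (-(K / T) * (R * D))) =
        -((K ^ 2 * Real.exp (-(K / T) * y) * D) * (R * β / T)) := by ring
    have p1 : 0 ≤ (K ^ 2 * N ^ j * D) * (2 * (A * (π * (1 + η)))) := by positivity
    have p2 : 0 ≤ (K ^ 2 * Real.exp (-(K / T) * y) * D) * (R * β / T) := by positivity
    rw [t1, t2]
    rcases hcase with h2 | h2 | ⟨h2, h3⟩
    · rw [div_le_iff₀ (by positivity)] at h2
      have := mul_le_mul_of_nonneg_left h2 (show 0 ≤ K ^ 2 * N ^ j * D by positivity)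
      linarith
    · have : 4 * K ^ 2 * N ^ j * D ≤ c := by
        rw [hc]
        gcongr
        exact hM' h2
      linarith
    · rw [div_le_iff₀ hβ0, ← le_div_iff₀ hT] at h3
      have h4 : N ^ j ≤ Real.exp (-(K / T) * y) := by
        have f1 : N ≤ Real.exp (N - 1) := by linarith [Real.add_one_le_exp (N - 1)]
        refine (pow_le_pow_left₀ hN0 f1 j).trans ?_
        rw [← Real.exp_nat_mul, Real.exp_le_exp]
        have f2 : K / T * y ≤ K / 2 * (1 - N) := by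
          rw [div_mul_eq_mul_div, div_le_iff₀ hT]
          nlinarith
        nlinarith
      have h5 : 4 * K ^ 2 * N ^ j * D ≤ 4 * K ^ 2 * Real.exp (-(K / T) * y) * D := by gcongr
      have := mul_le_mul_of_nonneg_left h3
        (show 0 ≤ K ^ 2 * Real.exp (-(K / T) * y) * D by positivity)
      linarith
  · have h0 := weightB_seg' hw ⟨le_rfl, ht⟩
    have hy := h.im_nonneg _ h0 le_rfl
    have e1 : Real.exp (-(K / T) * (g ⟨s, 0⟩).im) ≤ 1 := by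
      rw [Real.exp_le_one_iff, neg_mul, neg_nonpos]
      positivity
    have e2 := mul_le_mul_of_nonneg_left e1 (show 0 ≤ β * K by positivity)
    have e3 : 0 ≤ β * K * Real.exp (-(K / T) * (g ⟨s, t⟩).im) := by positivity
    have e4 : 0 ≤ K * π * (1 + η) * (‖g ⟨s, 0⟩‖ ^ 2) ^ (j + 1) := by positivity
    have e5 : t ≤ Lam 0 := (le_abs_self t).trans (hw.2.le.trans (Lam_le hw.1.le))
    have e6 := (mul_le_mul_of_nonneg_left e5 hc0).trans hcL
    have e7 : β ≤ β * K := le_mul_of_one_le_right hβ0.le (by linarith)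
    have e8 : K * π * η = 2 * (β * K) := by rw [hβ]; ring
    simp only [mul_zero]
    linarith

theorem Conf.weightB_small {F g : ℂ → ℂ} (h : Conf F g) {η : ℝ} (hη : 0 < η) :
    ∀ᶠ k : ℕ in atTop, ∀ w : ℂ, |w.re| ≤ 1 → |w.im| + η ≤ Lam w.re →
      w ∈ Omega ∧ (‖g w‖ ^ 2) ^ k ≤ η := by
  have hsub : {w ∈ {w : ℂ | |w.re| ≤ 1} | |w.im| + η ≤ Lam w.re} ⊆ Omega := by
    rintro w ⟨h1, h2⟩
    refine ⟨lt_of_le_of_ne h1 fun h3 => ?_, by linarith⟩
    rw [Lam_eq_zero h3] at h2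
    linarith [abs_nonneg w.im]
  have hcl : IsClosed {w ∈ {w : ℂ | |w.re| ≤ 1} | |w.im| + η ≤ Lam w.re} :=
    (isClosed_le (by fun_prop) continuous_const).isClosed_le (by fun_prop)
      (Lam_continuousOn.comp Complex.continuous_re.continuousOn fun w hw => abs_le.1 hw)
  obtain ⟨a, ha, hb⟩ := (Metric.isCompact_of_isClosed_isBounded hcl
    (isBounded_Omega.subset hsub)).exists_forall_le' (f := fun w => 1 - ‖g w‖ ^ 2) (a := 0)
    (continuousOn_const.sub ((h.diffg.continuousOn.mono hsub).norm.pow 2))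
    fun w hw => by nlinarith [h.weightB_lt (hsub hw), norm_nonneg (g w)]
  have hlim := tendsto_pow_atTop_nhds_zero_of_lt_one (le_max_right (1 - a) 0)
    (max_lt (by linarith) one_pos)
  filter_upwards [hlim.eventually_le_const hη] with k hk w h1 h2
  refine ⟨hsub ⟨h1, h2⟩, le_trans (pow_le_pow_left₀ (sq_nonneg _) ?_ k) hk⟩
  have := hb w ⟨h1, h2⟩
  exact le_max_of_le_left (by linarith)

theorem weightB_sigma {r d : ℝ} (hd : 0 < d) :
    ∃ σ : ℝ → ℝ, ContDiff ℝ ∞ σ ∧ (∀ t, t ≤ r → σ t = t) ∧ (∀ t, r + 2 * d ≤ t → σ t = r + d) ∧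
      (∀ t, r ≤ t → r ≤ σ t) ∧ ∀ t, σ t ≤ t := by
  obtain ⟨m, m1, m2, m3, -, m5, -, m7, -⟩ := exists_smax hd
  have hm : Differentiable ℝ m := m1.differentiable (by simp)
  have hmono : Monotone fun t => t - m t := monotone_of_deriv_nonneg (by fun_prop) fun t => by
    rw [((hasDerivAt_id' t).fun_sub (hm t).hasDerivAt).deriv]
    exact sub_nonneg.2 (m5 t)
  refine ⟨fun t => t - m (t - r - d), contDiff_id.sub (m1.comp (by fun_prop)), fun t ht => ?_,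
    fun t ht => ?_, fun t ht => ?_, fun t => sub_le_self _ (m7 _)⟩
  · simp only [m2 (t - r - d) (by linarith), sub_zero]
  · simp only [m3 (t - r - d) (by linarith)]
    ring
  · have := hmono (show -d ≤ t - r - d by linarith)
    simp only [m2 _ le_rfl] at this ⊢
    linarith

theorem Conf.exists_weight {F g : ℂ → ℂ} (h : Conf F g) {η : ℝ} (hη : 0 < η) (hη1 : η < 1) :
    ∃ (k : ℕ) (φ : ℂ → ℝ), Weight η k φ := by
  classical
  obtain ⟨k, ⟨hv, hs⟩, hk⟩ :=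
    (((h.vertical hη).and (h.weightB_small hη)).and (eventually_ge_atTop 1)).exists
  obtain ⟨r, hr0, hr⟩ : ∃ r : ℝ, 0 ≤ r ∧ r ^ k = 1 - η :=
    ⟨_, Real.rpow_nonneg (by linarith) _, Real.rpow_inv_natCast_pow (by linarith) (by omega)⟩
  have hr1 : r < 1 := by
    by_contra h1
    have := one_le_pow₀ (n := k) (not_lt.1 h1)
    linarith
  set d : ℝ := (1 - r) / 4 with hd
  have hd0 : 0 < d := by linarith
  obtain ⟨σ, s1, s2, s3, s4, s5⟩ := weightB_sigma (r := r) hd0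
  have s6 : ∀ t, 0 ≤ t → 0 ≤ σ t := fun t ht => by
    rcases le_total t r with h1 | h1
    · rwa [s2 t h1]
    · exact hr0.trans (s4 t h1)
  let φ : ℂ → ℝ := fun w => if w ∈ Omega then σ (‖g w‖ ^ 2) ^ k else (r + d) ^ k
  have hin : ∀ w ∈ Omega, φ w = σ (‖g w‖ ^ 2) ^ k := fun w hw => if_pos hw
  have hout : ∀ w ∉ Omega, φ w = (r + d) ^ k := fun w hw => if_neg hw
  have hgd : ∀ w ∈ Omega, DifferentiableAt ℂ g w := fun w hw =>
    h.diffg.differentiableAt (isOpen_Omega.mem_nhds hw)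
  have K1 : ∀ w, φ w < 1 - η → w ∈ Omega ∧ ‖g w‖ ^ 2 < r := by
    intro w hw
    rw [← hr] at hw
    have h1 : w ∈ Omega := by
      by_contra h1
      rw [hout w h1] at hw
      exact absurd (pow_le_pow_left₀ hr0 (by linarith) k) (not_le.2 hw)
    refine ⟨h1, not_le.1 fun h2 => ?_⟩
    rw [hin w h1] at hw
    exact absurd (pow_le_pow_left₀ hr0 (s4 _ h2) k) (not_le.2 hw)
  have K2 : ∀ w ∈ Omega, ‖g w‖ ^ 2 < r → φ =ᶠ[𝓝 w] fun z => ‖g z ^ k‖ ^ 2 := by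
    intro w hw h1
    filter_upwards [isOpen_Omega.mem_nhds hw,
      ((hgd w hw).continuousAt.norm.pow 2).eventually (gt_mem_nhds h1)] with z hz h2
    rw [hin z hz, s2 (‖g z‖ ^ 2) (le_of_lt h2), norm_pow, ← pow_mul, ← pow_mul, mul_comm]
  have K3 : ∀ w ∈ Omega, ‖g w‖ ^ 2 < r → lap φ w = 4 * ‖deriv (fun z => g z ^ k) w‖ ^ 2 := by
    intro w hw h1
    refine lap_normSq ?_ (K2 w hw h1)
    filter_upwards [isOpen_Omega.mem_nhds hw] with z hz
    exact (hgd z hz).fun_pow k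
  have K4 : ∀ w ∈ Omega, ‖g w‖ ^ 2 < r →
      max (lap φ w) 0 = 4 * (k : ℝ) ^ 2 * (‖g w‖ ^ 2) ^ (k - 1) * ‖deriv g w‖ ^ 2 := by
    intro w hw h1
    rw [K3 w hw h1, max_eq_left (by positivity), ((hgd w hw).hasDerivAt.fun_pow k).deriv,
      norm_mul, norm_mul, norm_pow, Complex.norm_natCast]
    ring
  have K5 : ∀ s t : ℝ, 0 ≤ t → (⟨s, t⟩ : ℂ) ∈ Omega → ‖g ⟨s, t⟩‖ ^ 2 < r → ∀ f : ℝ → ℝ,
      (∀ τ : ℝ, (⟨s, τ⟩ : ℂ) ∈ Omega → ‖g ⟨s, τ⟩‖ ^ 2 < r → f τ =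
        4 * (k : ℝ) ^ 2 * (‖g ⟨s, τ⟩‖ ^ 2) ^ (k - 1) * ‖deriv g ⟨s, τ⟩‖ ^ 2) →
      |∫ τ in (0 : ℝ)..t, f τ| ≤ k * π * ((1 + η) * (‖g ⟨s, t⟩‖ ^ 2) ^ k + η) := by
    intro s t ht hw h1 f hf
    rw [intervalIntegral.integral_congr (g := fun τ =>
      4 * (k : ℝ) ^ 2 * (‖g ⟨s, τ⟩‖ ^ 2) ^ (k - 1) * ‖deriv g ⟨s, τ⟩‖ ^ 2) fun τ hτ => ?_,
      abs_of_nonneg (intervalIntegral.integral_nonneg ht fun τ _ => by positivity)]
    · exact hv s t ht hw
    · rw [uIcc_of_le ht] at hτ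
      exact hf τ (weightB_seg' hw hτ)
        ((h.weightB_mono hw hτ ⟨ht, le_rfl⟩ hτ.2).trans_lt h1)
  have h00 : (0 : ℂ) ∈ Metric.ball (0 : ℂ) 1 := Metric.mem_ball_self one_pos
  have h0 : (0 : ℂ) ∈ Omega := h.zero ▸ h.mapsF h00
  have g0 : g 0 = 0 := by simpa [h.zero] using h.left 0 h00
  refine ⟨k, φ, hk, contDiff_iff_contDiffAt.2 fun w => ?_, fun w => ?_, fun w hw => (K1 w hw).1,
    fun w hw => ?_, fun w hw => ?_, ?_, fun s t hw => ?_, fun w h1 h2 => ?_⟩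
  · by_cases hw : w ∈ Omega
    · have e1 : ContDiffAt ℝ ∞ g w :=
        ((h.diffg.contDiffOn isOpen_Omega).contDiffAt
          (isOpen_Omega.mem_nhds hw)).restrict_scalars ℝ
      refine ((s1.contDiffAt.comp w (e1.norm_sq ℂ)).pow k).congr_of_eventuallyEq ?_
      filter_upwards [isOpen_Omega.mem_nhds hw] with z hz
      exact hin z hz
    · have e1 : Metric.closedBall (0 : ℂ) √(r + 2 * d) ⊆ Metric.ball 0 1 :=
        Metric.closedBall_subset_ball ((Real.sqrt_lt' one_pos).2 (by linarith))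
      have e2 := ((isCompact_closedBall (0 : ℂ) √(r + 2 * d)).image_of_continuousOn
        (h.diffF.continuousOn.mono e1)).isClosed.isOpen_compl
      refine (contDiffAt_const (c := (r + d) ^ k)).congr_of_eventuallyEq ?_
      filter_upwards [e2.mem_nhds (x := w) (by
        rintro ⟨ζ, hζ, rfl⟩
        exact hw (h.mapsF (e1 hζ)))] with z hz
      by_cases hz' : z ∈ Omega
      · rw [hin z hz', s3]
        by_contra h1
        refine hz ⟨g z, ?_, h.right z hz'⟩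
        rw [mem_closedBall_zero_iff]
        exact Real.le_sqrt_of_sq_le (not_le.1 h1).le
      · exact hout z hz'
  · by_cases hw : w ∈ Omega
    · rw [hin w hw]
      exact pow_nonneg (s6 _ (sq_nonneg _)) k
    · rw [hout w hw]
      positivity
  · rw [K3 w (K1 w hw).1 (K1 w hw).2]
    positivity
  · obtain ⟨h1, h2⟩ := K1 w hw
    rw [K3 w h1 h2, grad_normSq ((hgd w h1).fun_pow k) (K2 w h1 h2), (K2 w h1 h2).eq_of_nhds]
    exact le_of_eq (by ring)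
  · obtain ⟨C, hC⟩ := (hgd 0 h0).isBigO_sub.bound
    obtain ⟨ε, hε, hb⟩ := Metric.eventually_nhds_iff.1 (hC.and (isOpen_Omega.mem_nhds h0))
    refine ⟨C ^ (2 * k), ε / 2, half_pos hε, fun w hw => ?_⟩
    obtain ⟨e1, e2⟩ := hb (y := w) (by rw [dist_zero_right]; linarith)
    rw [g0, sub_zero, sub_zero] at e1
    rw [hin w e2, ← mul_pow, pow_mul]
    exact pow_le_pow_left₀ (s6 _ (sq_nonneg _))
      ((s5 _).trans (pow_le_pow_left₀ (norm_nonneg _) e1 2)) k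
  · obtain ⟨h1, h2⟩ := K1 _ hw
    rw [hin _ h1, s2 _ h2.le]
    rcases le_total 0 t with ht | ht
    · exact K5 s t ht h1 h2 _ fun τ e1 e2 => K4 _ e1 e2
    · have c1 : ∀ τ : ℝ, (⟨s, τ⟩ : ℂ) ∈ Omega → ‖g ⟨s, -τ⟩‖ = ‖g ⟨s, τ⟩‖ := fun τ e => by
        have e1 : g ⟨s, -τ⟩ = _ := h.conj _ e
        rw [e1, Complex.norm_conj]
      have e3 := K5 s (-t) (neg_nonneg.2 ht) (weightB_conj h1) (by rwa [c1 t h1])
        (fun τ => max (lap φ ⟨s, -τ⟩) 0) fun τ e1 e2 => by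
          have e4 : ‖deriv g ⟨s, -τ⟩‖ = _ := h.weightB_deriv_conj e1
          rw [K4 ⟨s, -τ⟩ (weightB_conj e1) (by rwa [c1 τ e1]), c1 τ e1, e4]
      rw [intervalIntegral.integral_comp_neg fun τ => max (lap φ ⟨s, τ⟩) 0, neg_neg, neg_zero,
        intervalIntegral.integral_symm, abs_neg, c1 t h1] at e3
      exact e3
  · obtain ⟨e1, e2⟩ := hs w h1 h2
    rw [hin w e1]
    exact (pow_le_pow_left₀ (s6 _ (sq_nonneg _)) (s5 _) k).trans e2

end Vale.Agent.P248
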