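import Vale.Agent.P248.Slice
import Vale.Agent.P248.Mass
import Vale.Agent.P248.WeightB
import Vale.Agent.P248.ConfB

open MeasureTheory Set Filter Topology Matrix
open scoped ENNReal ContDiff Real ComplexOrder Pointwise

namespace Vale.Agent.P248

variable {n : ℕ} {ι : Type} [Fintype ι] {a : ι → Fin n → ℝ}

/-- points of the sublevel set are sent to reached points -/
theorem reach_gmap {φ : ℂ → ℝ} {η η' ε : ℝ} {k : ℕ} (hW : Weight η' k φ) (h0 : 0 < η')
    (h1 : η' < 1) (hε : 0 < ε) (hη : η' * (1 + 3 * Fintype.card ι) ≤ η / 2)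
    (hεη : ε * Fintype.card ι * Lam 0 ≤ η / 2) {x y : Fin n → ℝ}
    (h : ridge φ a (x, y) < 1 - η') : Reach a η x (gmap φ a (1 / (k * π)) ε x y) := by
  have hφ : ∀ j, φ ⟨a j ⬝ᵥ x, a j ⬝ᵥ y⟩ < 1 - η' := fun j =>
    (Finset.single_le_sum (f := fun j => φ (pt (a j) (x, y))) (fun j _ => hW.nonneg _)
      (Finset.mem_univ j)).trans_lt h
  have hΩ : ∀ j, |a j ⬝ᵥ x| < 1 ∧ |a j ⬝ᵥ y| < Lam (a j ⬝ᵥ x) := fun j => hW.mem _ (hφ j)
  have hk : (1 : ℝ) ≤ k * π := by
    have h2 : (1 : ℝ) ≤ k := Nat.one_le_cast.2 hW.pos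
    nlinarith [Real.pi_gt_three]
  have hk0 : (0 : ℝ) < k * π := by linarith
  have hc0 : (0 : ℝ) < 1 / (k * π) := by positivity
  have hc1 : 1 / (k * π) ≤ 1 := by rw [div_le_one hk0]; exact hk
  have hN : (0 : ℝ) ≤ Fintype.card ι := Nat.cast_nonneg _
  have hNη : 0 ≤ η' * Fintype.card ι := by positivity
  have hΨ : ∀ j, |1 / (k * π) * Psi φ (a j ⬝ᵥ x) (a j ⬝ᵥ y)|
      ≤ (1 + η') * φ ⟨a j ⬝ᵥ x, a j ⬝ᵥ y⟩ + η' := by
    intro j
    rw [abs_mul, abs_of_pos hc0, one_div, inv_mul_le_iff₀ hk0]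
    exact hW.bound _ _ (hφ j)
  refine ⟨y, fun j => if Lam (a j ⬝ᵥ x) < |a j ⬝ᵥ y| + η
      then 1 / (k * π) * Psi φ (a j ⬝ᵥ x) (a j ⬝ᵥ y) else 0,
    fun j => (if Lam (a j ⬝ᵥ x) < |a j ⬝ᵥ y| + η
      then 0 else 1 / (k * π) * Psi φ (a j ⬝ᵥ x) (a j ⬝ᵥ y)) + 1 / (k * π) * (ε * (a j ⬝ᵥ y)),
    hΩ, ?_, ?_, fun j => ⟨?_, ?_⟩, ?_⟩
  · calc _ ≤ ∑ j, ((1 + η') * φ ⟨a j ⬝ᵥ x, a j ⬝ᵥ y⟩ + η') := by
          refine Finset.sum_le_sum fun j _ => ?_
          dsimp only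
          split_ifs
          · exact hΨ j
          · exact (abs_zero.le.trans (abs_nonneg _)).trans (hΨ j)
      _ = (1 + η') * ridge φ a (x, y) + η' * Fintype.card ι := by
          rw [Finset.sum_add_distrib, ← Finset.mul_sum, Finset.sum_const, Finset.card_univ,
            nsmul_eq_mul, mul_comm _ η']
          rfl
      _ ≤ 1 + η := by nlinarith
  · calc _ ≤ ∑ _j : ι, (3 * η' + ε * Lam 0) := by
          refine Finset.sum_le_sum fun j _ => (abs_add_le _ _).trans (add_le_add ?_ ?_)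
          · split_ifs with hj
            · rw [abs_zero]; positivity
            · have h3 : φ ⟨a j ⬝ᵥ x, a j ⬝ᵥ y⟩ ≤ η' :=
                hW.small _ (hΩ j).1.le (by
                  change |a j ⬝ᵥ y| + η' ≤ Lam (a j ⬝ᵥ x)
                  nlinarith [not_lt.1 hj])
              refine (hΨ j).trans ?_
              nlinarith
          · have h3 : |a j ⬝ᵥ y| ≤ Lam 0 := (hΩ j).2.le.trans (Lam_le (hΩ j).1.le)
            rw [abs_mul, abs_mul, abs_of_pos hc0, abs_of_pos hε]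
            calc 1 / (k * π) * (ε * |a j ⬝ᵥ y|) ≤ 1 * (ε * Lam 0) := by gcongr
              _ = _ := one_mul _
      _ = (3 * η' + ε * Lam 0) * Fintype.card ι := by
          rw [Finset.sum_const, Finset.card_univ, nsmul_eq_mul, mul_comm]
      _ ≤ η := by nlinarith
  · dsimp only
    split_ifs
    · rw [mul_assoc]
      exact mul_nonneg hc0.le (Psi_mul_nonneg hW.smooth _ _)
    · rw [zero_mul]
  · intro hj
    by_contra hc
    exact hj (if_neg hc)
  · refine Finset.sum_congr rfl fun j _ => ?_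
    congr 1
    dsimp only
    split_ifs <;> ring

theorem MT_step (hn : 1 ≤ n) (ha : ∀ y, (∀ j, a j ⬝ᵥ y = 0) → y = 0) {η η' : ℝ}
    (hη : 0 < η) {Q : Set (CX n)} (hQ : MeasurableSet Q)
    (hR : ∀ x p, Reach a η x p → (x, p) ∈ Q) (h0 : 0 < η') (h1 : η' < 1)
    (h2 : η' * (1 + 3 * Fintype.card ι) ≤ η / 2) :
    ENNReal.ofReal ((4 * (1 - η')) ^ n / (n.factorial : ℝ)) ≤ volume Q := by
  obtain ⟨F, g, hC⟩ := exists_conf
  obtain ⟨k, φ, hW⟩ := hC.exists_weight h0 h1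
  have hL0 : 0 ≤ Lam 0 := Lam_nonneg (by simp)
  have hN : (0 : ℝ) ≤ Fintype.card ι := Nat.cast_nonneg _
  obtain ⟨ε, hε, hεη⟩ : ∃ ε : ℝ, 0 < ε ∧ ε * Fintype.card ι * Lam 0 ≤ η / 2 := by
    have h3 : 0 < Fintype.card ι * Lam 0 + 1 := by positivity
    refine ⟨η / 2 / (Fintype.card ι * Lam 0 + 1), by positivity, ?_⟩
    rw [mul_assoc, div_mul_eq_mul_div, div_le_iff₀ h3]
    nlinarith
  have hk0 : (0 : ℝ) < k := Nat.cast_pos.2 hW.pos
  have hc0 : (0 : ℝ) < 1 / (k * π) := by positivity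
  have hφ : ∀ z, ridge φ a z < 1 - η' → ∀ j, φ (pt (a j) z) < 1 - η' := fun z hz j =>
    (Finset.single_le_sum (f := fun j => φ (pt (a j) z)) (fun j _ => hW.nonneg _)
      (Finset.mem_univ j)).trans_lt hz
  have hu := contDiff_ridge (a := a) hW.smooth
  have hU : MeasurableSet {z | ridge φ a z < 1 - η'} :=
    (isOpen_lt hu.continuous continuous_const).measurableSet
  have hb : Bornology.IsBounded {z | ridge φ a z < 1 - η'} := by
    obtain ⟨C, hC0, hC⟩ := exists_norm_le ha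
    refine (isBounded_iff_forall_norm_le).2 ⟨max (C * 1) (C * Lam 0), fun z hz => ?_⟩
    have hΩ : ∀ j, |a j ⬝ᵥ z.1| < 1 ∧ |a j ⬝ᵥ z.2| < Lam (a j ⬝ᵥ z.1) :=
      fun j => hW.mem _ (hφ z hz j)
    rw [Prod.norm_def]
    exact max_le_max (hC _ _ zero_le_one fun j => (hΩ j).1.le)
      (hC _ _ hL0 fun j => (hΩ j).2.le.trans (Lam_le (hΩ j).1.le))
  have hm := mass_lower hn hW.pos (r := 1 - η') (by linarith) hu
    (fun z => Finset.sum_nonneg fun j _ => hW.nonneg _) hb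
    (fun z hz => levi_ridge_psd hW.smooth fun j => hW.lap_nonneg _ (hφ z hz j))
    (fun z hz => levi_ridge_log hW.smooth (fun j => hW.nonneg _)
      (fun j => hW.lap_nonneg _ (hφ z hz j)) fun j => hW.logsub _ (hφ z hz j))
    (ridge_vanish hW)
  simp only [det_levi_ridge hW.smooth] at hm
  have e1 : (4 * (1 - η')) ^ n / (n.factorial : ℝ)
      = (1 / (k * π)) ^ n * ((4 * π * k * (1 - η')) ^ n / (n.factorial : ℝ)) := by
    rw [← mul_div_assoc, ← mul_pow]
    congr 2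
    field_simp
  rw [e1, ENNReal.ofReal_mul (by positivity)]
  refine (mul_le_mul_right hm _).trans ?_
  rw [← lintegral_indicator hU, Measure.volume_eq_prod, Measure.prod_apply hQ]
  refine (mul_le_mul_right (lintegral_prod_le _) _).trans ?_
  rw [← lintegral_const_mul' _ _ ENNReal.ofReal_ne_top]
  refine lintegral_mono fun x => ?_
  have hS : MeasurableSet {y | ridge φ a (x, y) < 1 - η'} := measurable_prodMk_left hU
  have h3 := slice_bound hW.smooth ha hc0 hε x hS fun y hy j => hW.lap_nonneg _ (hφ _ hy j)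
  rw [← lintegral_indicator hS] at h3
  refine le_trans (le_of_eq_of_le rfl h3) (measure_mono ?_)
  rintro _ ⟨y, hy, rfl⟩
  exact hR _ _ (reach_gmap hW h0 h1 hε h2 hεη hy)

/-- the main covering inequality -/
theorem mahler_le_of_reach (hn : 1 ≤ n) (ha : ∀ y, (∀ j, a j ⬝ᵥ y = 0) → y = 0) {η : ℝ}
    (hη : 0 < η) {Q : Set (CX n)} (hQ : MeasurableSet Q)
    (hR : ∀ x p, Reach a η x p → (x, p) ∈ Q) : mahler n ≤ volume Q := by
  have hN : (0 : ℝ) < 1 + 3 * Fintype.card ι := by positivity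
  have hc : Continuous fun t : ℝ => ENNReal.ofReal ((4 * (1 - t)) ^ n / (n.factorial : ℝ)) :=
    ENNReal.continuous_ofReal.comp (by fun_prop)
  have ht : Tendsto (fun t : ℝ => ENNReal.ofReal ((4 * (1 - t)) ^ n / (n.factorial : ℝ)))
      (𝓝[>] 0) (𝓝 (mahler n)) := by
    have := hc.tendsto 0
    simp only [sub_zero, mul_one] at this
    exact this.mono_left nhdsWithin_le_nhds
  refine le_of_tendsto ht ?_
  have hpos : 0 < min 1 (η / 2 / (1 + 3 * Fintype.card ι)) := lt_min one_pos (by positivity)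
  filter_upwards [Ioo_mem_nhdsGT hpos] with t ht
  refine MT_step hn ha hη hQ hR ht.1 (ht.2.trans_le (min_le_left _ _)) ?_
  rw [← le_div_iff₀ hN]
  exact ht.2.le.trans (min_le_right _ _)

end Vale.Agent.P248
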