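import Vale.Agent.P248.Polar
import Vale.Agent.P248.MT

open MeasureTheory Set Filter Topology Matrix
open scoped ENNReal ContDiff Real ComplexOrder Pointwise

namespace Vale.Agent.P248

variable {n : ℕ} {K : Set (Fin n → ℝ)}

theorem Reach.mono {ι : Type} [Fintype ι] {a : ι → Fin n → ℝ} {η η' : ℝ} {x p : Fin n → ℝ}
    (h : Reach a η x p) (hη : η ≤ η') : Reach a η' x p := by
  obtain ⟨y, l, m, h1, h2, h3, h4, h5⟩ := h
  exact ⟨y, l, m, h1, by linarith, by linarith,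
    fun j => ⟨(h4 j).1, fun hj => by linarith [(h4 j).2 hj]⟩, h5⟩

theorem Reach.mem_smul {ι : Type} [Fintype ι] {a : ι → Fin n → ℝ} {η : ℝ} {x p : Fin n → ℝ}
    (hK : Body K) (ha : ∀ j, a j ∈ polar K) (hη : 0 < η) (h : Reach a η x p) :
    p ∈ (1 + 2 * η) • polar K := by
  obtain ⟨y, l, m, -, h2, h3, -, rfl⟩ := h
  refine hK.polar_body.sum_smul_mem ha (by linarith) ?_
  calc ∑ j, |l j + m j| ≤ ∑ j, (|l j| + |m j|) := Finset.sum_le_sum fun j _ => abs_add_le _ _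
    _ ≤ 1 + 2 * η := by rw [Finset.sum_add_distrib]; linarith

/-- finite families of functionals cutting out almost the body -/
theorem Body.exists_net (hK : Body K) {ε : ℝ} (hε : 0 < ε) (A₀ : Finset (Fin n → ℝ))
    (hA₀ : ∀ b ∈ A₀, b ∈ polar K) :
    ∃ A : Finset (Fin n → ℝ), A₀ ⊆ A ∧ (∀ b ∈ A, b ∈ polar K) ∧
      ∀ z : Fin n → ℝ, (∀ b ∈ A, |b ⬝ᵥ z| < 1) → z ∈ (1 + ε) • K := by
  classical
  have hP := hK.polar_body
  obtain ⟨r, hr, hball⟩ := Metric.mem_nhds_iff.1 (mem_interior_iff_mem_nhds.1 hP.zero_mem_interior)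
  have h1 : 0 < 1 + ε := by linarith
  set θ : ℝ := ε / (1 + ε) with hθ
  have hθ0 : 0 < θ := by positivity
  obtain ⟨T, hT, hTf, hcov⟩ := finite_cover_balls_of_compact hP.compact (mul_pos hθ0 hr)
  refine ⟨A₀ ∪ hTf.toFinset, Finset.subset_union_left, fun b hb => ?_, fun z hz => ?_⟩
  · rcases Finset.mem_union.1 hb with hb | hb
    exacts [hA₀ b hb, hT (hTf.mem_toFinset.1 hb)]
  · have hc : Continuous fun p : Fin n → ℝ => p ⬝ᵥ z := by fun_prop
    obtain ⟨p₀, hp₀, hmax⟩ := hP.compact.exists_isMaxOn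
      ⟨0, interior_subset hP.zero_mem_interior⟩ hc.continuousOn
    obtain ⟨b, hb, hb2⟩ := mem_iUnion₂.1 (hcov hp₀)
    have h2 : b ⬝ᵥ z < 1 :=
      (le_abs_self _).trans_lt (hz b (Finset.mem_union_right _ (hTf.mem_toFinset.2 hb)))
    have h3 : θ⁻¹ • (p₀ - b) ∈ polar K := by
      refine hball ?_
      rw [mem_ball_zero_iff, norm_smul, Real.norm_of_nonneg (inv_pos.2 hθ0).le,
        inv_mul_lt_iff₀ hθ0]
      rwa [Metric.mem_ball, dist_eq_norm] at hb2
    have h4 : (θ⁻¹ • (p₀ - b)) ⬝ᵥ z ≤ p₀ ⬝ᵥ z := hmax h3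
    rw [smul_dotProduct, sub_dotProduct, smul_eq_mul, inv_mul_le_iff₀ hθ0] at h4
    have h5 : p₀ ⬝ᵥ z ≤ 1 + ε := by
      have h6 : (1 + ε) * θ = ε := by rw [hθ]; field_simp
      have h7 : (1 - θ) * (p₀ ⬝ᵥ z) ≤ 1 := by linarith
      have h8 := mul_le_mul_of_nonneg_left h7 h1.le
      have h9 : (1 + ε) * ((1 - θ) * (p₀ ⬝ᵥ z)) = p₀ ⬝ᵥ z := by
        rw [← mul_assoc, mul_sub, h6]; ring
      linarith
    rw [mem_smul_set_iff_inv_smul_mem₀ h1.ne', ← hK.polar_polar, mem_polar]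
    intro p hp
    have h10 : p ⬝ᵥ z ≤ p₀ ⬝ᵥ z := hmax hp
    rw [smul_dotProduct, smul_eq_mul, inv_mul_le_iff₀ h1, dotProduct_comm]
    linarith

theorem Cover_span (hK : Body K) {ε : ℝ} {ι : Type} {a : ι → Fin n → ℝ}
    (h : ∀ z : Fin n → ℝ, (∀ j, |a j ⬝ᵥ z| < 1) → z ∈ (1 + ε) • K) (y : Fin n → ℝ)
    (hy : ∀ j, a j ⬝ᵥ y = 0) : y = 0 := by
  obtain ⟨R, hR⟩ := isBounded_iff_forall_norm_le.1 (hK.compact.smul (1 + ε)).isBounded
  by_contra h0
  have h1 : 0 < ‖y‖ := norm_pos_iff.2 h0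
  have h2 := hR _ (h (((|R| + 1) / ‖y‖) • y) fun j => by
    rw [dotProduct_smul, hy j, smul_zero, abs_zero]; exact one_pos)
  rw [norm_smul, Real.norm_of_nonneg (by positivity), div_mul_cancel₀ _ h1.ne'] at h2
  linarith [le_abs_self R]

theorem Cover_volume (K : Set (Fin n → ℝ)) {e : ℝ} (he : 0 < e) :
    volume (((1 + e) • K) ×ˢ ((1 + 2 * e) • polar K) : Set (CX n))
      = ENNReal.ofReal ((1 + e) ^ n * (1 + 2 * e) ^ n) * (volume K * volume (polar K)) := by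
  rw [Measure.volume_eq_prod, Measure.prod_prod, Measure.addHaar_smul, Measure.addHaar_smul,
    Module.finrank_fin_fun, abs_of_pos (by positivity), abs_of_pos (by positivity),
    ENNReal.ofReal_mul (by positivity)]
  ring

theorem Cover_tendsto (n : ℕ) (c : ℝ≥0∞) :
    Tendsto (fun e : ℝ => ENNReal.ofReal ((1 + e) ^ n * (1 + 2 * e) ^ n) * c) (𝓝[>] 0) (𝓝 c) := by
  have hc : Continuous fun e : ℝ => ENNReal.ofReal ((1 + e) ^ n * (1 + 2 * e) ^ n) :=
    ENNReal.continuous_ofReal.comp (by fun_prop)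
  have h1 := hc.tendsto 0
  simp only [add_zero, mul_zero, one_pow, mul_one, ENNReal.ofReal_one] at h1
  have h2 := ENNReal.Tendsto.mul_const (b := c) h1 (Or.inl one_ne_zero)
  rw [one_mul] at h2
  exact h2.mono_left nhdsWithin_le_nhds

theorem Cover_measurable (hK : Body K) (e : ℝ) :
    MeasurableSet (((1 + e) • K) ×ˢ ((1 + 2 * e) • polar K) : Set (CX n)) :=
  (hK.compact.smul _).measurableSet.prod (hK.polar_body.compact.smul _).measurableSet

theorem Cover_mem (hK : Body K) {e : ℝ} (he : 0 < e) {ι : Type} [Fintype ι] {a : ι → Fin n → ℝ}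
    (ha : ∀ j, a j ∈ polar K)
    (h : ∀ z : Fin n → ℝ, (∀ j, |a j ⬝ᵥ z| < 1) → z ∈ (1 + e) • K) {x p : Fin n → ℝ}
    (hR : Reach a e x p) : (x, p) ∈ (((1 + e) • K) ×ˢ ((1 + 2 * e) • polar K) : Set (CX n)) := by
  refine ⟨?_, hR.mem_smul hK ha he⟩
  obtain ⟨y, l, m, h1, -⟩ := hR
  exact h x fun j => (h1 j).1

/-- the symmetric Mahler inequality -/
theorem Body.mahler_le (hn : 1 ≤ n) (hK : Body K) :
    mahler n ≤ volume K * volume (polar K) := by
  refine ge_of_tendsto (Cover_tendsto n _) ?_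
  filter_upwards [self_mem_nhdsWithin] with e he
  obtain ⟨A, -, hA, hA2⟩ := hK.exists_net he ∅ (by simp)
  have h : ∀ z : Fin n → ℝ, (∀ j : A, |j.1 ⬝ᵥ z| < 1) → z ∈ (1 + e) • K :=
    fun z hz => hA2 z fun b hb => hz ⟨b, hb⟩
  rw [← Cover_volume K he]
  exact mahler_le_of_reach (a := fun j : A => j.1) hn (Cover_span hK h) he
    (Cover_measurable hK e) fun x p hR => Cover_mem hK he (fun j : A => hA j.1 j.2) h hR

/-- in the equality case reached pairs are dense -/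
theorem Body.dense_reach (hn : 1 ≤ n) (hK : Body K)
    (heq : volume K * volume (polar K) = mahler n) {x p : Fin n → ℝ} (hx : x ∈ K)
    (hp : p ∈ polar K) {δ : ℝ} (hδ : 0 < δ) :
    ∃ ε : ℝ, 0 < ε ∧ ∀ (ι : Type) [Fintype ι] (a : ι → Fin n → ℝ), (∀ j, a j ∈ polar K) →
      (∀ z : Fin n → ℝ, (∀ j, |a j ⬝ᵥ z| < 1) → z ∈ (1 + ε) • K) →
      ∃ x' p' : Fin n → ℝ, dist x' x < δ ∧ dist p' p < δ ∧ Reach a δ x' p' := by
  set c := volume (K ∩ Metric.ball x δ) * volume (polar K ∩ Metric.ball p δ) with hc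
  have hc0 : c ≠ 0 := mul_ne_zero (hK.volume_inter_ball_pos hx hδ).ne'
    (hK.polar_body.volume_inter_ball_pos hp hδ).ne'
  have hlt : mahler n < mahler n + c := ENNReal.lt_add_right ENNReal.ofReal_ne_top hc0
  have h1 := (Cover_tendsto n (mahler n)).eventually (gt_mem_nhds hlt)
  obtain ⟨e, he1, he⟩ := (h1.and (Ioo_mem_nhdsGT hδ)).exists
  refine ⟨e, he.1, fun ι _ a ha h => ?_⟩
  by_contra hcon
  push Not at hcon
  have hB : MeasurableSet (Metric.ball x δ ×ˢ Metric.ball p δ : Set (CX n)) :=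
    measurableSet_ball.prod measurableSet_ball
  have h2 := mahler_le_of_reach hn (Cover_span hK h) he.1 ((Cover_measurable hK e).diff hB)
    fun x' p' hR => ⟨Cover_mem hK he.1 ha h hR, fun hb => hcon x' p' hb.1 hb.2 (hR.mono he.2.le)⟩
  have h3 : c ≤ volume ((((1 + e) • K) ×ˢ ((1 + 2 * e) • polar K) : Set (CX n))
      ∩ Metric.ball x δ ×ˢ Metric.ball p δ) := by
    rw [hc, ← Measure.prod_prod, ← Measure.volume_eq_prod]
    refine measure_mono fun z hz => ⟨⟨?_, ?_⟩, hz.1.2, hz.2.2⟩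
    · exact hK.subset_smul (by linarith [he.1]) hz.1.1
    · exact hK.polar_body.subset_smul (by linarith [he.1]) hz.2.1
  have h4 := add_le_add h2 h3
  rw [measure_sdiff_add_inter _ hB, Cover_volume K he.1, heq] at h4
  exact absurd he1 (not_lt.2 h4)

end Vale.Agent.P248
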