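import Mathlib

namespace Vale.Agent.P248

/-- The polar body of a subset of real n-space, for the Euclidean inner product. -/
def polar {n : ℕ} (K : Set (Fin n → ℝ)) : Set (Fin n → ℝ) :=
  {y | ∀ x ∈ K, ∑ i, y i * x i ≤ 1}

/-- Hanner polytopes: symmetric segments, closed under Cartesian products and under the convex
hull of the union of the two bodies placed in complementary coordinate subspaces. -/
inductive Hanner : (n : ℕ) → Set (Fin n → ℝ) → Prop
  | seg (a : ℝ) (ha : 0 < a) : Hanner 1 {x | -a ≤ x 0 ∧ x 0 ≤ a}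
  | prod {k l : ℕ} {H₁ : Set (Fin k → ℝ)} {H₂ : Set (Fin l → ℝ)} :
      Hanner k H₁ → Hanner l H₂ →
      Hanner (k + l) {x | ∃ x₁ ∈ H₁, ∃ x₂ ∈ H₂, x = Fin.append x₁ x₂}
  | hull {k l : ℕ} {H₁ : Set (Fin k → ℝ)} {H₂ : Set (Fin l → ℝ)} :
      Hanner k H₁ → Hanner l H₂ →
      Hanner (k + l) (convexHull ℝ ({x | ∃ x₁ ∈ H₁, x = Fin.append x₁ (0 : Fin l → ℝ)} ∪
        {x | ∃ x₂ ∈ H₂, x = Fin.append (0 : Fin k → ℝ) x₂}))

end Vale.Agent.P248
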