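import Vale.Agent.P248.Cover
import Vale.Agent.P248.Lam

open MeasureTheory Set Filter Topology Matrix
open scoped ENNReal ContDiff Real ComplexOrder Pointwise

namespace Vale.Agent.P248

variable {n : ℕ} {K : Set (Fin n → ℝ)}

/-- v maximizes a positive definite quadratic form on K -/
def Far (K : Set (Fin n → ℝ)) (v : Fin n → ℝ) : Prop :=
  v ∈ K ∧ ∃ M : Matrix (Fin n) (Fin n) ℝ, M.PosDef ∧ ∀ x ∈ K, x ⬝ᵥ (M *ᵥ x) ≤ v ⬝ᵥ (M *ᵥ v)

theorem eqA_symm {M : Matrix (Fin n) (Fin n) ℝ} (hM : M.PosDef) (x y : Fin n → ℝ) :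
    x ⬝ᵥ (M *ᵥ y) = y ⬝ᵥ (M *ᵥ x) := by
  have h : Mᵀ = M := by
    have := hM.isHermitian.eq
    rwa [conjTranspose_eq_transpose_of_trivial] at this
  rw [dotProduct_mulVec, ← mulVec_transpose, h, dotProduct_comm]

theorem eqA_pos {M : Matrix (Fin n) (Fin n) ℝ} (hM : M.PosDef) {x : Fin n → ℝ} (hx : x ≠ 0) :
    0 < x ⬝ᵥ (M *ᵥ x) := by
  simpa using hM.dotProduct_mulVec_pos hx

theorem eqA_nonneg {M : Matrix (Fin n) (Fin n) ℝ} (hM : M.PosDef) (x : Fin n → ℝ) :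
    0 ≤ x ⬝ᵥ (M *ᵥ x) := by
  by_cases hx : x = 0
  · simp [hx]
  · exact (eqA_pos hM hx).le

theorem eqA_expand {M : Matrix (Fin n) (Fin n) ℝ} (hM : M.PosDef) (x y : Fin n → ℝ) (s t : ℝ) :
    (s • x + t • y) ⬝ᵥ (M *ᵥ (s • x + t • y))
      = s ^ 2 * (x ⬝ᵥ (M *ᵥ x)) + 2 * s * t * (x ⬝ᵥ (M *ᵥ y)) + t ^ 2 * (y ⬝ᵥ (M *ᵥ y)) := by
  simp only [mulVec_add, mulVec_smul, add_dotProduct, dotProduct_add, smul_dotProduct,
    dotProduct_smul, smul_eq_mul]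
  rw [eqA_symm hM y x]
  ring

theorem eqA_cs {M : Matrix (Fin n) (Fin n) ℝ} (hM : M.PosDef) (x y : Fin n → ℝ) :
    (x ⬝ᵥ (M *ᵥ y)) ^ 2 ≤ (x ⬝ᵥ (M *ᵥ x)) * (y ⬝ᵥ (M *ᵥ y)) := by
  have h := discrim_le_zero (a := x ⬝ᵥ (M *ᵥ x)) (b := 2 * (x ⬝ᵥ (M *ᵥ y))) (c := y ⬝ᵥ (M *ᵥ y))
    (fun s => by
      have h1 := eqA_nonneg hM (s • x + (1 : ℝ) • y)
      rw [eqA_expand hM] at h1
      nlinarith)
  rw [discrim] at h
  nlinarith

theorem eqA_norm_le {M : Matrix (Fin n) (Fin n) ℝ} (hM : M.PosDef) :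
    ∃ C : ℝ, 0 < C ∧ ∀ (y : Fin n → ℝ) (t : ℝ), 0 ≤ t → (∀ i, |(M *ᵥ y) i| ≤ t) → ‖y‖ ≤ C * t := by
  refine exists_norm_le (a := fun i => M i) fun y hy => ?_
  by_contra h
  have h1 := eqA_pos hM h
  have h2 : M *ᵥ y = 0 := funext hy
  rw [h2] at h1
  simp at h1

theorem eqA_single (M : Matrix (Fin n) (Fin n) ℝ) (y : Fin n → ℝ) (i : Fin n) :
    Pi.single i (1 : ℝ) ⬝ᵥ (M *ᵥ y) = (M *ᵥ y) i := by
  rw [single_dotProduct, one_mul]

theorem eqA_coercive {M : Matrix (Fin n) (Fin n) ℝ} (hM : M.PosDef) :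
    ∃ C : ℝ, 0 < C ∧ ∀ w : Fin n → ℝ, ‖w‖ ^ 2 ≤ C * (w ⬝ᵥ (M *ᵥ w)) := by
  obtain ⟨C, hC, h⟩ := eqA_norm_le hM
  set Q : ℝ := 1 + ∑ i : Fin n, Pi.single i (1 : ℝ) ⬝ᵥ (M *ᵥ Pi.single i (1 : ℝ)) with hQ
  have hQi : ∀ i : Fin n, Pi.single i (1 : ℝ) ⬝ᵥ (M *ᵥ Pi.single i (1 : ℝ)) ≤ Q := fun i => by
    have := Finset.single_le_sum
      (f := fun i : Fin n => Pi.single i (1 : ℝ) ⬝ᵥ (M *ᵥ Pi.single i (1 : ℝ)))
      (s := Finset.univ) (fun i _ => eqA_nonneg hM _) (Finset.mem_univ i)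
    linarith
  have hQ0 : 0 < Q := by
    have := Finset.sum_nonneg
      (f := fun i : Fin n => Pi.single i (1 : ℝ) ⬝ᵥ (M *ᵥ Pi.single i (1 : ℝ)))
      (s := Finset.univ) (fun i _ => eqA_nonneg hM _)
    linarith
  refine ⟨C ^ 2 * Q, by positivity, fun w => ?_⟩
  have hq := eqA_nonneg hM w
  have h1 := h w (Real.sqrt (Q * (w ⬝ᵥ (M *ᵥ w)))) (Real.sqrt_nonneg _) fun i => by
    refine Real.abs_le_sqrt ?_
    rw [← eqA_single]
    exact (eqA_cs hM _ _).trans (mul_le_mul_of_nonneg_right (hQi i) hq)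
  have h2 := pow_le_pow_left₀ (norm_nonneg _) h1 2
  rw [mul_pow, Real.sq_sqrt (by positivity)] at h2
  linarith

theorem eqA_abs_dot_le (a y : Fin n → ℝ) : |a ⬝ᵥ y| ≤ n * (‖a‖ * ‖y‖) := by
  have h : ∀ i, |a i * y i| ≤ ‖a‖ * ‖y‖ := fun i => by
    rw [abs_mul]
    exact mul_le_mul (norm_le_pi_norm a i) (norm_le_pi_norm y i) (abs_nonneg _) (norm_nonneg _)
  refine (Finset.abs_sum_le_sum_abs _ _).trans ?_
  have := Finset.sum_le_card_nsmul Finset.univ (fun i => |a i * y i|) _ fun i _ => h i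
  simpa using this

theorem eqA_cont_dot (a : Fin n → ℝ) : Continuous fun x : Fin n → ℝ => a ⬝ᵥ x :=
  continuous_const.dotProduct continuous_id

theorem Far.neg (hK : Body K) {v : Fin n → ℝ} (h : Far K v) : Far K (-v) := by
  obtain ⟨hv, M, hM, h⟩ := h
  refine ⟨hK.neg v hv, M, hM, fun x hx => ?_⟩
  rw [mulVec_neg, neg_dotProduct_neg]
  exact h x hx

theorem eqA_normalize (hn : 1 ≤ n) (hK : Body K) {v : Fin n → ℝ} (hv : Far K v) :
    ∃ M : Matrix (Fin n) (Fin n) ℝ, M.PosDef ∧ v ⬝ᵥ (M *ᵥ v) = 1 ∧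
      ∀ x ∈ K, x ⬝ᵥ (M *ᵥ x) ≤ 1 := by
  obtain ⟨-, M, hM, h⟩ := hv
  have hq : 0 < v ⬝ᵥ (M *ᵥ v) := by
    by_contra hq
    have h0 : ∀ x ∈ K, x = 0 := fun x hx => by
      by_contra hx0
      have := eqA_pos hM hx0
      have := h x hx
      linarith
    have h1 := hK.eq_zero_of_forall (y := fun _ => 1) fun x hx => by
      rw [h0 x hx, dotProduct_zero]
    have h2 := congrFun h1 ⟨0, hn⟩
    simp at h2
  refine ⟨(v ⬝ᵥ (M *ᵥ v))⁻¹ • M, hM.smul (inv_pos.2 hq), ?_, fun x hx => ?_⟩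
  · rw [smul_mulVec, dotProduct_smul, smul_eq_mul, inv_mul_cancel₀ hq.ne']
  · rw [smul_mulVec, dotProduct_smul, smul_eq_mul, inv_mul_le_iff₀ hq, mul_one]
    exact h x hx

/-- farthest points almost realize the support function -/
theorem Body.exists_far (hK : Body K) (y : Fin n → ℝ) {x : Fin n → ℝ} (hx : x ∈ K) {ε : ℝ}
    (hε : 0 < ε) : ∃ v, Far K v ∧ y ⬝ᵥ x - ε ≤ y ⬝ᵥ v := by
  have hc : Continuous fun z : Fin n → ℝ => z ⬝ᵥ z := continuous_id.dotProduct continuous_id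
  obtain ⟨z₀, -, hz₀⟩ := hK.compact.exists_isMaxOn ⟨x, hx⟩ hc.continuousOn
  have hnn : ∀ z : Fin n → ℝ, 0 ≤ z ⬝ᵥ z := fun z =>
    Finset.sum_nonneg fun i _ => mul_self_nonneg _
  set R := z₀ ⬝ᵥ z₀ with hR
  have hR0 : 0 ≤ R := hnn _
  set e : ℝ := ε ^ 2 / (R + 1) with he
  have he0 : 0 < e := by positivity
  have heR : e * R ≤ ε ^ 2 := by
    rw [he, div_mul_eq_mul_div, div_le_iff₀ (by positivity)]
    nlinarith [sq_nonneg ε]
  set M : Matrix (Fin n) (Fin n) ℝ := vecMulVec y y + e • 1 with hM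
  have hq : ∀ z : Fin n → ℝ, z ⬝ᵥ (M *ᵥ z) = (y ⬝ᵥ z) ^ 2 + e * (z ⬝ᵥ z) := fun z => by
    rw [hM, add_mulVec, dotProduct_add, smul_mulVec, one_mulVec, dotProduct_smul, smul_eq_mul,
      vecMulVec_mulVec, op_smul_eq_smul, dotProduct_smul, smul_eq_mul, dotProduct_comm z y, sq]
  have hMp : M.PosDef := by
    have h1 : (vecMulVec y y).PosSemidef := by
      simpa using posSemidef_vecMulVec_self_star y
    exact PosDef.posSemidef_add h1 (PosDef.one.smul he0)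
  have hc2 : Continuous fun z : Fin n → ℝ => z ⬝ᵥ (M *ᵥ z) :=
    continuous_id.dotProduct (continuous_const.matrix_mulVec continuous_id)
  obtain ⟨v, hv, hmax⟩ := hK.compact.exists_isMaxOn ⟨x, hx⟩ hc2.continuousOn
  have hfar : Far K v := ⟨hv, M, hMp, fun z hz => hmax hz⟩
  have h1 : x ⬝ᵥ (M *ᵥ x) ≤ v ⬝ᵥ (M *ᵥ v) := hmax hx
  rw [hq, hq] at h1
  have h2 : v ⬝ᵥ v ≤ R := hz₀ hv
  have h3 : (y ⬝ᵥ x) ^ 2 ≤ (y ⬝ᵥ v) ^ 2 + ε ^ 2 := by
    nlinarith [mul_nonneg he0.le (hnn x), mul_le_mul_of_nonneg_left h2 he0.le]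
  have h4 : |y ⬝ᵥ x| ≤ |y ⬝ᵥ v| + ε := by
    refine abs_le_of_sq_le_sq ?_ (by positivity)
    have := sq_abs (y ⬝ᵥ v)
    nlinarith [abs_nonneg (y ⬝ᵥ v)]
  have h5 := le_abs_self (y ⬝ᵥ x)
  rcases le_total 0 (y ⬝ᵥ v) with h | h
  · refine ⟨v, hfar, ?_⟩
    rw [abs_of_nonneg h] at h4
    linarith
  · refine ⟨-v, hfar.neg hK, ?_⟩
    rw [abs_of_nonpos h] at h4
    rw [dotProduct_neg]
    linarith

/-- over points near a farthest point, the imaginary part is small -/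
theorem Far.small (hn : 1 ≤ n) (hK : Body K) {v : Fin n → ℝ} (hv : Far K v) {ρ : ℝ}
    (hρ : 0 < ρ) :
    ∃ (A₀ : Finset (Fin n → ℝ)) (δ : ℝ), 0 < δ ∧ (∀ b ∈ A₀, b ∈ polar K) ∧
      ∀ x y : Fin n → ℝ, dist x v < δ →
        (∀ b ∈ A₀, |b ⬝ᵥ x| < 1 ∧ |b ⬝ᵥ y| < Lam (b ⬝ᵥ x)) → ‖y‖ ≤ ρ := by
  classical
  obtain ⟨M, hM, hv1, hK1⟩ := eqA_normalize hn hK hv
  obtain ⟨C, hC, hCn⟩ := eqA_norm_le hM
  have hpol : ∀ w : Fin n → ℝ, w ⬝ᵥ (M *ᵥ w) ≤ 1 → M *ᵥ w ∈ polar K := by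
    intro w hw
    rw [mem_polar]
    intro x hx
    have h1 := eqA_nonneg hM ((1 : ℝ) • x + (-1 : ℝ) • w)
    rw [eqA_expand hM] at h1
    have h2 := hK1 x hx
    rw [dotProduct_comm]
    linarith
  set u : Fin n → Fin n → ℝ := fun i => (1 : ℝ) • Pi.single i (1 : ℝ) + (-(M *ᵥ v) i) • v with hu
  have huv : ∀ i, u i ⬝ᵥ (M *ᵥ v) = 0 := fun i => by
    simp only [hu, add_dotProduct, smul_dotProduct, smul_eq_mul, eqA_single, hv1]
    ring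
  have huy : ∀ i y, u i ⬝ᵥ (M *ᵥ y) = (M *ᵥ y) i - (M *ᵥ v) i * (v ⬝ᵥ (M *ᵥ y)) := fun i y => by
    simp only [hu, add_dotProduct, smul_dotProduct, smul_eq_mul, eqA_single]
    ring
  set Q : ℝ := 1 + ∑ i, u i ⬝ᵥ (M *ᵥ u i) with hQ
  have hQi : ∀ i, u i ⬝ᵥ (M *ᵥ u i) ≤ Q := fun i => by
    have := Finset.single_le_sum (f := fun i : Fin n => u i ⬝ᵥ (M *ᵥ u i))
      (s := Finset.univ) (fun i _ => eqA_nonneg hM _) (Finset.mem_univ i)
    linarith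
  have hQ1 : 1 ≤ Q := by
    have := Finset.sum_nonneg (f := fun i : Fin n => u i ⬝ᵥ (M *ᵥ u i))
      (s := Finset.univ) (fun i _ => eqA_nonneg hM _)
    linarith
  set D : ℝ := 4 * Q + ‖M *ᵥ v‖ with hD
  have hD0 : 0 < D := by positivity
  have hev : ∀ᶠ s in 𝓝[>] (0 : ℝ), Lam (1 - s) / Real.sqrt s < ρ / (C * D) :=
    Lam_sqrt.eventually (gt_mem_nhds (by positivity))
  obtain ⟨s, hs, hs0, hs1⟩ : ∃ s : ℝ, Lam (1 - s) / Real.sqrt s < ρ / (C * D) ∧ 0 < s ∧ s < 1 := by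
    obtain ⟨s, h1, h2⟩ := (hev.and (Ioo_mem_nhdsGT (zero_lt_one' ℝ))).exists
    exact ⟨s, h1, h2.1, h2.2⟩
  have hr0 : 0 < Real.sqrt s := Real.sqrt_pos.2 hs0
  have hr1 : Real.sqrt s ≤ 1 := Real.sqrt_le_one.2 hs1.le
  have hr2 : Real.sqrt s ^ 2 = s := Real.sq_sqrt hs0.le
  set r := Real.sqrt s with hr
  set w : Fin n → Fin n → ℝ := fun i => (1 - s / 2) • v + (r / (2 * Q)) • u i with hw
  have hwq : ∀ i, w i ⬝ᵥ (M *ᵥ w i) ≤ 1 := fun i => by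
    simp only [hw]
    rw [eqA_expand hM, hv1, eqA_symm hM v (u i), huv]
    have h1 : (r / (2 * Q)) ^ 2 * (u i ⬝ᵥ (M *ᵥ u i)) ≤ (r / (2 * Q)) ^ 2 * Q ^ 2 :=
      mul_le_mul_of_nonneg_left ((hQi i).trans (by nlinarith)) (sq_nonneg _)
    have h2 : (r / (2 * Q)) ^ 2 * Q ^ 2 = s / 4 := by
      rw [← hr2]
      field_simp
      norm_num
    nlinarith
  have hwy : ∀ i y, (M *ᵥ w i) ⬝ᵥ y
      = (1 - s / 2) * (v ⬝ᵥ (M *ᵥ y)) + r / (2 * Q) * (u i ⬝ᵥ (M *ᵥ y)) := fun i y => by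
    rw [dotProduct_comm, eqA_symm hM y (w i)]
    simp only [hw, add_dotProduct, smul_dotProduct, smul_eq_mul]
  have hvy : ∀ y, (M *ᵥ v) ⬝ᵥ y = v ⬝ᵥ (M *ᵥ y) := fun y => by
    rw [dotProduct_comm, eqA_symm hM y v]
  set A₀ : Finset (Fin n → ℝ) := insert (M *ᵥ v) (Finset.univ.image fun i => M *ᵥ w i) with hA₀
  have hAv : ∀ b ∈ A₀, 1 - s < b ⬝ᵥ v := by
    intro b hb
    rcases Finset.mem_insert.1 hb with rfl | hb
    · rw [hvy, hv1]
      linarith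
    · obtain ⟨i, -, rfl⟩ := Finset.mem_image.1 hb
      rw [hwy, hv1, huv]
      linarith
  have hnear : ∀ᶠ x in 𝓝 v, ∀ b ∈ A₀, 1 - s < b ⬝ᵥ x :=
    (eventually_all_finset A₀).2 fun b hb =>
      (eqA_cont_dot b).continuousAt.eventually (lt_mem_nhds (hAv b hb))
  obtain ⟨δ, hδ, hδ'⟩ := Metric.eventually_nhds_iff.1 hnear
  refine ⟨A₀, δ, hδ, ?_, fun x y hx hxy => ?_⟩
  · intro b hb
    rcases Finset.mem_insert.1 hb with rfl | hb
    · exact hpol v hv1.le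
    · obtain ⟨i, -, rfl⟩ := Finset.mem_image.1 hb
      exact hpol _ (hwq i)
  · have hb : ∀ b ∈ A₀, |b ⬝ᵥ y| ≤ Lam (1 - s) := by
      intro b hb
      refine (hxy b hb).2.le.trans (Lam_anti ?_ (hxy b hb).1.le)
      rw [abs_of_pos (by linarith : 0 < 1 - s)]
      exact (hδ' hx b hb).le.trans (le_abs_self _)
    set Λ := Lam (1 - s) with hΛ
    have h0 := hb _ (Finset.mem_insert_self _ _)
    rw [hvy] at h0
    have hΛ0 : 0 ≤ Λ := (abs_nonneg _).trans h0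
    have hΛr : Λ ≤ Λ / r := by
      rw [le_div_iff₀ hr0]
      nlinarith
    have hi : ∀ i, |(M *ᵥ y) i| ≤ D * (Λ / r) := by
      intro i
      have h1 := hb _ (Finset.mem_insert_of_mem
        (Finset.mem_image_of_mem (fun i => M *ᵥ w i) (Finset.mem_univ i)))
      rw [hwy] at h1
      have h2 : |r / (2 * Q) * (u i ⬝ᵥ (M *ᵥ y))| ≤ 2 * Λ := by
        have h3 : |(1 - s / 2) * (v ⬝ᵥ (M *ᵥ y))| ≤ Λ := by
          rw [abs_mul, abs_of_pos (by linarith : 0 < 1 - s / 2)]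
          nlinarith [abs_nonneg (v ⬝ᵥ (M *ᵥ y))]
        rw [abs_le] at h1 h3 ⊢
        constructor <;> linarith [h1.1, h1.2, h3.1, h3.2]
      have h4 : |u i ⬝ᵥ (M *ᵥ y)| ≤ 4 * Q * (Λ / r) := by
        rw [abs_mul, abs_of_pos (by positivity : 0 < r / (2 * Q)), div_mul_eq_mul_div,
          div_le_iff₀ (by positivity)] at h2
        rw [← mul_div_assoc, le_div_iff₀ hr0]
        linarith
      have h5 : |(M *ᵥ v) i * (v ⬝ᵥ (M *ᵥ y))| ≤ ‖M *ᵥ v‖ * (Λ / r) := by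
        rw [abs_mul]
        exact mul_le_mul (norm_le_pi_norm (M *ᵥ v) i) (h0.trans hΛr) (abs_nonneg _)
          (norm_nonneg _)
      have h6 : (M *ᵥ y) i = u i ⬝ᵥ (M *ᵥ y) + (M *ᵥ v) i * (v ⬝ᵥ (M *ᵥ y)) := by
        rw [huy]
        ring
      rw [h6, hD, add_mul]
      exact (abs_add_le _ _).trans (add_le_add h4 h5)
    refine (hCn y _ (by positivity) hi).trans ?_
    rw [lt_div_iff₀ (by positivity)] at hs
    nlinarith

/-- farthest points are strongly exposed -/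
theorem Far.exposed (hn : 1 ≤ n) (hK : Body K) {v : Fin n → ℝ} (hv : Far K v) :
    ∃ f : Fin n → ℝ, f ⬝ᵥ v = 1 ∧ ∀ κ : ℝ, 0 < κ → ∃ σ : ℝ, 0 < σ ∧
      ∀ x ∈ K, 1 - σ ≤ f ⬝ᵥ x → dist x v < κ := by
  obtain ⟨M, hM, hv1, hK1⟩ := eqA_normalize hn hK hv
  obtain ⟨C, hC, hCn⟩ := eqA_coercive hM
  refine ⟨M *ᵥ v, by rw [dotProduct_comm, hv1], fun κ hκ => ⟨κ ^ 2 / (4 * C), by positivity,
    fun x hx hfx => ?_⟩⟩
  have h1 := hCn ((1 : ℝ) • x + (-1 : ℝ) • v)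
  rw [eqA_expand hM, hv1] at h1
  rw [dotProduct_comm] at hfx
  have h2 := hK1 x hx
  have h3 : (1 : ℝ) • x + (-1 : ℝ) • v = x - v := by
    rw [one_smul, neg_one_smul, sub_eq_add_neg]
  rw [h3] at h1
  rw [dist_eq_norm]
  have h4 : ‖x - v‖ ^ 2 ≤ C * (2 * (κ ^ 2 / (4 * C))) :=
    h1.trans (mul_le_mul_of_nonneg_left (by linarith) hC.le)
  have h5 : C * (2 * (κ ^ 2 / (4 * C))) = κ ^ 2 / 2 := by
    field_simp
    norm_num
  refine lt_of_pow_lt_pow_left₀ 2 hκ.le ?_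
  have : 0 < κ ^ 2 := by positivity
  linarith

theorem far_pairing (hn : 1 ≤ n) (hK : Body K) (heq : volume K * volume (polar K) = mahler n)
    {v p : Fin n → ℝ} (hv : Far K v) (hp : Far (polar K) p) : p ⬝ᵥ v = 1 ∨ p ⬝ᵥ v = -1 := by
  by_contra hcon
  push Not at hcon
  have hpv : |p ⬝ᵥ v| < 1 := by
    refine lt_of_le_of_ne (hK.abs_le hp.1 hv.1) fun h => ?_
    rcases abs_eq (zero_le_one' ℝ) |>.1 h with h | h
    · exact hcon.1 h
    · exact hcon.2 h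
  have hP := hK.polar_body
  set κ : ℝ := (1 - |p ⬝ᵥ v|) / 2 with hκ
  have hκ0 : 0 < κ := by linarith
  have hκ1 : κ ≤ 1 / 2 := by linarith [abs_nonneg (p ⬝ᵥ v)]
  obtain ⟨f, hf1, hf⟩ := hp.exposed hn hP
  have hnear : ∀ᶠ a in 𝓝 p, |v ⬝ᵥ a| < 1 - κ :=
    (eqA_cont_dot v).abs.continuousAt.eventually (gt_mem_nhds (by
      show |v ⬝ᵥ p| < 1 - κ
      rw [dotProduct_comm]
      linarith))
  obtain ⟨κ', hκ', hκ''⟩ := Metric.eventually_nhds_iff.1 hnear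
  obtain ⟨σ₀, hσ₀, hσ₀'⟩ := hf κ' hκ'
  set σ := min σ₀ 1 with hσ
  have hσ0 : 0 < σ := lt_min hσ₀ one_pos
  have hσ1 : σ ≤ 1 := min_le_right _ _
  have hfa : ∀ a ∈ polar K, 1 - κ ≤ |a ⬝ᵥ v| → |f ⬝ᵥ a| ≤ 1 - σ := by
    intro a ha hav
    have h1 : ∀ b ∈ polar K, 1 - κ ≤ |b ⬝ᵥ v| → f ⬝ᵥ b ≤ 1 - σ := by
      intro b hb hbv
      by_contra h
      have h2 := hκ'' (hσ₀' b hb (by linarith [min_le_left σ₀ 1]))
      rw [dotProduct_comm] at h2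
      linarith
    have h2 := h1 a ha hav
    have h3 := h1 (-a) (hP.neg a ha) (by rwa [neg_dotProduct, abs_neg])
    rw [dotProduct_neg] at h3
    rw [abs_le]
    constructor <;> linarith
  obtain ⟨R, hR0, hR⟩ := hP.compact.isBounded.exists_pos_norm_le
  have hn0 : (0 : ℝ) < n := by exact_mod_cast hn
  have hdot : ∀ a ∈ polar K, ∀ y : Fin n → ℝ, |a ⬝ᵥ y| ≤ n * R * ‖y‖ := fun a ha y => by
    refine (eqA_abs_dot_le a y).trans ?_
    rw [mul_assoc]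
    exact mul_le_mul_of_nonneg_left (mul_le_mul_of_nonneg_right (hR a ha) (norm_nonneg _)) hn0.le
  set μ := Lam (1 - κ / 2) with hμ
  have hκa : |1 - κ / 2| = 1 - κ / 2 := abs_of_pos (by linarith)
  have hμ0 : 0 < μ := Lam_pos (by rw [hκa]; linarith)
  obtain ⟨A₀, δ₀, hδ₀, hA₀, hsm⟩ := hv.small hn hK (ρ := μ / (2 * (n * R))) (by positivity)
  set E : ℝ := 1 + n * R * ‖f‖ + n * ‖f‖ with hE
  have hE0 : 0 < E := by positivity
  set δ : ℝ := min (min δ₀ (μ / 2)) (min (κ / (2 * (n * R))) (σ / (2 * E))) with hδ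
  have hδ0 : 0 < δ := lt_min (lt_min hδ₀ (by positivity)) (lt_min (by positivity) (by positivity))
  have hδ1 : δ ≤ δ₀ := (min_le_left _ _).trans (min_le_left _ _)
  have hδ2 : δ ≤ μ / 2 := (min_le_left _ _).trans (min_le_right _ _)
  have hδ3 : δ ≤ κ / (2 * (n * R)) := (min_le_right _ _).trans (min_le_left _ _)
  have hδ4 : δ ≤ σ / (2 * E) := (min_le_right _ _).trans (min_le_right _ _)
  obtain ⟨ε, hε, hreach⟩ := hK.dense_reach hn heq hv.1 hp.1 hδ0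
  obtain ⟨A, hAA, hAp, hAn⟩ := hK.exists_net hε A₀ hA₀
  obtain ⟨x', p', hx', hp', y, l, m, h1, h2, h3, h4, h5⟩ := hreach A (fun b => b.1)
    (fun b => hAp b.1 b.2) (fun z hz => hAn z fun b hb => hz ⟨b, hb⟩)
  have hy : ‖y‖ ≤ μ / (2 * (n * R)) :=
    hsm x' y (hx'.trans_le hδ1) fun b hb => h1 ⟨b, hAA hb⟩
  have hact : ∀ j : A, l j ≠ 0 → |f ⬝ᵥ j.1| ≤ 1 - σ := by
    intro j hj
    refine hfa j.1 (hAp j.1 j.2) ?_
    have h6 := (h4 j).2 hj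
    have h7 : |j.1 ⬝ᵥ y| ≤ μ / 2 := by
      refine (hdot j.1 (hAp j.1 j.2) y).trans ?_
      rw [le_div_iff₀ (by positivity)] at hy
      linarith
    have h8 : 1 - κ / 2 < |j.1 ⬝ᵥ x'| := by
      by_contra h9
      have h10 := Lam_anti (s := j.1 ⬝ᵥ x') (t := 1 - κ / 2) (by rw [hκa]; linarith)
        (by rw [hκa]; linarith)
      linarith
    have h9 : |j.1 ⬝ᵥ (x' - v)| ≤ κ / 2 := by
      refine (hdot j.1 (hAp j.1 j.2) _).trans ?_
      rw [← dist_eq_norm]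
      rw [le_div_iff₀ (by positivity)] at hδ3
      have := mul_le_mul_of_nonneg_left hx'.le (by positivity : 0 ≤ (n : ℝ) * R)
      linarith
    rw [dotProduct_sub] at h9
    have h10 := abs_sub_abs_le_abs_sub (j.1 ⬝ᵥ x') (j.1 ⬝ᵥ v)
    linarith
  have hup : f ⬝ᵥ p' ≤ (1 + δ) * (1 - σ) + δ * (n * R * ‖f‖) := by
    rw [h5, dotProduct_sum]
    have h6 : ∀ j : A, f ⬝ᵥ ((l j + m j) • j.1) ≤ |l j| * (1 - σ) + |m j| * (n * R * ‖f‖) := by
      intro j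
      rw [dotProduct_smul, smul_eq_mul, add_mul]
      refine add_le_add ?_ ?_
      · by_cases hj : l j = 0
        · simp [hj]
        · refine (le_abs_self _).trans ?_
          rw [abs_mul]
          exact mul_le_mul_of_nonneg_left (hact j hj) (abs_nonneg _)
      · refine (le_abs_self _).trans ?_
        rw [abs_mul, dotProduct_comm]
        exact mul_le_mul_of_nonneg_left (hdot j.1 (hAp j.1 j.2) f) (abs_nonneg _)
    refine (Finset.sum_le_sum fun j _ => h6 j).trans ?_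
    rw [Finset.sum_add_distrib, ← Finset.sum_mul, ← Finset.sum_mul]
    exact add_le_add (mul_le_mul_of_nonneg_right h2 (by linarith))
      (mul_le_mul_of_nonneg_right h3 (by positivity))
  have hlow : 1 - δ * (n * ‖f‖) ≤ f ⬝ᵥ p' := by
    have h6 := eqA_abs_dot_le f (p' - p)
    rw [dotProduct_sub, hf1, ← dist_eq_norm] at h6
    have h7 := mul_le_mul_of_nonneg_left hp'.le (by positivity : 0 ≤ (n : ℝ) * ‖f‖)
    have h8 := neg_abs_le (f ⬝ᵥ p' - 1)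
    nlinarith
  rw [le_div_iff₀ (by positivity)] at hδ4
  have h9 : 0 ≤ δ * σ := by positivity
  have h10 : δ * E = δ + δ * (n * R * ‖f‖) + δ * (n * ‖f‖) := by
    rw [hE]
    ring
  nlinarith

theorem eqA_span (hK : Body K) {y : Fin n → ℝ} (hy : ∀ v, Far K v → y ⬝ᵥ v = 0) : y = 0 := by
  have h1 : ∀ x ∈ K, y ⬝ᵥ x ≤ 0 := fun x hx => by
    refine le_of_forall_pos_le_add fun ε hε => ?_
    obtain ⟨v, hv, h⟩ := hK.exists_far y hx hε
    rw [hy v hv] at h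
    linarith
  refine hK.eq_zero_of_forall fun x hx => le_antisymm (h1 x hx) ?_
  have := h1 (-x) (hK.neg x hx)
  rw [dotProduct_neg] at this
  linarith

theorem eqA_finite {A V : Set (Fin n → ℝ)} (hA : ∀ y : Fin n → ℝ, (∀ a ∈ A, y ⬝ᵥ a = 0) → y = 0)
    (hpm : ∀ a ∈ A, ∀ v ∈ V, a ⬝ᵥ v = 1 ∨ a ⬝ᵥ v = -1) : V.Finite := by
  obtain ⟨b, hbA, hspan, hli⟩ := exists_linearIndependent ℝ A
  have hb : b.Finite := hli.setFinite
  have := hb.to_subtype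
  have hz : ∀ y : Fin n → ℝ, (∀ a ∈ b, y ⬝ᵥ a = 0) → y = 0 := by
    intro y hy
    refine hA y fun a ha => ?_
    have h1 : a ∈ Submodule.span ℝ b := hspan ▸ Submodule.subset_span ha
    refine Submodule.span_induction (p := fun a _ => y ⬝ᵥ a = 0) hy (dotProduct_zero y)
      (fun a a' _ _ h h' => by rw [dotProduct_add, h, h', add_zero])
      (fun c a _ h => by rw [dotProduct_smul, h, smul_zero]) h1
  have hfin : (Set.pi Set.univ fun _ : b => ({1, -1} : Set ℝ)).Finite :=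
    Set.Finite.pi fun _ => Set.toFinite _
  refine Set.Finite.of_finite_image (f := fun v (a : b) => a.1 ⬝ᵥ v) (hfin.subset ?_) ?_
  · rintro _ ⟨v, hv, rfl⟩ a _
    exact hpm a.1 (hbA a.2) v hv
  · intro v _ v' _ h
    rw [← sub_eq_zero]
    refine hz _ fun a ha => ?_
    have := congrFun h ⟨a, ha⟩
    rw [dotProduct_comm, dotProduct_sub, sub_eq_zero]
    exact this

theorem eqA_hull (hK : Body K) (hfin : {v | Far K v}.Finite) :
    convexHull ℝ {v | Far K v} = K := by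
  refine hK.convexHull_eq hfin (fun v hv => hv.1) fun y x hx => ?_
  obtain ⟨v₀, hv₀, -⟩ := hK.exists_far y hx one_pos
  obtain ⟨v, hv, hmax⟩ := Set.exists_max_image _ (fun v => y ⬝ᵥ v) hfin ⟨v₀, hv₀⟩
  refine ⟨v, hv, le_of_forall_pos_le_add fun ε hε => ?_⟩
  obtain ⟨w, hw, h⟩ := hK.exists_far y hx hε
  have := hmax w hw
  linarith

theorem Body.exists_CL (hn : 1 ≤ n) (hK : Body K)
    (heq : volume K * volume (polar K) = mahler n) :
    ∃ A V : Set (Fin n → ℝ), CL A V ∧ convexHull ℝ V = K := by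
  have hP := hK.polar_body
  have hpm : ∀ a ∈ {p | Far (polar K) p}, ∀ v ∈ {v | Far K v}, a ⬝ᵥ v = 1 ∨ a ⬝ᵥ v = -1 :=
    fun a ha v hv => far_pairing hn hK heq hv ha
  have hV : {v | Far K v}.Finite := eqA_finite (fun y hy => eqA_span hP hy) hpm
  have hA : {p | Far (polar K) p}.Finite := eqA_finite (A := {v | Far K v})
    (fun y hy => eqA_span hK hy) fun v hv a ha => by
      rw [dotProduct_comm]
      exact hpm a ha v hv
  have h1 := eqA_hull hK hV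
  have h2 := eqA_hull hP hA
  refine ⟨{p | Far (polar K) p}, {v | Far K v},
    ⟨hA, hV, fun a ha => Far.neg hP ha, fun v hv => Far.neg hK hv, hpm, ?_, ?_⟩, h1⟩
  · rw [h2, ← polar_convexHull {v | Far K v}, h1]
  · rw [h1, ← polar_convexHull {p | Far (polar K) p}, h2, hK.polar_polar]

end Vale.Agent.P248
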