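import Vale.Agent.P248.Cover
import Vale.Agent.P248.Lam

open MeasureTheory Set Filter Topology Matrix
open scoped ENNReal ContDiff Real ComplexOrder Pointwise

namespace Vale.Agent.P248

variable {n : ℕ} {A V : Set (Fin n → ℝ)}

/-- the limit of the covering relation -/
def R0 (A : Finset (Fin n → ℝ)) (x p : Fin n → ℝ) : Prop :=
  ∃ (y : Fin n → ℝ) (l : (Fin n → ℝ) → ℝ), (∀ a ∈ A, 0 ≤ l a) ∧ ∑ a ∈ A, l a ≤ 1 ∧
    p = ∑ a ∈ A, l a • a ∧ (∀ a ∈ A, |a ⬝ᵥ y| ≤ Lam (a ⬝ᵥ x)) ∧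
    ∀ a ∈ A, l a ≠ 0 → Lam (a ⬝ᵥ x) ≤ a ⬝ᵥ y

theorem eqB_signed {F : Finset (Fin n → ℝ)} (hF : ∀ a ∈ F, -a ∈ F) {x p y : Fin n → ℝ}
    {l : (Fin n → ℝ) → ℝ} (h1 : ∑ a ∈ F, |l a| ≤ 1) (h2 : p = ∑ a ∈ F, l a • a)
    (h3 : ∀ a ∈ F, |a ⬝ᵥ y| ≤ Lam (a ⬝ᵥ x)) (h4 : ∀ a ∈ F, 0 ≤ l a * (a ⬝ᵥ y))
    (h5 : ∀ a ∈ F, l a ≠ 0 → Lam (a ⬝ᵥ x) ≤ |a ⬝ᵥ y|) : R0 F x p := by
  have key : ∀ {M : Type} [AddCommMonoid M] (g : (Fin n → ℝ) → M),
      ∑ a ∈ F, g (-a) = ∑ a ∈ F, g a := fun g =>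
    Finset.sum_equiv (Equiv.neg _) (fun a => ⟨hF a, fun h => by simpa using hF _ h⟩) fun _ _ => rfl
  refine ⟨y, fun a => max (l a) 0 + max (-l (-a)) 0, fun a _ => by positivity, ?_, ?_, h3,
    fun a ha h => ?_⟩
  · rw [Finset.sum_add_distrib, key fun a => max (-l a) 0, ← Finset.sum_add_distrib]
    simpa only [max_zero_add_max_neg_zero_eq_abs_self] using h1
  · have := key fun a => max (-l a) 0 • (-a)
    simp only [neg_neg] at this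
    simp only [add_smul, Finset.sum_add_distrib, this]
    rw [h2, ← Finset.sum_add_distrib]
    refine Finset.sum_congr rfl fun a _ => ?_
    rw [smul_neg, ← sub_eq_add_neg, ← sub_smul, max_zero_sub_max_neg_zero_eq_self]
  · by_cases h6 : 0 < l a
    · have := h5 a ha h6.ne'
      rwa [abs_of_nonneg (nonneg_of_mul_nonneg_right (h4 a ha) h6)] at this
    · have h7 : l (-a) < 0 := by
        by_contra h7
        exact h (by simp [not_lt.1 h6, not_lt.1 h7])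
      have a1 := h5 _ (hF a ha) h7.ne
      have a2 := h4 _ (hF a ha)
      rw [neg_dotProduct] at a2
      rw [neg_dotProduct, neg_dotProduct, Lam_neg, abs_neg, abs_of_nonneg (by nlinarith)] at a1
      exact a1

theorem CL.r0 (hn : 1 ≤ n) (h : CL A V)
    (heq : volume (convexHull ℝ V) * volume (convexHull ℝ A) = mahler n) {x p : Fin n → ℝ}
    (hx : x ∈ convexHull ℝ V) (hp : p ∈ convexHull ℝ A) : R0 h.finA.toFinset x p := by
  classical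
  set F := h.finA.toFinset
  have hF : ∀ {a}, a ∈ F ↔ a ∈ A := h.finA.mem_toFinset
  have hδ := tendsto_one_div_add_atTop_nhds_zero_nat (𝕜 := ℝ)
  have h1 : ∀ N : ℕ, ∃ x' p' : Fin n → ℝ, dist x' x < 1 / (N + 1) ∧ dist p' p < 1 / (N + 1) ∧
      Reach (fun j : F => j.1) (1 / (N + 1)) x' p' := fun N => by
    obtain ⟨ε, hε, h2⟩ := h.bodyV.dense_reach hn (by rwa [h.polar_hullV]) hx
      (by rwa [h.polar_hullV]) (δ := 1 / (N + 1)) (by positivity)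
    refine h2 F _ (fun j => h.polar_hullV ▸ subset_convexHull ℝ A (hF.1 j.2)) fun z hz =>
      h.bodyV.subset_smul (by linarith) ?_
    rw [h.hullV, mem_polar]
    intro a ha
    rw [dotProduct_comm]
    exact (le_abs_self _).trans (hz ⟨a, hF.2 ha⟩).le
  choose xs ps hxs hps y l m a1 a2 a3 a4 a5 using h1
  obtain ⟨C, hC, hC'⟩ := exists_norm_le (a := fun j : F => j.1) fun y hy =>
    h.spanA fun a ha => hy ⟨a, hF.2 ha⟩
  have hL : 0 ≤ Lam 0 := Lam_nonneg (by simp)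
  have hd : ∀ N : ℕ, (1 : ℝ) / (N + 1) ≤ 1 := fun N => by
    rw [div_le_one (by positivity)]; linarith [Nat.cast_nonneg (α := ℝ) N]
  obtain ⟨⟨y₀, l₀⟩, -, φ, hφ, hlim⟩ := (isCompact_closedBall (0 : (Fin n → ℝ) × (F → ℝ))
    (max (C * Lam 0) 2)).tendsto_subseq (x := fun N => (y N, l N)) fun N => by
      rw [mem_closedBall_zero_iff, Prod.norm_mk]
      refine max_le_max (hC' _ _ hL fun j => (a1 N j).2.le.trans (Lam_le (a1 N j).1.le)) ?_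
      refine (pi_norm_le_iff_of_nonneg zero_le_two).2 fun j => ?_
      have := Finset.single_le_sum (f := fun j => |l N j|) (fun _ _ => abs_nonneg _)
        (Finset.mem_univ j)
      rw [Real.norm_eq_abs]
      linarith [a2 N, hd N]
  have hδ' := hδ.comp hφ.tendsto_atTop
  have ty : ∀ j : F, Tendsto (fun N => j.1 ⬝ᵥ y (φ N)) atTop (𝓝 (j.1 ⬝ᵥ y₀)) := fun j =>
    ((show Continuous fun z : (Fin n → ℝ) × (F → ℝ) => j.1 ⬝ᵥ z.1 by fun_prop).tendsto _).comp hlim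
  have tl : ∀ j : F, Tendsto (fun N => l (φ N) j) atTop (𝓝 (l₀ j)) := fun j =>
    ((show Continuous fun z : (Fin n → ℝ) × (F → ℝ) => z.2 j by fun_prop).tendsto _).comp hlim
  have tm : ∀ j : F, Tendsto (fun N => m (φ N) j) atTop (𝓝 0) := fun j =>
    squeeze_zero_norm (fun N => (Finset.single_le_sum (f := fun j => |m (φ N) j|)
      (fun _ _ => abs_nonneg _) (Finset.mem_univ j)).trans (a3 _)) hδ'
  have tx : Tendsto (fun N => xs (φ N)) atTop (𝓝 x) :=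
    tendsto_iff_dist_tendsto_zero.2 (squeeze_zero (fun _ => dist_nonneg) (fun N => (hxs _).le) hδ')
  have tp : Tendsto (fun N => ps (φ N)) atTop (𝓝 p) :=
    tendsto_iff_dist_tendsto_zero.2 (squeeze_zero (fun _ => dist_nonneg) (fun N => (hps _).le) hδ')
  have tL : ∀ j : F, Tendsto (fun N => Lam (j.1 ⬝ᵥ xs (φ N))) atTop (𝓝 (Lam (j.1 ⬝ᵥ x))) :=
    fun j => (Lam_continuousOn _ (abs_le.1 (h.bodyV.abs_le (h.polar_hullV ▸
      subset_convexHull ℝ A (hF.1 j.2)) hx))).tendsto.comp (tendsto_nhdsWithin_iff.2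
      ⟨((show Continuous fun z : Fin n → ℝ => j.1 ⬝ᵥ z by fun_prop).tendsto _).comp tx,
        Eventually.of_forall fun N => abs_le.1 (a1 _ j).1.le⟩)
  let L : (Fin n → ℝ) → ℝ := fun a => if ha : a ∈ F then l₀ ⟨a, ha⟩ else 0
  have hL' : ∀ j : F, L j.1 = l₀ j := fun j => dif_pos j.2
  refine eqB_signed (y := y₀) (l := L) (fun a ha => hF.2 (h.negA a (hF.1 ha))) ?_ ?_
    (fun a ha => le_of_tendsto_of_tendsto' (ty ⟨a, ha⟩).abs (tL ⟨a, ha⟩) fun N => (a1 _ _).2.le)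
    (fun a ha => ?_) fun a ha h0 => ?_
  · rw [← Finset.sum_coe_sort]
    simp only [hL']
    simpa using le_of_tendsto_of_tendsto' (tendsto_finsetSum Finset.univ fun j _ => (tl j).abs)
      (hδ'.const_add 1) fun N => a2 _
  · rw [← Finset.sum_coe_sort]
    simp only [hL']
    have := tendsto_finsetSum Finset.univ fun (j : F) _ => ((tl j).add (tm j)).smul_const j.1
    simpa using tendsto_nhds_unique tp (this.congr fun N => (a5 _).symm)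
  · rw [hL' ⟨a, ha⟩]
    exact ge_of_tendsto' ((tl ⟨a, ha⟩).mul (ty ⟨a, ha⟩)) fun N => (a4 _ _).1
  · rw [hL' ⟨a, ha⟩] at h0
    simpa using le_of_tendsto_of_tendsto (tL ⟨a, ha⟩) ((ty ⟨a, ha⟩).abs.add hδ')
      (((tl ⟨a, ha⟩).eventually_ne h0).mono fun N hN => ((a4 _ _).2 hN).le)

theorem eqB_hull_le {W : Set (Fin n → ℝ)} {x a : Fin n → ℝ} {c : ℝ} (hx : x ∈ convexHull ℝ W)
    (h : ∀ w ∈ W, a ⬝ᵥ w ≤ c) : a ⬝ᵥ x ≤ c :=
  convexHull_min (t := {w | a ⬝ᵥ w ≤ c}) h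
    (convex_halfSpace_le ⟨dotProduct_add a, fun t w => dotProduct_smul t a w⟩ c) hx

theorem eqB_hull_eq {W : Set (Fin n → ℝ)} {x a : Fin n → ℝ} {c : ℝ} (hx : x ∈ convexHull ℝ W)
    (h : ∀ w ∈ W, a ⬝ᵥ w = c) : a ⬝ᵥ x = c :=
  convexHull_min (t := {w | a ⬝ᵥ w = c}) h
    (convex_hyperplane ⟨dotProduct_add a, fun t w => dotProduct_smul t a w⟩ c) hx

theorem eqB_active {α : Type} {F : Finset α} {l f : α → ℝ} {c : ℝ} (hl : ∀ a ∈ F, 0 ≤ l a)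
    (hf : ∀ a ∈ F, f a ≤ c) (h : (∑ a ∈ F, l a) * c ≤ ∑ a ∈ F, l a * f a) :
    ∀ a ∈ F, l a ≠ 0 → f a = c := by
  have h1 : ∀ a ∈ F, 0 ≤ l a * (c - f a) := fun a ha => mul_nonneg (hl a ha) (sub_nonneg.2 (hf a ha))
  have h2 : ∑ a ∈ F, l a * (c - f a) = 0 := le_antisymm (by
    simp only [mul_sub, Finset.sum_sub_distrib, ← Finset.sum_mul]; linarith) (Finset.sum_nonneg h1)
  intro a ha h0
  exact (sub_eq_zero.1 ((mul_eq_zero.1 ((Finset.sum_eq_zero_iff_of_nonneg h1).1 h2 a ha)).resolve_left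
    h0)).symm

theorem eqB_dot_sum {F : Finset (Fin n → ℝ)} (l : (Fin n → ℝ) → ℝ) (y : Fin n → ℝ) :
    (∑ a ∈ F, l a • a) ⬝ᵥ y = ∑ a ∈ F, l a * (a ⬝ᵥ y) := by
  simp [sum_dotProduct]

theorem eqB_bary {W : Set (Fin n → ℝ)} (hW : W.Finite) (hne : W.Nonempty) :
    ∃ x ∈ convexHull ℝ W, ∀ (a : Fin n → ℝ) (c : ℝ), (∀ w ∈ W, a ⬝ᵥ w ≤ c) → c ≤ a ⬝ᵥ x →
      ∀ w ∈ W, a ⬝ᵥ w = c := by
  have h0 : (0 : ℝ) < hW.toFinset.card := by exact_mod_cast (hW.toFinset_nonempty.2 hne).card_pos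
  have h1 : ∑ _w ∈ hW.toFinset, (hW.toFinset.card : ℝ)⁻¹ = 1 := by simp [h0.ne']
  refine ⟨∑ w ∈ hW.toFinset, (hW.toFinset.card : ℝ)⁻¹ • w, (convex_convexHull ℝ W).sum_mem
    (fun _ _ => by positivity) h1 fun w hw => subset_convexHull ℝ W (hW.mem_toFinset.1 hw),
    fun a c h2 h3 w hw => eqB_active (l := fun _ => (hW.toFinset.card : ℝ)⁻¹)
      (fun _ _ => by positivity) (fun w hw => h2 w (hW.mem_toFinset.1 hw)) ?_ w
      (hW.mem_toFinset.2 hw) (by positivity)⟩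
  rw [dotProduct_comm, eqB_dot_sum] at h3
  simpa only [h1, one_mul, dotProduct_comm a] using h3

theorem eqB_small {α : Type} {S : Set α} (hS : S.Finite) {f g : α → ℝ}
    (h : ∀ a ∈ S, f a ≤ 1 ∧ (f a = 1 → g a ≤ 0)) :
    ∀ᶠ t in 𝓝[>] (0 : ℝ), ∀ a ∈ S, f a + t * g a ≤ 1 := by
  refine hS.eventually_all.2 fun a ha => ?_
  rcases (h a ha).1.lt_or_eq with h1 | h1
  · refine Eventually.filter_mono nhdsWithin_le_nhds ?_
    exact ((show Continuous fun t : ℝ => f a + t * g a by fun_prop).continuousAt.eventually_lt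
      continuousAt_const (by simpa using h1)).mono fun _ h => h.le
  · filter_upwards [self_mem_nhdsWithin] with t ht
    nlinarith [(h a ha).2 h1, mem_Ioi.1 ht]

theorem CL.eqB_le (h : CL A V) {a v : Fin n → ℝ} (ha : a ∈ A) (hv : v ∈ V) : a ⬝ᵥ v ≤ 1 := by
  rcases h.pm a ha v hv with h | h <;> linarith

/-- two vertices opposite on a closed set W₁ and lying on a common face -/
def SProp (A V : Set (Fin n → ℝ)) : Prop :=
  ∀ W₁ W₂ : Set (Fin n → ℝ), W₁ ⊆ V → W₂ ⊆ V → W₁.Nonempty → W₂.Nonempty →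
    (∀ v ∈ V, (∀ a ∈ A, (∀ w ∈ W₁, a ⬝ᵥ w = 1) → a ⬝ᵥ v = 1) → v ∈ W₁) →
    ∀ b ∈ A, ∀ b' ∈ A, (∀ w ∈ W₁, b' ⬝ᵥ w = -(b ⬝ᵥ w)) → (∀ w ∈ W₂, b ⬝ᵥ w = 1 ∧ b' ⬝ᵥ w = 1) →
      ∃ a ∈ A, (∀ w ∈ W₁, a ⬝ᵥ w = 1) ∧ ∀ w ∈ W₂, a ⬝ᵥ w = 1

theorem CL.sProp (h : CL A V)
    (hR : ∀ x ∈ convexHull ℝ V, ∀ p ∈ convexHull ℝ A, R0 h.finA.toFinset x p) : SProp A V := by
  intro W₁ W₂ h1 h2 hn1 ⟨w₂, hw₂⟩ hcl b hb b' hb' h3 h4
  have hF : ∀ {a}, a ∈ h.finA.toFinset ↔ a ∈ A := h.finA.mem_toFinset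
  obtain ⟨x, hx, hx'⟩ := eqB_bary (h.finV.subset h1) hn1
  have hxV := convexHull_mono h1 hx
  have hax : ∀ a ∈ A, |a ⬝ᵥ x| ≤ 1 := fun a ha =>
    h.bodyV.abs_le (h.polar_hullV ▸ subset_convexHull ℝ A ha) hxV
  obtain ⟨y, l, a1, a2, a3, a4, a5⟩ := hR x hxV ((1 / 2 : ℝ) • b + (1 / 2 : ℝ) • b')
    (convex_convexHull ℝ A (subset_convexHull ℝ A hb) (subset_convexHull ℝ A hb') (by norm_num)
      (by norm_num) (by norm_num))
  set p := (1 / 2 : ℝ) • b + (1 / 2 : ℝ) • b' with hp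
  have b1 : ∀ w ∈ W₁, p ⬝ᵥ w = 0 := fun w hw => by simp [hp, h3 w hw]
  have b2 : ∀ w ∈ W₂, p ⬝ᵥ w = 1 := fun w hw => by simp [hp, h4 w hw]; norm_num
  have b3 : ∀ a ∈ A, a ⬝ᵥ x = 1 → a ⬝ᵥ y = 0 := fun a ha e => by
    simpa [e, Lam_one] using a4 a (hF.2 ha)
  obtain ⟨t, ht, ht0⟩ := ((eqB_small h.finA (f := fun a => a ⬝ᵥ x) (g := fun a => a ⬝ᵥ y)
    fun a ha => ⟨(abs_le.1 (hax a ha)).2, fun e => (b3 a ha e).le⟩).and self_mem_nhdsWithin).exists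
  have b4 : x + t • y ∈ convexHull ℝ (h.finV.toFinset : Set (Fin n → ℝ)) := by
    rw [h.finV.coe_toFinset, h.hullV, mem_polar]
    intro a ha
    simpa [dotProduct_comm a] using ht a ha
  obtain ⟨μ, c1, c2, c3⟩ := Finset.mem_convexHull'.1 b4
  have b5 : p ⬝ᵥ (x + t • y) = 0 := by
    rw [← c3, dotProduct_comm, eqB_dot_sum]
    refine Finset.sum_eq_zero fun v hv => ?_
    by_cases h0 : μ v = 0
    · simp [h0]
    rw [dotProduct_comm, b1 v (hcl v (h.finV.mem_toFinset.1 hv) fun a ha ha' => ?_), mul_zero]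
    refine eqB_active c1 (fun v hv => h.eqB_le ha (h.finV.mem_toFinset.1 hv)) ?_ v hv h0
    have e := eqB_hull_eq hx ha'
    simp only [dotProduct_comm a]
    rw [← eqB_dot_sum, c3, c2, dotProduct_comm, dotProduct_add, dotProduct_smul, e, b3 a ha e]
    simp
  have b6 := eqB_hull_eq hx b1
  rw [dotProduct_add, b6, dotProduct_smul, zero_add, smul_eq_zero, a3, eqB_dot_sum] at b5
  have b7 : ∀ a ∈ h.finA.toFinset, l a ≠ 0 → a ⬝ᵥ x = 1 ∨ a ⬝ᵥ x = -1 := by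
    intro a ha h0
    have := (Finset.sum_eq_zero_iff_of_nonneg fun a ha => by
      by_cases h0 : l a = 0
      · simp [h0]
      · exact mul_nonneg (a1 a ha) ((Lam_nonneg (hax a (hF.1 ha))).trans (a5 a ha h0))).1
      (b5.resolve_left (ne_of_gt ht0)) a ha
    refine eq_or_eq_neg_of_abs_eq (le_antisymm (hax a (hF.1 ha)) (not_lt.1 fun h5 => ?_))
    linarith [Lam_pos h5, a5 a ha h0, (mul_eq_zero.1 this).resolve_left h0]
  have b8 : ∀ w ∈ W₂, ∀ a ∈ h.finA.toFinset, l a ≠ 0 → a ⬝ᵥ w = 1 := fun w hw =>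
    eqB_active a1 (fun a ha => h.eqB_le (hF.1 ha) (h2 hw)) (by
      rw [← eqB_dot_sum, ← a3, b2 w hw, mul_one]; exact a2)
  by_contra hc
  have b9 : p ⬝ᵥ x = -(p ⬝ᵥ w₂) := by
    rw [a3, eqB_dot_sum, eqB_dot_sum, ← Finset.sum_neg_distrib]
    refine Finset.sum_congr rfl fun a ha => ?_
    by_cases h0 : l a = 0
    · simp [h0]
    rw [b8 w₂ hw₂ a ha h0, (b7 a ha h0).resolve_left fun e => hc ⟨a, hF.1 ha,
      hx' a 1 (fun w hw => h.eqB_le (hF.1 ha) (h1 hw)) e.ge, fun w hw => b8 w hw a ha h0⟩]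
    ring
  rw [b6, b2 w₂ hw₂] at b9
  norm_num at b9

end Vale.Agent.P248
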