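import Vale.Agent.P248.EqB

open MeasureTheory Set Filter Topology Matrix
open scoped ENNReal ContDiff Real ComplexOrder Pointwise

namespace Vale.Agent.P248

variable {n : ℕ} {A V : Set (Fin n → ℝ)}

/-- the property HProp for two faces lying on a common facet -/
def HProp' (A V : Set (Fin n → ℝ)) : Prop :=
  ∀ W₁ W₂ : Set (Fin n → ℝ), W₁ ⊆ V → W₂ ⊆ V → (W₁ ∩ W₂).Nonempty →
    (∃ a ∈ A, ∀ w ∈ W₁, a ⬝ᵥ w = 1) → (∃ a ∈ A, ∀ w ∈ W₂, a ⬝ᵥ w = 1) →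
    (∃ a ∈ A, (∀ w ∈ W₁, a ⬝ᵥ w = 1) ∧ ∀ w ∈ W₂, a ⬝ᵥ w = 1) ∨
      ∃ v ∈ V, (∀ a ∈ A, (∀ w ∈ W₁, a ⬝ᵥ w = 1) → a ⬝ᵥ v = 1) ∧
        ∀ a ∈ A, (∀ w ∈ W₂, a ⬝ᵥ w = 1) → a ⬝ᵥ v = -1

theorem CL.hProp' (h : CL A V)
    (hR : ∀ x ∈ convexHull ℝ V, ∀ p ∈ convexHull ℝ A, R0 h.finA.toFinset x p) : HProp' A V := by
  intro W₁ W₂ h1 h2 ⟨v, hv1, hv2⟩ hS1 hS2
  by_contra hc
  rw [not_or] at hc
  have hF : ∀ {a}, a ∈ h.finA.toFinset ↔ a ∈ A := h.finA.mem_toFinset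
  have hv := h1 hv1
  obtain ⟨x₁, hx₁, hx₁'⟩ := eqB_bary (h.finV.subset h1) ⟨v, hv1⟩
  obtain ⟨x₂, hx₂, hx₂'⟩ := eqB_bary (h.finV.subset h2) ⟨v, hv2⟩
  obtain ⟨q₁, hq₁, hq₁'⟩ := eqB_bary (W := {a | a ∈ A ∧ ∀ w ∈ W₁, a ⬝ᵥ w = 1})
    (h.finA.subset fun _ h => h.1) hS1
  obtain ⟨q₂, hq₂, hq₂'⟩ := eqB_bary (W := {a | a ∈ A ∧ ∀ w ∈ W₂, a ⬝ᵥ w = 1})
    (h.finA.subset fun _ h => h.1) hS2
  have a1 : ∀ a ∈ A, a ⬝ᵥ x₁ ≤ 1 := fun a ha => eqB_hull_le hx₁ fun w hw => h.eqB_le ha (h1 hw)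
  have a2 : ∀ a ∈ A, a ⬝ᵥ x₂ ≤ 1 := fun a ha => eqB_hull_le hx₂ fun w hw => h.eqB_le ha (h2 hw)
  have a2' : ∀ a ∈ A, -1 ≤ a ⬝ᵥ x₂ := fun a ha => by
    have := a2 _ (h.negA a ha); rw [neg_dotProduct] at this; linarith
  obtain ⟨η, a3, hη⟩ := ((eqB_small (h.finA.subset (sep_subset A fun a => a ⬝ᵥ v = 1))
    (f := fun a => a ⬝ᵥ x₁ + a ⬝ᵥ x₂ - 1) (g := fun _ => 1) fun a ha =>
      ⟨by linarith [a1 a ha.1, a2 a ha.1], fun e => absurd ⟨a, ha.1,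
        hx₁' a 1 (fun w hw => h.eqB_le ha.1 (h1 hw)) (by linarith [a2 a ha.1]),
        hx₂' a 1 (fun w hw => h.eqB_le ha.1 (h2 hw)) (by linarith [a1 a ha.1])⟩ hc.1⟩).and
    self_mem_nhdsWithin).exists
  obtain ⟨t, a4, ht⟩ := ((eqB_small h.finV (f := fun w => (w ⬝ᵥ q₁ - w ⬝ᵥ q₂) / 2)
    (g := fun w => w ⬝ᵥ q₁ - w ⬝ᵥ q₂) fun w hw => by
      have b1 := eqB_hull_le (a := w) hq₁ fun a ha => h.symm.eqB_le hw ha.1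
      have b2 := eqB_hull_le (a := -w) hq₂ fun a ha => h.symm.eqB_le (h.negV w hw) ha.1
      rw [neg_dotProduct] at b2
      refine ⟨by linarith, fun e => absurd ⟨w, hw, fun a ha ha' => ?_, fun a ha ha' => ?_⟩ hc.2⟩
      · rw [dotProduct_comm]
        exact hq₁' w 1 (fun a ha => h.symm.eqB_le hw ha.1) (by linarith) a ⟨ha, ha'⟩
      · have := hq₂' (-w) 1 (fun a ha => h.symm.eqB_le (h.negV w hw) ha.1)
          (by rw [neg_dotProduct]; linarith) a ⟨ha, ha'⟩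
        rw [neg_dotProduct, dotProduct_comm] at this
        linarith).and self_mem_nhdsWithin).exists
  set ξ := (2 - η) • v - x₁ - x₂ with hξ
  have a5 : ∀ a, a ⬝ᵥ ξ = (2 - η) * (a ⬝ᵥ v) - a ⬝ᵥ x₁ - a ⬝ᵥ x₂ := fun a => by simp [hξ]
  have a6 : ∀ a ∈ A, a ⬝ᵥ v = 1 → 0 ≤ a ⬝ᵥ ξ := fun a ha e => by
    have := a3 a ⟨ha, e⟩
    rw [a5, e]
    linarith
  have a7 : ∀ a ∈ A, 0 ≤ a ⬝ᵥ v * (a ⬝ᵥ ξ) := fun a ha => by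
    rcases h.pm a ha v hv with e | e
    · rw [e, one_mul]; exact a6 a ha e
    · simpa [e] using a6 _ (h.negA a ha) (by simp [e])
  obtain ⟨κ, hκ, hκ'⟩ : ∃ κ > 0, (2 + 2 * t) * κ < 2 * t * η :=
    ⟨t * η / (2 + 2 * t), by positivity, by rw [mul_div_cancel₀ _ (by positivity)]; nlinarith⟩
  obtain ⟨ε, ⟨b1, b2⟩, hε⟩ := (((eqB_small h.finA (f := fun a => a ⬝ᵥ v) (g := fun a => -(a ⬝ᵥ ξ))
    fun a ha => ⟨h.eqB_le ha hv, fun e => neg_nonpos.2 (a6 a ha e)⟩).and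
    (h.finA.eventually_all.2 fun a ha => Metric.tendsto_nhds.1 (Lam_ratio (a7 a ha)) κ hκ)).and
    (Ioo_mem_nhdsGT one_pos)).exists
  have hΛ : 0 < Lam (1 - ε) := Lam_pos (abs_lt.2 ⟨by linarith [hε.2], by linarith [hε.1]⟩)
  obtain ⟨y, l, c1, c2, c3, c4, c5⟩ := hR (v - ε • ξ) (by
    rw [h.hullV, mem_polar]
    intro a ha
    have := b1 a ha
    rw [dotProduct_comm, dotProduct_sub, dotProduct_smul, smul_eq_mul]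
    linarith) ((1 / 2 + t) • (q₁ - q₂)) (by
    rw [h.hullA, mem_polar]
    intro w hw
    have := a4 w hw
    rw [dotProduct_comm, dotProduct_smul, dotProduct_sub, smul_eq_mul]
    linarith)
  have b3 : ∀ a ∈ A, Lam (a ⬝ᵥ (v - ε • ξ)) = Lam (1 - ε * (a ⬝ᵥ v * (a ⬝ᵥ ξ))) := fun a ha => by
    rw [dotProduct_sub, dotProduct_smul, smul_eq_mul]
    rcases h.pm a ha v hv with e | e <;> rw [e]
    · rw [one_mul]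
    · rw [← Lam_neg]; congr 1; ring
  set y' := (Lam (1 - ε))⁻¹ • y with hy'
  have b4 : ∀ a, a ⬝ᵥ y' = a ⬝ᵥ y / Lam (1 - ε) := fun a => by simp [hy', div_eq_inv_mul]
  have b5 : ∀ a ∈ A, |a ⬝ᵥ y'| ≤ a ⬝ᵥ v * (a ⬝ᵥ ξ) + κ := fun a ha => by
    have := (abs_lt.1 (b2 a ha)).2
    rw [b4, abs_div, abs_of_pos hΛ]
    linarith [div_le_div_of_nonneg_right ((c4 a (hF.2 ha)).trans_eq (b3 a ha)) hΛ.le]
  have b6 : ∀ a ∈ h.finA.toFinset, l a * ((a ⬝ᵥ x₁ - a ⬝ᵥ x₂) - (η + κ)) ≤ l a * (a ⬝ᵥ y') := by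
    intro a ha
    by_cases h0 : l a = 0
    · simp [h0]
    refine mul_le_mul_of_nonneg_left ?_ (c1 a ha)
    have := (abs_lt.1 (b2 a (hF.1 ha))).1
    have d1 := div_le_div_of_nonneg_right ((b3 a (hF.1 ha)).symm.trans_le (c5 a ha h0)) hΛ.le
    rw [← b4, a5] at d1
    rw [a5] at this
    rcases h.pm a (hF.1 ha) v hv with e | e <;> rw [e] at this d1 <;>
      linarith [a1 a (hF.1 ha), a2' a (hF.1 ha)]
  have b7 := Finset.sum_le_sum b6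
  simp only [mul_sub, Finset.sum_sub_distrib, ← Finset.sum_mul, ← eqB_dot_sum, ← c3,
    smul_dotProduct, sub_dotProduct, smul_eq_mul] at b7
  have d1 : ∀ {W q}, q ∈ convexHull ℝ {a | a ∈ A ∧ ∀ w ∈ W, a ⬝ᵥ w = 1} → v ∈ W →
      q ⬝ᵥ v = 1 ∧ (∀ x ∈ convexHull ℝ W, q ⬝ᵥ x = 1) ∧ q ⬝ᵥ y' ≤ q ⬝ᵥ ξ + κ ∧
        -(q ⬝ᵥ y') ≤ q ⬝ᵥ ξ + κ := by
    intro W q hq hW
    refine ⟨?_, fun x hx => ?_, ?_, ?_⟩
    · rw [dotProduct_comm]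
      exact eqB_hull_eq hq fun a ha => by rw [dotProduct_comm]; exact ha.2 v hW
    · rw [dotProduct_comm]
      exact eqB_hull_eq hq fun a ha => by rw [dotProduct_comm]; exact eqB_hull_eq hx ha.2
    · have := eqB_hull_le (a := y' - ξ) (c := κ) hq fun a ha => by
        have := (abs_le.1 (b5 a ha.1)).2
        rw [ha.2 v hW] at this
        rw [dotProduct_comm, dotProduct_sub]
        linarith
      rw [dotProduct_comm, dotProduct_sub] at this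
      linarith
    · have := eqB_hull_le (a := -y' - ξ) (c := κ) hq fun a ha => by
        have := (abs_le.1 (b5 a ha.1)).1
        rw [ha.2 v hW] at this
        rw [dotProduct_comm, dotProduct_sub, dotProduct_neg]
        linarith
      rw [dotProduct_comm, dotProduct_sub, dotProduct_neg] at this
      linarith
  obtain ⟨e1, e2, e3, -⟩ := d1 hq₁ hv1
  obtain ⟨e4, e5, -, e6⟩ := d1 hq₂ hv2
  rw [a5, e1, e2 x₁ hx₁] at e3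
  rw [a5, e4, e5 x₂ hx₂] at e6
  rw [e2 x₁ hx₁, e5 x₂ hx₂] at b7
  nlinarith [mul_le_mul_of_nonneg_right c2 (add_pos hη hκ).le,
    mul_le_mul_of_nonneg_left (add_le_add e3 e6) (show 0 ≤ 1 / 2 + t by positivity)]

theorem CL.hProp_of (h : CL A V) (hS : SProp A V) (hH : HProp' A V) : HProp A V := by
  intro W₁ W₂ h1 h2 ⟨s₁, hs₁, hs₁'⟩ ⟨s₂, hs₂, hs₂'⟩
  refine or_iff_not_imp_left.2 fun hc => ?_
  have hn1 : W₁.Nonempty := nonempty_iff_ne_empty.2 fun e => hc ⟨s₂, hs₂, by simp [e], hs₂'⟩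
  have hn2 : W₂.Nonempty := nonempty_iff_ne_empty.2 fun e => hc ⟨s₁, hs₁, hs₁', by simp [e]⟩
  suffices key : ∀ k, ∀ W ⊆ V, W.ncard = k → W.Nonempty →
      (∀ v ∈ V, (∀ a ∈ A, (∀ w ∈ W, a ⬝ᵥ w = 1) → a ⬝ᵥ v = 1) → v ∈ W) →
      (∀ a ∈ A, (∀ w ∈ W₁, a ⬝ᵥ w = 1) → ∀ w ∈ W, a ⬝ᵥ w = 1) →
      (∃ a ∈ A, (∀ w ∈ W, a ⬝ᵥ w = 1) ∧ ∀ w ∈ W₂, a ⬝ᵥ w = 1) ∨
      ∃ v ∈ V, (∀ a ∈ A, (∀ w ∈ W₁, a ⬝ᵥ w = 1) → a ⬝ᵥ v = 1) ∧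
        ∀ a ∈ A, (∀ w ∈ W₂, a ⬝ᵥ w = 1) → a ⬝ᵥ v = -1 by
    have h3 : W₁ ⊆ {v | v ∈ V ∧ ∀ a ∈ A, (∀ w ∈ W₁, a ⬝ᵥ w = 1) → a ⬝ᵥ v = 1} :=
      fun w hw => ⟨h1 hw, fun a _ ha => ha w hw⟩
    refine (key _ _ (fun _ h => h.1) rfl (hn1.mono h3) (fun v hv h4 => ⟨hv, fun a ha ha' =>
      h4 a ha fun w hw => hw.2 a ha ha'⟩) fun a ha ha' w hw => hw.2 a ha ha').resolve_left ?_
    rintro ⟨a, ha, h4, h5⟩
    exact hc ⟨a, ha, fun w hw => h4 w (h3 hw), h5⟩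
  intro k
  induction k using Nat.strong_induction_on with
  | _ k ih =>
  rintro W hW rfl ⟨v, hv⟩ hcl hS₁
  refine or_iff_not_imp_left.2 fun hd => ?_
  by_contra hc'
  obtain ⟨b, hb, hb', w₀, hw₀, h3⟩ : ∃ b ∈ A, (∀ w ∈ W₂, b ⬝ᵥ w = 1) ∧ ∃ w ∈ W, b ⬝ᵥ w = 1 := by
    by_contra! h3
    exact hc' ⟨v, hW hv, fun a ha ha' => hS₁ a ha ha' v hv, fun a ha ha' =>
      (h.pm a ha v (hW hv)).resolve_left (h3 a ha ha' v hv)⟩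
  obtain ⟨w₁, hw₁, h4⟩ : ∃ w ∈ W, b ⬝ᵥ w = -1 := by
    by_contra! h4
    exact hd ⟨b, hb, fun w hw => (h.pm b hb w (hW hw)).resolve_right (h4 w hw), hb'⟩
  obtain ⟨b', c1, c2, c3⟩ := (ih _ (ncard_lt_ncard (s := {w | w ∈ W ∧ b ⬝ᵥ w = -1})
    ⟨fun _ h => h.1, fun h5 => by linarith [(h5 hw₀).2]⟩ (h.finV.subset hW)) _
    (fun _ h => hW h.1) rfl ⟨w₁, hw₁, h4⟩ (fun u hu h5 => ⟨hcl u hu fun a ha ha' =>
      h5 a ha fun w hw => ha' w hw.1, by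
        have := h5 _ (h.negA b hb) fun w hw => by simp [hw.2]
        rw [neg_dotProduct] at this
        linarith⟩) fun a ha ha' w hw => hS₁ a ha ha' w hw.1).resolve_right hc'
  refine hd (hS W W₂ hW h2 ⟨v, hv⟩ hn2 hcl b hb b' c1 (fun w hw => ?_) fun w hw =>
    ⟨hb' w hw, c3 w hw⟩)
  rcases h.pm b hb w (hW hw) with e | e
  swap
  · rw [c2 w ⟨hw, e⟩, e, neg_neg]
  rw [e]
  refine (h.pm b' c1 w (hW hw)).resolve_left fun e' => ?_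
  rcases hH W {w | w ∈ V ∧ b ⬝ᵥ w = 1 ∧ b' ⬝ᵥ w = 1} hW (fun _ h => h.1) ⟨w, hw, hW hw, e, e'⟩
    ⟨s₁, hs₁, hS₁ s₁ hs₁ hs₁'⟩ ⟨b, hb, fun _ h => h.2.1⟩ with ⟨a, ha, d1, d2⟩ | ⟨u, hu, d1, d2⟩
  · exact hd ⟨a, ha, d1, fun w hw => d2 w ⟨h2 hw, hb' w hw, c3 w hw⟩⟩
  · linarith [c2 u ⟨hcl u hu d1, d2 b hb fun _ h => h.2.1⟩, d2 b' c1 fun _ h => h.2.2]

theorem CL.hProp (hn : 1 ≤ n) (h : CL A V)
    (heq : volume (convexHull ℝ V) * volume (convexHull ℝ A) = mahler n) : HProp A V :=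
  h.hProp_of (h.sProp fun _ hx _ hp => h.r0 hn heq hx hp)
    (h.hProp' fun _ hx _ hp => h.r0 hn heq hx hp)

end Vale.Agent.P248
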