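import Vale.Agent.P248.Comb
import Vale.Agent.P248.EqA
import Vale.Agent.P248.EqC

open MeasureTheory Set Filter Topology Matrix
open scoped ENNReal ContDiff Real ComplexOrder Pointwise

namespace Vale.Agent.P248

theorem Body.eq_iff {n : ℕ} (hn : 1 ≤ n) {K : Set (Fin n → ℝ)} (hK : Body K) :
    volume K * volume (polar K) = mahler n ↔
      ∃ H : Set (Fin n → ℝ), Hanner n H ∧ ∃ T : (Fin n → ℝ) ≃ₗ[ℝ] (Fin n → ℝ), K = T '' H := by
  constructor
  · intro heq
    obtain ⟨A, V, hCL, hV⟩ := hK.exists_CL hn heq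
    have h2 : volume (convexHull ℝ V) * volume (convexHull ℝ A) = mahler n := by
      rw [← hCL.polar_hullV, hV]; exact heq
    obtain ⟨H, hH, T, hT⟩ := hCL.hanner (hCL.hProp hn h2)
    exact ⟨H, hH, T, hV ▸ hT⟩
  · rintro ⟨H, hH, T, rfl⟩
    rw [volume_mul_polar_image, hH.volume_mul]

end Vale.Agent.P248
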