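import Vale.Agent.P248.Polar

open MeasureTheory Set Filter Topology Matrix
open scoped ENNReal ContDiff Real ComplexOrder Pointwise

namespace Vale.Agent.P248

variable {k l : ℕ} {H₁ : Set (Fin k → ℝ)} {H₂ : Set (Fin l → ℝ)}

/-- Cartesian product in concatenated coordinates -/
def bprod (H₁ : Set (Fin k → ℝ)) (H₂ : Set (Fin l → ℝ)) : Set (Fin (k + l) → ℝ) :=
  {x | ∃ x₁ ∈ H₁, ∃ x₂ ∈ H₂, x = Fin.append x₁ x₂}

/-- convex hull of the union in concatenated coordinates -/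
def bhull (H₁ : Set (Fin k → ℝ)) (H₂ : Set (Fin l → ℝ)) : Set (Fin (k + l) → ℝ) :=
  convexHull ℝ ({x | ∃ x₁ ∈ H₁, x = Fin.append x₁ (0 : Fin l → ℝ)} ∪
    {x | ∃ x₂ ∈ H₂, x = Fin.append (0 : Fin k → ℝ) x₂})

theorem append_dotProduct (x₁ y₁ : Fin k → ℝ) (x₂ y₂ : Fin l → ℝ) :
    Fin.append x₁ x₂ ⬝ᵥ Fin.append y₁ y₂ = x₁ ⬝ᵥ y₁ + x₂ ⬝ᵥ y₂ := by
  simp [dotProduct, Fin.sum_univ_add]

theorem hvol_append_add (x₁ y₁ : Fin k → ℝ) (x₂ y₂ : Fin l → ℝ) :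
    Fin.append x₁ x₂ + Fin.append y₁ y₂ = Fin.append (x₁ + y₁) (x₂ + y₂) := by
  funext i
  refine Fin.addCases (fun i => ?_) (fun i => ?_) i <;> simp

theorem hvol_append_smul (a : ℝ) (x₁ : Fin k → ℝ) (x₂ : Fin l → ℝ) :
    a • Fin.append x₁ x₂ = Fin.append (a • x₁) (a • x₂) := by
  funext i
  refine Fin.addCases (fun i => ?_) (fun i => ?_) i <;> simp

theorem hvol_append_neg (x₁ : Fin k → ℝ) (x₂ : Fin l → ℝ) :
    -Fin.append x₁ x₂ = Fin.append (-x₁) (-x₂) := by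
  funext i
  refine Fin.addCases (fun i => ?_) (fun i => ?_) i <;> simp

theorem hvol_split (x : Fin (k + l) → ℝ) :
    ∃ (x₁ : Fin k → ℝ) (x₂ : Fin l → ℝ), x = Fin.append x₁ x₂ :=
  ⟨_, _, Fin.append_castAdd_natAdd.symm⟩

theorem hvol_bprod_eq_image :
    bprod H₁ H₂ = (Fin.appendHomeomorph (X := ℝ) k l) '' (H₁ ×ˢ H₂) := by
  ext x
  constructor
  · rintro ⟨x₁, h₁, x₂, h₂, rfl⟩
    exact ⟨(x₁, x₂), ⟨h₁, h₂⟩, rfl⟩
  · rintro ⟨⟨x₁, x₂⟩, ⟨h₁, h₂⟩, rfl⟩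
    exact ⟨x₁, h₁, x₂, h₂, rfl⟩

theorem hvol_zero_mem {n : ℕ} {K : Set (Fin n → ℝ)} (hK : Body K) : (0 : Fin n → ℝ) ∈ K :=
  interior_subset hK.zero_mem_interior

theorem Body.bprod (h₁ : Body H₁) (h₂ : Body H₂) : Body (bprod H₁ H₂) := by
  refine ⟨?_, ?_, ?_, ?_⟩
  · rw [hvol_bprod_eq_image]
    exact (h₁.compact.prod h₂.compact).image (Homeomorph.continuous _)
  · rintro _ ⟨x₁, hx₁, x₂, hx₂, rfl⟩ _ ⟨y₁, hy₁, y₂, hy₂, rfl⟩ a b ha hb hab
    refine ⟨a • x₁ + b • y₁, h₁.convex hx₁ hy₁ ha hb hab, a • x₂ + b • y₂,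
      h₂.convex hx₂ hy₂ ha hb hab, ?_⟩
    rw [hvol_append_smul, hvol_append_smul, hvol_append_add]
  · rw [hvol_bprod_eq_image, ← Homeomorph.image_interior, interior_prod_eq]
    exact (h₁.int.prod h₂.int).image _
  · rintro _ ⟨x₁, hx₁, x₂, hx₂, rfl⟩
    exact ⟨-x₁, h₁.neg _ hx₁, -x₂, h₂.neg _ hx₂, hvol_append_neg _ _⟩

theorem polar_bhull (h₁ : Body H₁) (h₂ : Body H₂) :
    polar (bhull H₁ H₂) = bprod (polar H₁) (polar H₂) := by
  unfold bhull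
  rw [polar_convexHull]
  ext y
  obtain ⟨y₁, y₂, rfl⟩ := hvol_split y
  rw [mem_polar]
  constructor
  · intro h
    refine ⟨y₁, ?_, y₂, ?_, rfl⟩
    · rw [mem_polar]
      intro x hx
      have := h (Fin.append x 0) (Or.inl ⟨x, hx, rfl⟩)
      rw [append_dotProduct] at this
      simpa using this
    · rw [mem_polar]
      intro x hx
      have := h (Fin.append 0 x) (Or.inr ⟨x, hx, rfl⟩)
      rw [append_dotProduct] at this
      simpa using this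
  · rintro ⟨z₁, hz₁, z₂, hz₂, hz⟩ x hx
    rw [hz]
    rcases hx with ⟨x₁, hx₁, rfl⟩ | ⟨x₂, hx₂, rfl⟩
    · rw [append_dotProduct]
      simpa using mem_polar.1 hz₁ x₁ hx₁
    · rw [append_dotProduct]
      simpa using mem_polar.1 hz₂ x₂ hx₂

theorem hvol_convex_left (h₁ : Body H₁) :
    Convex ℝ {x : Fin (k + l) → ℝ | ∃ x₁ ∈ H₁, x = Fin.append x₁ (0 : Fin l → ℝ)} := by
  rintro _ ⟨x₁, hx₁, rfl⟩ _ ⟨y₁, hy₁, rfl⟩ a b ha hb hab
  refine ⟨a • x₁ + b • y₁, h₁.convex hx₁ hy₁ ha hb hab, ?_⟩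
  rw [hvol_append_smul, hvol_append_smul, hvol_append_add]
  simp

theorem hvol_convex_right (h₂ : Body H₂) :
    Convex ℝ {x : Fin (k + l) → ℝ | ∃ x₂ ∈ H₂, x = Fin.append (0 : Fin k → ℝ) x₂} := by
  rintro _ ⟨x₁, hx₁, rfl⟩ _ ⟨y₁, hy₁, rfl⟩ a b ha hb hab
  refine ⟨a • x₁ + b • y₁, h₂.convex hx₁ hy₁ ha hb hab, ?_⟩
  rw [hvol_append_smul, hvol_append_smul, hvol_append_add]
  simp

theorem hvol_bhull_eq_image (h₁ : Body H₁) (h₂ : Body H₂) :
    bhull H₁ H₂ = (fun p : ℝ × (Fin k → ℝ) × (Fin l → ℝ) =>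
      Fin.append ((1 - p.1) • p.2.1) (p.1 • p.2.2)) '' (Icc (0 : ℝ) 1 ×ˢ H₁ ×ˢ H₂) := by
  unfold bhull
  rw [(hvol_convex_left h₁).convexHull_union (hvol_convex_right h₂)
    ⟨_, 0, hvol_zero_mem h₁, rfl⟩ ⟨_, 0, hvol_zero_mem h₂, rfl⟩]
  ext x
  rw [mem_convexJoin]
  constructor
  · rintro ⟨_, ⟨x₁, hx₁, rfl⟩, _, ⟨x₂, hx₂, rfl⟩, a, b, ha, hb, hab, rfl⟩
    refine ⟨(b, x₁, x₂), ⟨⟨hb, by linarith⟩, hx₁, hx₂⟩, ?_⟩
    have : 1 - b = a := by linarith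
    simp only [this]
    rw [hvol_append_smul, hvol_append_smul, hvol_append_add]
    simp
  · rintro ⟨⟨t, x₁, x₂⟩, ⟨⟨ht0, ht1⟩, hx₁, hx₂⟩, rfl⟩
    refine ⟨_, ⟨x₁, hx₁, rfl⟩, _, ⟨x₂, hx₂, rfl⟩, 1 - t, t, by linarith, ht0, by ring, ?_⟩
    rw [hvol_append_smul, hvol_append_smul, hvol_append_add]
    simp

theorem Body.bhull (h₁ : Body H₁) (h₂ : Body H₂) : Body (bhull H₁ H₂) := by
  refine ⟨?_, convex_convexHull _ _, ?_, ?_⟩
  · rw [hvol_bhull_eq_image h₁ h₂]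
    refine (isCompact_Icc.prod (h₁.compact.prod h₂.compact)).image ?_
    exact (Fin.continuous_append k l).comp
      (f := fun p : ℝ × (Fin k → ℝ) × (Fin l → ℝ) => ((1 - p.1) • p.2.1, p.1 • p.2.2))
      (by fun_prop)
  · have hsub : (1 / 2 : ℝ) • P248.bprod H₁ H₂ ⊆ P248.bhull H₁ H₂ := by
      rintro _ ⟨_, ⟨x₁, hx₁, x₂, hx₂, rfl⟩, rfl⟩
      rw [hvol_bhull_eq_image h₁ h₂]
      refine ⟨(1 / 2, x₁, x₂), ⟨⟨by norm_num, by norm_num⟩, hx₁, hx₂⟩, ?_⟩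
      have : (1 - 1 / 2 : ℝ) = 1 / 2 := by norm_num
      simp only [this]
      rw [hvol_append_smul]
    refine Nonempty.mono (interior_mono hsub) ?_
    rw [interior_smul₀ (by norm_num : (1 / 2 : ℝ) ≠ 0)]
    exact (h₁.bprod h₂).int.smul_set
  · intro x hx
    rw [hvol_bhull_eq_image h₁ h₂] at hx ⊢
    obtain ⟨⟨t, x₁, x₂⟩, ⟨ht, hx₁, hx₂⟩, rfl⟩ := hx
    refine ⟨(t, -x₁, -x₂), ⟨ht, h₁.neg _ hx₁, h₂.neg _ hx₂⟩, ?_⟩
    simp only [hvol_append_neg, smul_neg]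

theorem polar_bprod (h₁ : Body H₁) (h₂ : Body H₂) :
    polar (bprod H₁ H₂) = bhull (polar H₁) (polar H₂) := by
  have h := polar_bhull h₁.polar_body h₂.polar_body
  rw [h₁.polar_polar, h₂.polar_polar] at h
  rw [← h, (h₁.polar_body.bhull h₂.polar_body).polar_polar]

/-- concatenation as a measurable equivalence -/
noncomputable def hvolEquiv (k l : ℕ) : ((Fin k → ℝ) × (Fin l → ℝ)) ≃ᵐ (Fin (k + l) → ℝ) :=
  (MeasurableEquiv.sumPiEquivProdPi (fun _ : Fin k ⊕ Fin l => ℝ)).symm.trans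
    (MeasurableEquiv.piCongrLeft (fun _ : Fin (k + l) => ℝ) finSumFinEquiv)

theorem hvolEquiv_apply (p : (Fin k → ℝ) × (Fin l → ℝ)) :
    hvolEquiv k l p = Fin.append p.1 p.2 := by
  funext i
  obtain ⟨j, rfl⟩ := finSumFinEquiv.surjective i
  unfold hvolEquiv
  rw [MeasurableEquiv.trans_apply, MeasurableEquiv.piCongrLeft_apply_apply]
  rcases j with j | j
  · simp [MeasurableEquiv.coe_sumPiEquivProdPi_symm]
  · simp [MeasurableEquiv.coe_sumPiEquivProdPi_symm]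

theorem hvolEquiv_preserving : MeasurePreserving (hvolEquiv k l) volume volume :=
  (volume_measurePreserving_piCongrLeft (fun _ : Fin (k + l) => ℝ) finSumFinEquiv).comp
    (volume_measurePreserving_sumPiEquivProdPi_symm (fun _ : Fin k ⊕ Fin l => ℝ))

theorem volume_bprod (h₁ : Body H₁) (h₂ : Body H₂) :
    volume (bprod H₁ H₂) = volume H₁ * volume H₂ := by
  have h : hvolEquiv k l ⁻¹' bprod H₁ H₂ = H₁ ×ˢ H₂ := by
    ext ⟨x₁, x₂⟩
    rw [mem_preimage, hvolEquiv_apply]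
    constructor
    · rintro ⟨y₁, hy₁, y₂, hy₂, h⟩
      have h' : (x₁, x₂) = (y₁, y₂) := (Fin.appendEquiv k l).injective h
      rw [h']
      exact ⟨hy₁, hy₂⟩
    · rintro ⟨hx₁, hx₂⟩
      exact ⟨x₁, hx₁, x₂, hx₂, rfl⟩
  rw [← hvolEquiv_preserving.measure_preimage_equiv, h, Measure.volume_eq_prod, Measure.prod_prod]

/-- the support function -/
noncomputable def hvolSupp {n : ℕ} (K : Set (Fin n → ℝ)) (y : Fin n → ℝ) : ℝ :=
  sSup ((fun x => y ⬝ᵥ x) '' K)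

section supp

variable {n : ℕ} {K : Set (Fin n → ℝ)}

theorem hvolSupp_spec (hK : Body K) (y : Fin n → ℝ) :
    ∃ x ∈ K, hvolSupp K y = y ⬝ᵥ x ∧ ∀ x' ∈ K, y ⬝ᵥ x' ≤ y ⬝ᵥ x := by
  have hc : Continuous fun x : Fin n → ℝ => y ⬝ᵥ x := by fun_prop
  exact hK.compact.exists_sSup_image_eq_and_ge ⟨0, hvol_zero_mem hK⟩ hc.continuousOn

theorem hvolSupp_ge (hK : Body K) (y : Fin n → ℝ) {x : Fin n → ℝ} (hx : x ∈ K) :
    y ⬝ᵥ x ≤ hvolSupp K y := by
  obtain ⟨x₀, _, h, h'⟩ := hvolSupp_spec hK y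
  rw [h]
  exact h' x hx

theorem hvolSupp_le (hK : Body K) (y : Fin n → ℝ) {c : ℝ} (h : ∀ x ∈ K, y ⬝ᵥ x ≤ c) :
    hvolSupp K y ≤ c := by
  obtain ⟨x₀, hx₀, h', _⟩ := hvolSupp_spec hK y
  rw [h']
  exact h x₀ hx₀

theorem hvolSupp_abs (hK : Body K) (y : Fin n → ℝ) {x : Fin n → ℝ} (hx : x ∈ K) :
    |y ⬝ᵥ x| ≤ hvolSupp K y := by
  rw [abs_le]
  refine ⟨?_, hvolSupp_ge hK y hx⟩
  have := hvolSupp_ge hK y (hK.neg x hx)
  rw [dotProduct_neg] at this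
  linarith

theorem hvolSupp_zero (hK : Body K) : hvolSupp K 0 = 0 := by
  obtain ⟨x₀, _, h, _⟩ := hvolSupp_spec hK 0
  rw [h, zero_dotProduct]

theorem hvolSupp_smul (hK : Body K) (r : ℝ) (y : Fin n → ℝ) :
    hvolSupp K (r • y) ≤ |r| * hvolSupp K y := by
  refine hvolSupp_le hK _ fun x hx => ?_
  rw [smul_dotProduct, smul_eq_mul]
  refine (le_abs_self _).trans ?_
  rw [abs_mul]
  exact mul_le_mul_of_nonneg_left (hvolSupp_abs hK y hx) (abs_nonneg _)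

theorem hvolSupp_neg (hK : Body K) (y : Fin n → ℝ) : hvolSupp K (-y) = hvolSupp K y := by
  have h : ∀ y : Fin n → ℝ, hvolSupp K (-y) ≤ hvolSupp K y := fun y => by
    simpa using hvolSupp_smul hK (-1) y
  refine le_antisymm (h y) ?_
  simpa using h (-y)

theorem hvolSupp_add (hK : Body K) (y z : Fin n → ℝ) :
    hvolSupp K (y + z) ≤ hvolSupp K y + hvolSupp K z := by
  refine hvolSupp_le hK _ fun x hx => ?_
  rw [add_dotProduct]
  exact add_le_add (hvolSupp_ge hK y hx) (hvolSupp_ge hK z hx)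

theorem hvolSupp_eq_zero (hK : Body K) {y : Fin n → ℝ} (h : hvolSupp K y = 0) : y = 0 := by
  refine hK.eq_zero_of_forall fun x hx => ?_
  have := hvolSupp_abs hK y hx
  rw [h] at this
  exact abs_nonpos_iff.1 this

theorem hvol_polar_eq (hK : Body K) : polar K = {y | hvolSupp K y ≤ 1} := by
  ext y
  rw [mem_polar]
  exact ⟨fun h => hvolSupp_le hK y h, fun h x hx => (hvolSupp_ge hK y hx).trans h⟩

theorem hvol_volume_polar (hK : Body K) :
    volume (polar K) =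
      ENNReal.ofReal ((∫ y, Real.exp (-hvolSupp K y)) / (n.factorial : ℝ)) := by
  have h1 : volume {y | hvolSupp K y ≤ 1} = volume {y | hvolSupp K y < 1} := by
    rcases subsingleton_or_nontrivial (Fin n → ℝ) with hs | hs
    · have : {y | hvolSupp K y ≤ 1} = {y | hvolSupp K y < 1} := by
        ext y
        rw [Subsingleton.elim y 0]
        simp [hvolSupp_zero hK]
      rw [this]
    · exact measure_le_eq_lt volume (hvolSupp_zero hK) (hvolSupp_neg hK) (hvolSupp_add hK)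
        (fun h => hvolSupp_eq_zero hK h) (hvolSupp_smul hK) 1
  rw [hvol_polar_eq hK, h1, measure_lt_one_eq_integral_div_gamma volume (hvolSupp_zero hK)
    (hvolSupp_neg hK) (hvolSupp_add hK) (fun h => hvolSupp_eq_zero hK h) (hvolSupp_smul hK)
    one_pos]
  simp only [Real.rpow_one, div_one, Module.finrank_fin_fun, Real.Gamma_nat_eq_factorial]

end supp

theorem hvolSupp_bprod (h₁ : Body H₁) (h₂ : Body H₂) (y₁ : Fin k → ℝ) (y₂ : Fin l → ℝ) :
    hvolSupp (bprod H₁ H₂) (Fin.append y₁ y₂) = hvolSupp H₁ y₁ + hvolSupp H₂ y₂ := by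
  refine le_antisymm ?_ ?_
  · refine hvolSupp_le (h₁.bprod h₂) _ ?_
    rintro _ ⟨x₁, hx₁, x₂, hx₂, rfl⟩
    rw [append_dotProduct]
    exact add_le_add (hvolSupp_ge h₁ _ hx₁) (hvolSupp_ge h₂ _ hx₂)
  · obtain ⟨x₁, hx₁, e₁, _⟩ := hvolSupp_spec h₁ y₁
    obtain ⟨x₂, hx₂, e₂, _⟩ := hvolSupp_spec h₂ y₂
    rw [e₁, e₂, ← append_dotProduct]
    exact hvolSupp_ge (h₁.bprod h₂) _ ⟨x₁, hx₁, x₂, hx₂, rfl⟩

theorem hvol_integral_bprod (h₁ : Body H₁) (h₂ : Body H₂) :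
    ∫ y, Real.exp (-hvolSupp (bprod H₁ H₂) y) =
      (∫ y, Real.exp (-hvolSupp H₁ y)) * ∫ y, Real.exp (-hvolSupp H₂ y) := by
  rw [← (hvolEquiv_preserving (k := k) (l := l)).integral_comp', ← integral_prod_mul,
    Measure.volume_eq_prod]
  refine integral_congr_ae (Eventually.of_forall fun p => ?_)
  simp only [hvolEquiv_apply]
  rw [hvolSupp_bprod h₁ h₂, ← Real.exp_add, neg_add]

theorem volume_bhull (h₁ : Body H₁) (h₂ : Body H₂) :
    volume (bhull H₁ H₂) = ENNReal.ofReal ((k.factorial : ℝ) * l.factorial / (k + l).factorial)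
      * (volume H₁ * volume H₂) := by
  have e := polar_bprod h₁.polar_body h₂.polar_body
  rw [h₁.polar_polar, h₂.polar_polar] at e
  have e₁ := hvol_volume_polar h₁.polar_body
  have e₂ := hvol_volume_polar h₂.polar_body
  rw [h₁.polar_polar] at e₁
  rw [h₂.polar_polar] at e₂
  rw [← e, hvol_volume_polar (h₁.polar_body.bprod h₂.polar_body),
    hvol_integral_bprod h₁.polar_body h₂.polar_body, e₁, e₂]
  have p₁ : 0 ≤ ∫ y, Real.exp (-hvolSupp (polar H₁) y) :=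
    integral_nonneg fun y => (Real.exp_pos _).le
  rw [← ENNReal.ofReal_mul (by positivity), ← ENNReal.ofReal_mul (by positivity)]
  congr 1
  have : (k.factorial : ℝ) ≠ 0 := by positivity
  have : (l.factorial : ℝ) ≠ 0 := by positivity
  have : ((k + l).factorial : ℝ) ≠ 0 := by positivity
  field_simp

theorem hvol_seg_eq (a : ℝ) :
    {x : Fin 1 → ℝ | -a ≤ x 0 ∧ x 0 ≤ a} = Icc (fun _ => -a) (fun _ => a) := by
  ext x
  simp [mem_Icc, Pi.le_def, Fin.forall_fin_one]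

theorem hvol_seg_body {a : ℝ} (ha : 0 < a) : Body {x : Fin 1 → ℝ | -a ≤ x 0 ∧ x 0 ≤ a} := by
  refine ⟨?_, ?_, ?_, ?_⟩
  · rw [hvol_seg_eq]
    exact isCompact_Icc
  · rw [hvol_seg_eq]
    exact convex_Icc _ _
  · refine ⟨0, mem_interior_iff_mem_nhds.2 ?_⟩
    refine mem_of_superset (Metric.ball_mem_nhds 0 ha) fun x hx => ?_
    rw [mem_ball_zero_iff] at hx
    have h := (norm_le_pi_norm x 0).trans hx.le
    rw [Real.norm_eq_abs] at h
    exact abs_le.1 h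
  · rintro x ⟨h1, h2⟩
    constructor
    · simp only [Pi.neg_apply]
      linarith
    · simp only [Pi.neg_apply]
      linarith

theorem hvol_seg_volume {a : ℝ} :
    volume {x : Fin 1 → ℝ | -a ≤ x 0 ∧ x 0 ≤ a} = ENNReal.ofReal (2 * a) := by
  rw [hvol_seg_eq, Real.volume_Icc_pi]
  simp only [Finset.univ_unique, Finset.prod_singleton]
  congr 1
  ring

theorem hvol_seg_polar {a : ℝ} (ha : 0 < a) :
    polar {x : Fin 1 → ℝ | -a ≤ x 0 ∧ x 0 ≤ a} = {x : Fin 1 → ℝ | -a⁻¹ ≤ x 0 ∧ x 0 ≤ a⁻¹} := by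
  ext y
  rw [mem_polar]
  simp only [dotProduct, Fin.sum_univ_one, mem_ofPred_eq]
  constructor
  · intro h
    have h1 := h (fun _ => a) ⟨by linarith, le_rfl⟩
    have h2 := h (fun _ => -a) ⟨le_rfl, by linarith⟩
    constructor
    · rw [neg_le, ← one_div, le_div_iff₀ ha]
      linarith
    · rw [← one_div, le_div_iff₀ ha]
      linarith
  · intro h x hx
    have h1 : |y 0| ≤ a⁻¹ := abs_le.2 h
    have h2 : |x 0| ≤ a := abs_le.2 hx
    calc y 0 * x 0 ≤ |y 0| * |x 0| := by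
          rw [← abs_mul]
          exact le_abs_self _
      _ ≤ a⁻¹ * a := mul_le_mul h1 h2 (abs_nonneg _) (by positivity)
      _ = 1 := inv_mul_cancel₀ ha.ne'

theorem Hanner.body {n : ℕ} {H : Set (Fin n → ℝ)} (h : Hanner n H) : Body H := by
  induction h with
  | seg a ha => exact hvol_seg_body ha
  | prod _ _ ih₁ ih₂ => exact ih₁.bprod ih₂
  | hull _ _ ih₁ ih₂ => exact ih₁.bhull ih₂

theorem hvol_mahler_mul (k l : ℕ) :
    ENNReal.ofReal ((k.factorial : ℝ) * l.factorial / (k + l).factorial)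
      * (mahler k * mahler l) = mahler (k + l) := by
  unfold mahler
  rw [← ENNReal.ofReal_mul (by positivity), ← ENNReal.ofReal_mul (by positivity)]
  congr 1
  have : (k.factorial : ℝ) ≠ 0 := by positivity
  have : (l.factorial : ℝ) ≠ 0 := by positivity
  have : ((k + l).factorial : ℝ) ≠ 0 := by positivity
  rw [pow_add]
  field_simp

theorem Hanner.volume_mul {n : ℕ} {H : Set (Fin n → ℝ)} (h : Hanner n H) :
    volume H * volume (polar H) = mahler n := by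
  induction h with
  | seg a ha =>
    rw [hvol_seg_polar ha, hvol_seg_volume, hvol_seg_volume, mahler,
      ← ENNReal.ofReal_mul (by positivity)]
    congr 1
    field_simp
    norm_num
  | @prod k l H₁ H₂ g₁ g₂ ih₁ ih₂ =>
    have h₁ := g₁.body
    have h₂ := g₂.body
    change volume (bprod H₁ H₂) * volume (polar (bprod H₁ H₂)) = _
    rw [polar_bprod h₁ h₂, volume_bprod h₁ h₂, volume_bhull h₁.polar_body h₂.polar_body,
      ← hvol_mahler_mul, ← ih₁, ← ih₂]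
    ring
  | @hull k l H₁ H₂ g₁ g₂ ih₁ ih₂ =>
    have h₁ := g₁.body
    have h₂ := g₂.body
    change volume (bhull H₁ H₂) * volume (polar (bhull H₁ H₂)) = _
    rw [polar_bhull h₁ h₂, volume_bhull h₁ h₂, volume_bprod h₁.polar_body h₂.polar_body,
      ← hvol_mahler_mul, ← ih₁, ← ih₂]
    ring

end Vale.Agent.P248
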