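import Vale.Agent.P248.Base

open MeasureTheory Set Filter Topology Matrix
open scoped ENNReal ContDiff Real ComplexOrder Pointwise

namespace Vale.Agent.P248

namespace Null

section alg

variable {A ι : Type} [CommRing A] [Fintype ι] [DecidableEq ι]

theorem leib_prod (d : A →+ A) (hd : ∀ a b, d (a * b) = d a * b + a * d b) (f : ι → A)
    (s : Finset ι) : d (∏ j ∈ s, f j) = ∑ j ∈ s, d (f j) * ∏ k ∈ s.erase j, f k := by
  induction s using Finset.induction_on with
  | empty =>
    have h := hd 1 1
    simp only [mul_one, one_mul] at h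
    simpa using h
  | insert a s ha ih =>
    rw [Finset.prod_insert ha, hd, ih, Finset.sum_insert ha, Finset.erase_insert ha,
      Finset.mul_sum]
    congr 1
    refine Finset.sum_congr rfl fun j hj => ?_
    have hja : a ≠ j := fun h => ha (h ▸ hj)
    rw [Finset.erase_insert_of_ne hja,
      Finset.prod_insert fun h => ha (Finset.mem_of_mem_erase h)]
    ring

variable (D : ι → A →+ A)

theorem piola (hd : ∀ i a b, D i (a * b) = D i a * b + a * D i b)
    (hc : ∀ i j a, D i (D j a) = D j (D i a)) (G : ι → A) (m : ι) :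
    ∑ σ : Equiv.Perm ι, Equiv.Perm.sign σ •
      D (σ m) (∏ j ∈ Finset.univ.erase m, D (σ j) (G j)) = 0 := by
  simp only [leib_prod _ (hd _), Finset.smul_sum]
  rw [Finset.sum_comm]
  refine Finset.sum_eq_zero fun j hj => ?_
  have hjm : j ≠ m := Finset.ne_of_mem_erase hj
  refine Finset.sum_involution (fun σ _ => σ * Equiv.swap m j) (fun σ _ => ?_)
    (fun σ _ _ => ?_) (fun _ _ => Finset.mem_univ _) (fun σ _ => ?_)
  · have h1 : ∏ k ∈ (Finset.univ.erase m).erase j, D ((σ * Equiv.swap m j) k) (G k) =
        ∏ k ∈ (Finset.univ.erase m).erase j, D (σ k) (G k) := by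
      refine Finset.prod_congr rfl fun k hk => ?_
      have h2 := Finset.mem_erase.1 hk
      rw [Equiv.Perm.mul_apply,
        Equiv.swap_apply_of_ne_of_ne (Finset.ne_of_mem_erase h2.2) h2.1]
    rw [h1, Equiv.Perm.sign_mul, Equiv.Perm.sign_swap hjm.symm, Equiv.Perm.mul_apply,
      Equiv.Perm.mul_apply, Equiv.swap_apply_left, Equiv.swap_apply_right, hc (σ j) (σ m),
      mul_neg, mul_one, Units.neg_smul, add_neg_cancel]
  · intro h
    have h1 := congrArg Equiv.Perm.sign h
    rw [Equiv.Perm.sign_mul, Equiv.Perm.sign_swap hjm.symm, mul_neg, mul_one] at h1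
    rcases Int.units_eq_one_or (Equiv.Perm.sign σ) with h2 | h2 <;> rw [h2] at h1 <;>
      exact absurd h1 (by decide)
  · rw [mul_assoc, Equiv.swap_mul_self, mul_one]

theorem det_div (hd : ∀ i a b, D i (a * b) = D i a * b + a * D i b)
    (hc : ∀ i j a, D i (D j a) = D j (D i a)) (G : ι → A) (m : ι) :
    (Matrix.of fun i j => D i (G j)).det = ∑ σ : Equiv.Perm ι, Equiv.Perm.sign σ •
      D (σ m) (G m * ∏ j ∈ Finset.univ.erase m, D (σ j) (G j)) := by
  have h := piola D hd hc G m
  have h2 : ∑ σ : Equiv.Perm ι, Equiv.Perm.sign σ •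
      (G m * D (σ m) (∏ j ∈ Finset.univ.erase m, D (σ j) (G j))) = 0 := by
    simp only [← mul_smul_comm, ← Finset.mul_sum]
    rw [h, mul_zero]
  simp only [hd, smul_add, Finset.sum_add_distrib]
  rw [h2, add_zero, Matrix.det_apply]
  refine Finset.sum_congr rfl fun σ _ => ?_
  rw [← Finset.mul_prod_erase _ _ (Finset.mem_univ m)]
  rfl

theorem det_upd (H : ι → A) (m : ι) (a b : A) :
    (Matrix.of fun i j => D i (Function.update H m a j)).det -
      (Matrix.of fun i j => D i (Function.update H m b j)).det =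
      (Matrix.of fun i j => D i (Function.update H m (a - b) j)).det := by
  have h : ∀ c, (Matrix.of fun i j => D i (Function.update H m c j)) =
      Matrix.updateCol (Matrix.of fun i j => D i (H j)) m fun i => D i c := by
    intro c
    ext i j
    by_cases hj : j = m
    · subst hj
      simp
    · simp [hj]
  rw [h, h, h, sub_eq_iff_eq_add, ← Matrix.det_updateCol_add]
  congr 2
  funext i
  simp

theorem det_sub_mem (hd : ∀ i a b, D i (a * b) = D i a * b + a * D i b)
    (hc : ∀ i j a, D i (D j a) = D j (D i a)) (N : AddSubgroup A) (G G' : ι → A)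
    (hN : ∀ i j a, D i ((G j - G' j) * a) ∈ N) :
    (Matrix.of fun i j => D i (G j)).det - (Matrix.of fun i j => D i (G' j)).det ∈ N := by
  have key : ∀ s : Finset ι, (Matrix.of fun i j => D i (if j ∈ s then G j else G' j)).det -
      (Matrix.of fun i j => D i (G' j)).det ∈ N := by
    intro s
    induction s using Finset.induction_on with
    | empty => simp
    | insert m s hm ih =>
      have h1 : (fun j => if j ∈ insert m s then G j else G' j) =
          Function.update (fun j => if j ∈ s then G j else G' j) m (G m) := by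
        funext j
        by_cases hj : j = m
        · subst hj
          simp
        · simp [hj]
      have h2 : (fun j => if j ∈ s then G j else G' j) =
          Function.update (fun j => if j ∈ s then G j else G' j) m (G' m) := by
        funext j
        by_cases hj : j = m
        · subst hj
          simp [hm]
        · simp [hj]
      have h3 := det_upd D (fun j => if j ∈ s then G j else G' j) m (G m) (G' m)
      rw [← h1, ← h2, det_div D hd hc (Function.update _ m (G m - G' m)) m,
        Function.update_self] at h3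
      have h4 := N.add_mem (h3 ▸ N.sum_mem fun σ _ => N.zsmul_mem (hN _ _ _) _) ih
      rwa [sub_add_sub_cancel] at h4
  simpa using key Finset.univ

end alg

section smooth

variable {X : Type} [NormedAddCommGroup X] [NormedSpace ℝ X]

/-- the algebra of smooth complex valued functions -/
def smA (X : Type) [NormedAddCommGroup X] [NormedSpace ℝ X] : Subalgebra ℂ (X → ℂ) where
  carrier := {f | ContDiff ℝ ∞ f}
  mul_mem' := fun {f g} (hf : ContDiff ℝ ∞ f) (hg : ContDiff ℝ ∞ g) =>
    show ContDiff ℝ ∞ (fun x => f x * g x) from hf.mul hg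
  add_mem' := fun {f g} (hf : ContDiff ℝ ∞ f) (hg : ContDiff ℝ ∞ g) =>
    show ContDiff ℝ ∞ (fun x => f x + g x) from hf.add hg
  algebraMap_mem' := fun r => show ContDiff ℝ ∞ (fun _ : X => r) from contDiff_const

theorem sm (f : smA X) : ContDiff ℝ ∞ f.1 := f.2

theorem df (f : smA X) (x : X) : DifferentiableAt ℝ f.1 x :=
  (sm f).differentiable (by simp) x

theorem contDiff_dir {Y : Type} [NormedAddCommGroup Y] [NormedSpace ℝ Y] {F : X → Y}
    (hF : ContDiff ℝ ∞ F) (v : X) : ContDiff ℝ ∞ fun p => fderiv ℝ F p v :=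
  (hF.fderiv_right (m := ∞) (by simp)).clm_apply contDiff_const

/-- directional derivative -/
noncomputable def dc (v : X) : smA X →ₗ[ℂ] smA X where
  toFun f := ⟨fun x => fderiv ℝ f.1 x v, contDiff_dir (sm f) v⟩
  map_add' f g := Subtype.ext (funext fun x => by
    change fderiv ℝ (f.1 + g.1) x v = fderiv ℝ f.1 x v + fderiv ℝ g.1 x v
    rw [fderiv_add (df f x) (df g x)]
    rfl)
  map_smul' c f := Subtype.ext (funext fun x => by
    change fderiv ℝ (c • f.1) x v = c • fderiv ℝ f.1 x v
    rw [fderiv_const_smul (df f x)]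
    rfl)

theorem dc_mul (v : X) (f g : smA X) : dc v (f * g) = dc v f * g + f * dc v g :=
  Subtype.ext (funext fun x => by
    change fderiv ℝ (f.1 * g.1) x v = fderiv ℝ f.1 x v * g.1 x + f.1 x * fderiv ℝ g.1 x v
    rw [fderiv_mul (df f x) (df g x)]
    simp only [_root_.add_apply, _root_.smul_apply, smul_eq_mul]
    ring)

theorem dc_comm (v w : X) (f : smA X) : dc v (dc w f) = dc w (dc v f) :=
  Subtype.ext (funext fun p => by
    change fderiv ℝ (fun q => fderiv ℝ f.1 q w) p v = fderiv ℝ (fun q => fderiv ℝ f.1 q v) p w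
    have h1 : DifferentiableAt ℝ (fderiv ℝ f.1) p :=
      (((sm f).fderiv_right (m := ∞) (by simp)).differentiable (by simp)) p
    have h2 : ∀ u u', fderiv ℝ (fun q => fderiv ℝ f.1 q u) p u' =
        fderiv ℝ (fderiv ℝ f.1) p u' u := by
      intro u u'
      rw [fderiv_clm_apply h1 (differentiableAt_const u)]
      simp
    rw [h2, h2]
    have h3 : (2 : WithTop ℕ∞) ≤ (∞ : WithTop ℕ∞) :=
      WithTop.coe_le_coe.mpr (le_top : (2 : ℕ∞) ≤ ⊤)
    exact ((sm f).contDiffAt.isSymmSndFDerivAt (by simpa using h3)).eq v w)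

/-- a real smooth function as a complex one -/
def cx (W : X → ℝ) (h : ContDiff ℝ ∞ W) : smA X :=
  ⟨fun z => (W z : ℂ), Complex.ofRealCLM.contDiff.comp h⟩

theorem dc_cx (W : X → ℝ) (h : ContDiff ℝ ∞ W) (v : X) :
    dc v (cx W h) = cx (fun z => fderiv ℝ W z v) (contDiff_dir h v) :=
  Subtype.ext (funext fun z => by
    change fderiv ℝ (Complex.ofRealCLM ∘ W) z v = _
    rw [fderiv_comp z Complex.ofRealCLM.differentiableAt (h.differentiable (by simp) z),
      ContinuousLinearMap.fderiv]
    rfl)

/-- evaluation at a point -/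
def ev (x : X) : smA X →ₐ[ℂ] ℂ := (Pi.evalAlgHom ℂ (fun _ : X => ℂ) x).comp (smA X).val

end smooth

variable {n : ℕ}

/-- real basis vectors -/
def ex (i : Fin n) : CX n := (Pi.single i 1, 0)

/-- imaginary basis vectors -/
def ey (i : Fin n) : CX n := (0, Pi.single i 1)

/-- the holomorphic derivative -/
noncomputable def DD (i : Fin n) : smA (CX n) →ₗ[ℂ] smA (CX n) :=
  dc (ex i) - Complex.I • dc (ey i)

/-- the antiholomorphic derivative -/
noncomputable def Db (i : Fin n) : smA (CX n) →ₗ[ℂ] smA (CX n) :=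
  dc (ex i) + Complex.I • dc (ey i)

theorem DD_mul (i : Fin n) (f g : smA (CX n)) : DD i (f * g) = DD i f * g + f * DD i g := by
  simp only [DD, LinearMap.sub_apply, LinearMap.smul_apply, dc_mul]
  simp only [Algebra.smul_def]
  ring

theorem DD_comm (i j : Fin n) (f : smA (CX n)) : DD i (DD j f) = DD j (DD i f) := by
  simp only [DD, LinearMap.sub_apply, LinearMap.smul_apply, map_sub, map_smul]
  rw [dc_comm (ex i) (ex j), dc_comm (ex i) (ey j), dc_comm (ey i) (ex j), dc_comm (ey i) (ey j)]
  module

theorem det_levi {W : CX n → ℝ} (h : ContDiff ℝ ∞ W) (z : CX n) :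
    (levi W z).det = (Matrix.of fun i j => DD i (Db j (cx W h))).det.1 z := by
  change _ = ev z _
  rw [AlgHom.map_det]
  congr 1
  ext i j
  simp only [DD, Db, LinearMap.sub_apply, LinearMap.add_apply, LinearMap.smul_apply, map_add,
    map_smul, dc_cx, AlgHom.mapMatrix_apply, Matrix.map_apply, Matrix.of_apply, map_sub, levi,
    smul_eq_mul]
  change _ = ((Dx i (Dx j W) z : ℝ) : ℂ) - Complex.I * ((Dy i (Dx j W) z : ℝ) : ℂ) +
    Complex.I * (((Dx i (Dy j W) z : ℝ) : ℂ) - Complex.I * ((Dy i (Dy j W) z : ℝ) : ℂ))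
  push_cast
  linear_combination (((Dy i (Dy j W) z : ℝ) : ℂ)) * Complex.I_mul_I

/-- compactly supported functions of integral zero -/
noncomputable def NN (n : ℕ) : Submodule ℂ (smA (CX n)) where
  carrier := {f | HasCompactSupport f.1 ∧ ∫ z, f.1 z = 0}
  add_mem' := fun {f g} hf hg => ⟨hf.1.add hg.1, by
    change ∫ z, (f.1 z + g.1 z) = 0
    rw [integral_add ((sm f).continuous.integrable_of_hasCompactSupport hf.1)
      ((sm g).continuous.integrable_of_hasCompactSupport hg.1), hf.2, hg.2, add_zero]⟩
  zero_mem' := ⟨HasCompactSupport.zero, by simp⟩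
  smul_mem' := fun c f hf => ⟨hf.1.mono fun z hz => by
      intro h0
      exact hz (by change c • f.1 z = 0; rw [h0, smul_zero]), by
    change ∫ z, c • f.1 z = 0
    rw [integral_smul, hf.2, smul_zero]⟩

theorem dc_mem (v : CX n) (f : smA (CX n)) (hf : HasCompactSupport f.1) : dc v f ∈ NN n := by
  have h1 : HasCompactSupport (dc v f).1 := hf.fderiv_apply ℝ v
  refine ⟨h1, ?_⟩
  have : (volume : Measure (CX n)).IsAddHaarMeasure := Measure.prod.instIsAddHaarMeasure _ _
  have h2 := integral_mul_fderiv_eq_neg_fderiv_mul_of_integrable (μ := (volume : Measure (CX n)))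
    (f := fun _ => (1 : ℂ)) (g := f.1) (v := v) (by simp)
    (by
      simp only [one_mul]
      exact (sm (dc v f)).continuous.integrable_of_hasCompactSupport h1)
    (by simpa using (sm f).continuous.integrable_of_hasCompactSupport hf)
    (fun _ _ => differentiableAt_const _) (fun x _ => df f x)
  simp only [one_mul, fderiv_fun_const, Pi.zero_apply, _root_.zero_apply, zero_mul,
    integral_zero, neg_zero] at h2
  exact h2

end Null

open Null in
/-- the complex Monge-Ampere density is a null Lagrangian -/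
theorem integral_det_levi_sub {n : ℕ} {W₁ W₂ : CX n → ℝ} (h₁ : ContDiff ℝ ∞ W₁)
    (h₂ : ContDiff ℝ ∞ W₂) (hc : HasCompactSupport (W₁ - W₂)) :
    ∫ z, ((levi W₁ z).det - (levi W₂ z).det) = 0 := by
  have h0 : HasCompactSupport (cx W₁ h₁ - cx W₂ h₂).1 := hc.mono fun z hz h => hz (by
    change (W₁ z : ℂ) - W₂ z = 0
    rw [← Complex.ofReal_sub]
    exact congrArg _ h)
  have h := det_sub_mem (fun i => (DD i).toAddMonoidHom) DD_mul DD_comm (NN n).toAddSubgroup
    (fun j => Db j (cx W₁ h₁)) (fun j => Db j (cx W₂ h₂)) fun i j a => by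
      have h3 : Db j (cx W₁ h₁ - cx W₂ h₂) ∈ NN n :=
        (NN n).add_mem (dc_mem _ _ h0) ((NN n).smul_mem _ (dc_mem _ _ h0))
      have h4 : HasCompactSupport ((Db j (cx W₁ h₁) - Db j (cx W₂ h₂)) * a).1 := by
        rw [← map_sub]
        exact h3.1.mul_right
      exact (NN n).sub_mem (dc_mem _ _ h4) ((NN n).smul_mem _ (dc_mem _ _ h4))
  simp only [det_levi h₁, det_levi h₂]
  exact h.2

open Null in
theorem continuous_det_levi {n : ℕ} {W : CX n → ℝ} (h : ContDiff ℝ ∞ W) :
    Continuous fun z => (levi W z).det := by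
  simp only [det_levi h]
  exact (sm _).continuous

end Vale.Agent.P248
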