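import Vale.Agent.P248.Base

open MeasureTheory Set Filter Topology Matrix
open scoped ENNReal ContDiff Real ComplexOrder Pointwise

namespace Vale.Agent.P248

variable {n : ℕ} {K : Set (Fin n → ℝ)}

theorem polar_anti {S T : Set (Fin n → ℝ)} (h : S ⊆ T) : polar T ⊆ polar S :=
  fun _ hy x hx => hy x (h hx)

theorem Polar.cont_dot (y : Fin n → ℝ) : Continuous fun x : Fin n → ℝ => y ⬝ᵥ x :=
  continuous_const.dotProduct continuous_id

theorem Polar.cont_dot' (x : Fin n → ℝ) : Continuous fun y : Fin n → ℝ => y ⬝ᵥ x :=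
  continuous_id.dotProduct continuous_const

theorem Polar.convex_half (y : Fin n → ℝ) (c : ℝ) : Convex ℝ {x : Fin n → ℝ | y ⬝ᵥ x ≤ c} := by
  intro x hx z hz a b ha hb hab
  simp only [mem_ofPred_eq, dotProduct_add, dotProduct_smul, smul_eq_mul] at hx hz ⊢
  have h1 := mul_le_mul_of_nonneg_left hx ha
  have h2 := mul_le_mul_of_nonneg_left hz hb
  have h3 : a * c + b * c = c := by rw [← add_mul, hab, one_mul]
  linarith

theorem polar_convexHull (S : Set (Fin n → ℝ)) : polar (convexHull ℝ S) = polar S := by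
  refine Subset.antisymm (polar_anti (subset_convexHull ℝ S)) fun y hy x hx => ?_
  have h : convexHull ℝ S ⊆ {x : Fin n → ℝ | y ⬝ᵥ x ≤ 1} :=
    convexHull_min (fun z hz => hy z hz) (Polar.convex_half y 1)
  exact h hx

theorem convex_polar (S : Set (Fin n → ℝ)) : Convex ℝ (polar S) := by
  intro x hx z hz a b ha hb hab
  rw [mem_polar] at hx hz ⊢
  intro w hw
  simp only [add_dotProduct, smul_dotProduct, smul_eq_mul]
  have h1 := mul_le_mul_of_nonneg_left (hx w hw) ha
  have h2 := mul_le_mul_of_nonneg_left (hz w hw) hb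
  linarith

theorem isClosed_polar (S : Set (Fin n → ℝ)) : IsClosed (polar S) := by
  have : polar S = ⋂ x ∈ S, {y : Fin n → ℝ | y ⬝ᵥ x ≤ 1} := by
    ext y
    simp only [mem_polar, mem_iInter, mem_ofPred_eq]
  rw [this]
  exact isClosed_biInter fun x _ => isClosed_le (Polar.cont_dot' x) continuous_const

theorem Body.zero_mem_interior (hK : Body K) : (0 : Fin n → ℝ) ∈ interior K := by
  obtain ⟨x, hx⟩ := hK.int
  have hx' : -x ∈ K := hK.neg x (interior_subset hx)
  have h := hK.convex.combo_interior_self_mem_interior hx hx' (a := 1 / 2) (b := 1 / 2)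
    (by norm_num) (by norm_num) (by norm_num)
  simpa using h

theorem Body.abs_le (hK : Body K) {x y : Fin n → ℝ} (hy : y ∈ polar K) (hx : x ∈ K) :
    |y ⬝ᵥ x| ≤ 1 := by
  rw [mem_polar] at hy
  have h1 := hy x hx
  have h2 := hy _ (hK.neg x hx)
  rw [dotProduct_neg] at h2
  exact _root_.abs_le.2 ⟨by linarith, h1⟩

theorem Polar.abs_dot_le (y x : Fin n → ℝ) : |y ⬝ᵥ x| ≤ n * (‖y‖ * ‖x‖) := by
  calc |y ⬝ᵥ x| ≤ ∑ i, |y i * x i| := Finset.abs_sum_le_sum_abs _ _
    _ ≤ ∑ _i : Fin n, ‖y‖ * ‖x‖ := by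
      refine Finset.sum_le_sum fun i _ => ?_
      rw [abs_mul]
      exact mul_le_mul (norm_le_pi_norm y i) (norm_le_pi_norm x i) (abs_nonneg _) (norm_nonneg _)
    _ = n * (‖y‖ * ‖x‖) := by simp

/-- the polar of a bounded set has the origin in its interior -/
theorem Polar.zero_mem_interior_polar {S : Set (Fin n → ℝ)} (hS : Bornology.IsBounded S) :
    (0 : Fin n → ℝ) ∈ interior (polar S) := by
  obtain ⟨R, hR, hRS⟩ := hS.exists_pos_norm_le
  rw [mem_interior_iff_mem_nhds, Metric.mem_nhds_iff]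
  have hpos : (0 : ℝ) < n * R + 1 := by positivity
  refine ⟨1 / (n * R + 1), by positivity, fun y hy => ?_⟩
  rw [mem_ball_zero_iff] at hy
  rw [mem_polar]
  intro x hx
  have h1 := Polar.abs_dot_le y x
  have h2 : ‖y‖ * ‖x‖ ≤ 1 / (n * R + 1) * R :=
    mul_le_mul hy.le (hRS x hx) (norm_nonneg _) (by positivity)
  have h3 : (n : ℝ) * (1 / (n * R + 1) * R) ≤ 1 := by
    rw [show (n : ℝ) * (1 / (n * R + 1) * R) = (n * R) / (n * R + 1) by ring, div_le_one hpos]
    linarith
  have h4 : (n : ℝ) * (‖y‖ * ‖x‖) ≤ n * (1 / (n * R + 1) * R) :=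
    mul_le_mul_of_nonneg_left h2 (Nat.cast_nonneg n)
  have h5 := le_abs_self (y ⬝ᵥ x)
  linarith

theorem Polar.exists_single (hK : (0 : Fin n → ℝ) ∈ interior K) :
    ∃ r : ℝ, 0 < r ∧ ∀ (i : Fin n) (s : ℝ), |s| ≤ r → Pi.single i s ∈ K := by
  rw [mem_interior_iff_mem_nhds, Metric.mem_nhds_iff] at hK
  obtain ⟨ε, hε, h⟩ := hK
  refine ⟨ε / 2, by positivity, fun i s hs => h ?_⟩
  rw [mem_ball_zero_iff, Pi.norm_single, Real.norm_eq_abs]
  linarith

theorem Polar.bounded_polar (hK : (0 : Fin n → ℝ) ∈ interior K) :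
    Bornology.IsBounded (polar K) := by
  obtain ⟨r, hr, h⟩ := Polar.exists_single hK
  rw [isBounded_iff_forall_norm_le]
  refine ⟨1 / r, fun y hy => ?_⟩
  rw [mem_polar] at hy
  rw [pi_norm_le_iff_of_nonneg (by positivity)]
  intro i
  have h1 := hy _ (h i r (by rw [abs_of_pos hr]))
  have h2 := hy _ (h i (-r) (by rw [abs_neg, abs_of_pos hr]))
  rw [dotProduct_single] at h1 h2
  rw [Real.norm_eq_abs, le_div_iff₀ hr, ← abs_of_pos hr, ← abs_mul, _root_.abs_le]
  constructor <;> linarith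

theorem Body.polar_body (hK : Body K) : Body (polar K) where
  compact := Metric.isCompact_of_isClosed_isBounded (isClosed_polar K)
    (Polar.bounded_polar hK.zero_mem_interior)
  convex := convex_polar K
  int := ⟨0, Polar.zero_mem_interior_polar hK.compact.isBounded⟩
  neg := fun y hy => by
    rw [mem_polar]
    intro x hx
    have := _root_.abs_le.1 (hK.abs_le hy hx)
    rw [neg_dotProduct]
    linarith [this.1]

theorem Polar.exists_vec (f : (Fin n → ℝ) →L[ℝ] ℝ) : ∃ y : Fin n → ℝ, ∀ x, f x = y ⬝ᵥ x := by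
  refine ⟨fun i => f (Pi.single i 1), fun x => ?_⟩
  conv_lhs => rw [← Finset.univ_sum_single x]
  rw [map_sum]
  refine Finset.sum_congr rfl fun i _ => ?_
  have : (Pi.single i (x i) : Fin n → ℝ) = x i • (Pi.single i 1 : Fin n → ℝ) := by
    rw [← Pi.single_smul, smul_eq_mul, mul_one]
  rw [this, map_smul, smul_eq_mul, mul_comm]

theorem Polar.separate {C : Set (Fin n → ℝ)} (hC : Convex ℝ C) (hcl : IsClosed C)
    {x : Fin n → ℝ} (hx : x ∉ C) :
    ∃ (y : Fin n → ℝ) (u : ℝ), (∀ z ∈ C, y ⬝ᵥ z < u) ∧ u < y ⬝ᵥ x := by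
  obtain ⟨f, u, h1, h2⟩ := geometric_hahn_banach_closed_point hC hcl hx
  obtain ⟨y, hy⟩ := Polar.exists_vec f
  exact ⟨y, u, fun z hz => hy z ▸ h1 z hz, hy x ▸ h2⟩

theorem Body.polar_polar (hK : Body K) : polar (polar K) = K := by
  refine Subset.antisymm (fun x hx => ?_) fun x hx => ?_
  · by_contra hxK
    obtain ⟨y, u, h1, h2⟩ := Polar.separate hK.convex hK.compact.isClosed hxK
    have hu : 0 < u := by simpa using h1 0 (interior_subset hK.zero_mem_interior)
    have hy : u⁻¹ • y ∈ polar K := by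
      rw [mem_polar]
      intro z hz
      rw [smul_dotProduct, smul_eq_mul, inv_mul_le_iff₀ hu, mul_one]
      exact (h1 z hz).le
    have h3 := (mem_polar.1 hx) _ hy
    rw [dotProduct_smul, smul_eq_mul, inv_mul_le_iff₀ hu, mul_one, dotProduct_comm] at h3
    linarith
  · rw [mem_polar]
    intro y hy
    rw [dotProduct_comm]
    exact (mem_polar.1 hy) x hx

theorem Body.volume_pos (hK : Body K) : 0 < volume K :=
  lt_of_lt_of_le (isOpen_interior.measure_pos volume hK.int) (measure_mono interior_subset)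

theorem Body.volume_lt_top (hK : Body K) : volume K < ⊤ :=
  hK.compact.measure_lt_top

theorem Body.volume_inter_ball_pos (hK : Body K) {x : Fin n → ℝ} (hx : x ∈ K) {δ : ℝ}
    (hδ : 0 < δ) : 0 < volume (K ∩ Metric.ball x δ) := by
  have h1 : x ∈ closure (interior K) := by
    rw [hK.convex.closure_interior_eq_closure_of_nonempty_interior hK.int]
    exact subset_closure hx
  have h2 : (interior K ∩ Metric.ball x δ).Nonempty := by
    obtain ⟨z, hz, hz'⟩ := mem_closure_iff.1 h1 _ Metric.isOpen_ball (Metric.mem_ball_self hδ)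
    exact ⟨z, hz', hz⟩
  exact lt_of_lt_of_le ((isOpen_interior.inter Metric.isOpen_ball).measure_pos volume h2)
    (measure_mono (inter_subset_inter_left _ interior_subset))

theorem Polar.smul_mem (hK : Body K) {x : Fin n → ℝ} (hx : x ∈ K) {s : ℝ} (hs : |s| ≤ 1) :
    s • x ∈ K := by
  have h := _root_.abs_le.1 hs
  have h1 := hK.convex hx (hK.neg x hx) (a := (1 + s) / 2) (b := (1 - s) / 2)
    (by linarith [h.1]) (by linarith [h.2]) (by ring)
  have h2 : ((1 + s) / 2) • x + ((1 - s) / 2) • (-x) = s • x := by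
    rw [smul_neg, ← sub_eq_add_neg, ← sub_smul]
    congr 1
    ring
  rwa [h2] at h1

theorem Body.subset_smul (hK : Body K) {t : ℝ} (ht : 1 ≤ t) : K ⊆ t • K := by
  intro x hx
  have ht0 : 0 < t := by linarith
  refine ⟨t⁻¹ • x, Polar.smul_mem hK hx ?_, ?_⟩
  · rw [abs_of_pos (inv_pos.2 ht0)]
    exact inv_le_one_of_one_le₀ ht
  · simp only
    rw [smul_smul, mul_inv_cancel₀ ht0.ne', one_smul]

theorem Body.sum_smul_mem (hK : Body K) {ι : Type} [Fintype ι] {c : ι → ℝ} {a : ι → Fin n → ℝ}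
    (ha : ∀ j, a j ∈ K) {t : ℝ} (ht : 0 < t) (hc : ∑ j, |c j| ≤ t) : ∑ j, c j • a j ∈ t • K := by
  refine ⟨t⁻¹ • ∑ j, c j • a j, ?_, ?_⟩
  · rw [← hK.polar_polar, mem_polar]
    intro y hy
    rw [smul_dotProduct, smul_eq_mul, inv_mul_le_iff₀ ht, mul_one, dotProduct_comm,
      dotProduct_sum]
    refine le_trans (Finset.sum_le_sum fun j _ => ?_) hc
    rw [dotProduct_smul, smul_eq_mul]
    calc c j * (y ⬝ᵥ a j) ≤ |c j * (y ⬝ᵥ a j)| := le_abs_self _
      _ = |c j| * |y ⬝ᵥ a j| := abs_mul _ _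
      _ ≤ |c j| * 1 := mul_le_mul_of_nonneg_left (hK.abs_le hy (ha j)) (abs_nonneg _)
      _ = |c j| := mul_one _
  · simp only
    rw [smul_smul, mul_inv_cancel₀ ht.ne', one_smul]

theorem Body.eq_zero_of_forall (hK : Body K) {y : Fin n → ℝ} (h : ∀ x ∈ K, y ⬝ᵥ x = 0) :
    y = 0 := by
  obtain ⟨r, hr, hs⟩ := Polar.exists_single hK.zero_mem_interior
  funext i
  have h1 := h _ (hs i r (by rw [abs_of_pos hr]))
  rw [dotProduct_single] at h1
  exact (mul_eq_zero.1 h1).resolve_right hr.ne'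

theorem Body.image (hK : Body K) (T : (Fin n → ℝ) ≃ₗ[ℝ] (Fin n → ℝ)) : Body (T '' K) where
  compact := hK.compact.image (T.toContinuousLinearEquiv.continuous)
  convex := hK.convex.linear_image T.toLinearMap
  int := by
    obtain ⟨x, hx⟩ := hK.int
    have h := T.toContinuousLinearEquiv.toHomeomorph.image_interior K
    have h2 : T x ∈ T.toContinuousLinearEquiv.toHomeomorph '' interior K := ⟨x, hx, rfl⟩
    rw [h] at h2
    exact ⟨T x, h2⟩
  neg := by
    rintro _ ⟨x, hx, rfl⟩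
    exact ⟨-x, hK.neg x hx, map_neg T x⟩

/-- the volume product is a linear invariant -/
theorem volume_mul_polar_image (K : Set (Fin n → ℝ)) (T : (Fin n → ℝ) ≃ₗ[ℝ] (Fin n → ℝ)) :
    volume (T '' K) * volume (polar (T '' K)) = volume K * volume (polar K) := by
  set M : Matrix (Fin n) (Fin n) ℝ := LinearMap.toMatrix' T.toLinearMap with hM
  have hT : ∀ x, T x = M *ᵥ x := fun x => by
    rw [hM, LinearMap.toMatrix'_mulVec]
    rfl
  have hdet : LinearMap.det T.toLinearMap = M.det := by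
    rw [hM, LinearMap.det_toMatrix']
  have hdet' : LinearMap.det (Matrix.toLin' Mᵀ) = M.det := by
    rw [LinearMap.det_toLin', det_transpose]
  have hne : M.det ≠ 0 := by
    rw [← hdet]
    exact (LinearEquiv.isUnit_det' T).ne_zero
  have hpol : polar (T '' K) = (Matrix.toLin' Mᵀ) ⁻¹' polar K := by
    ext y
    simp only [mem_preimage, mem_polar, forall_mem_image, toLin'_apply, hT]
    refine forall₂_congr fun x _ => ?_
    rw [mulVec_transpose, dotProduct_mulVec]
  have h1 : volume (T '' K) = ENNReal.ofReal |M.det| * volume K := by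
    rw [← hdet]
    exact Measure.addHaar_image_linearMap volume T.toLinearMap K
  have h2 : volume (polar (T '' K)) = ENNReal.ofReal |M.det⁻¹| * volume (polar K) := by
    rw [hpol, ← hdet']
    exact Measure.addHaar_preimage_linearMap volume (hdet' ▸ hne) _
  rw [h1, h2, mul_mul_mul_comm, ← ENNReal.ofReal_mul (abs_nonneg _), ← abs_mul,
    mul_inv_cancel₀ hne]
  simp

/-- a finite subset realizing the support function generates the body -/
theorem Body.convexHull_eq (hK : Body K) {S : Set (Fin n → ℝ)} (hS : S.Finite) (hSK : S ⊆ K)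
    (h : ∀ y : Fin n → ℝ, ∀ x ∈ K, ∃ v ∈ S, y ⬝ᵥ x ≤ y ⬝ᵥ v) : convexHull ℝ S = K := by
  refine Subset.antisymm (convexHull_min hSK hK.convex) fun x hx => ?_
  by_contra hxS
  obtain ⟨y, u, h1, h2⟩ := Polar.separate (convex_convexHull ℝ S)
    (hS.isCompact_convexHull ℝ).isClosed hxS
  obtain ⟨v, hv, hvy⟩ := h y x hx
  have := h1 v (subset_convexHull ℝ S hv)
  linarith

theorem CL.symm {A V : Set (Fin n → ℝ)} (h : CL A V) : CL V A where
  finA := h.finV
  finV := h.finA
  negA := h.negV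
  negV := h.negA
  pm := fun v hv a ha => by
    rw [dotProduct_comm]
    exact h.pm a ha v hv
  hullA := h.hullV
  hullV := h.hullA

theorem CL.bodyV {A V : Set (Fin n → ℝ)} (h : CL A V) : Body (convexHull ℝ V) where
  compact := h.finV.isCompact_convexHull ℝ
  convex := convex_convexHull ℝ V
  int := by
    rw [h.hullV]
    exact ⟨0, Polar.zero_mem_interior_polar h.finA.isBounded⟩
  neg := by
    intro x hx
    rw [h.hullV, mem_polar] at hx ⊢
    intro a ha
    have := hx _ (h.negA a ha)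
    rwa [dotProduct_neg, ← neg_dotProduct] at this

theorem CL.polar_hullV {A V : Set (Fin n → ℝ)} (h : CL A V) :
    polar (convexHull ℝ V) = convexHull ℝ A := by
  rw [polar_convexHull, h.hullA]

theorem CL.spanA {A V : Set (Fin n → ℝ)} (h : CL A V) {y : Fin n → ℝ}
    (hy : ∀ a ∈ A, a ⬝ᵥ y = 0) : y = 0 := by
  refine h.symm.bodyV.eq_zero_of_forall fun x hx => ?_
  have h1 : convexHull ℝ A ⊆ {x : Fin n → ℝ | y ⬝ᵥ x ≤ 0} :=
    convexHull_min (fun a ha => by
      rw [mem_ofPred_eq, dotProduct_comm, hy a ha]) (Polar.convex_half y 0)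
  have h2 : y ⬝ᵥ x ≤ 0 := h1 hx
  have h3 : y ⬝ᵥ (-x) ≤ 0 := h1 (h.symm.bodyV.neg x hx)
  rw [dotProduct_neg] at h3
  linarith

theorem CL.nonemptyA {A V : Set (Fin n → ℝ)} (h : CL A V) : A.Nonempty := by
  obtain ⟨x, hx⟩ := h.symm.bodyV.int
  exact convexHull_nonempty_iff.1 ⟨x, interior_subset hx⟩

/-- a point of the hull of A on which V takes only the values plus or minus one lies in A -/
theorem CL.mem_of_pm {A V : Set (Fin n → ℝ)} (h : CL A V) {x : Fin n → ℝ}
    (hx : ∀ v ∈ V, x ⬝ᵥ v = 1 ∨ x ⬝ᵥ v = -1) : x ∈ A := by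
  have hxA : x ∈ convexHull ℝ A := by
    rw [h.hullA, mem_polar]
    intro v hv
    rcases hx v hv with h1 | h1 <;> rw [h1]
    norm_num
  rw [mem_convexHull_iff_exists_fintype] at hxA
  obtain ⟨ι, _, w, z, hw0, hw1, hz, hsum⟩ := hxA
  obtain ⟨j, hj⟩ : ∃ j, 0 < w j := by
    by_contra hcon
    push Not at hcon
    have : ∑ i, w i ≤ 0 := Finset.sum_nonpos fun i _ => hcon i
    linarith
  have key : ∀ v ∈ V, x ⬝ᵥ v = 1 → z j ⬝ᵥ v = 1 := by
    intro v hv h1
    have hle : ∀ i, z i ⬝ᵥ v ≤ 1 := fun i => by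
      rcases h.pm _ (hz i) v hv with h2 | h2 <;> rw [h2]
      norm_num
    have h2 : ∑ i, w i * (1 - z i ⬝ᵥ v) = 0 := by
      rw [← hsum, sum_dotProduct] at h1
      simp only [smul_dotProduct, smul_eq_mul] at h1
      simp only [mul_sub, mul_one, Finset.sum_sub_distrib, hw1, h1, sub_self]
    have h3 := (Finset.sum_eq_zero_iff_of_nonneg
      (fun i _ => mul_nonneg (hw0 i) (sub_nonneg.2 (hle i)))).1 h2 j (Finset.mem_univ j)
    have h4 := (mul_eq_zero.1 h3).resolve_left hj.ne'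
    linarith
  have hzx : z j - x = 0 := by
    refine h.symm.spanA fun v hv => ?_
    rw [dotProduct_comm, sub_dotProduct]
    rcases hx v hv with h1 | h1
    · rw [key v hv h1, h1, sub_self]
    · have h2 := key _ (h.negV v hv) (by rw [dotProduct_neg, h1, neg_neg])
      rw [dotProduct_neg] at h2
      linarith
  rw [← sub_eq_zero.1 hzx]
  exact hz j

end Vale.Agent.P248
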