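import Vale.Agent.P248.Base

open MeasureTheory Set Filter Topology Matrix
open scoped ENNReal ContDiff Real ComplexOrder Pointwise

namespace Vale.Agent.P248

/-- the point of the plane attached to a real functional -/
def pt {n : ℕ} (a : Fin n → ℝ) (z : CX n) : ℂ := ⟨a ⬝ᵥ z.1, a ⬝ᵥ z.2⟩

/-- the sum of ridge functions -/
noncomputable def ridge {n : ℕ} {ι : Type} [Fintype ι] (φ : ℂ → ℝ) (a : ι → Fin n → ℝ) :
    CX n → ℝ := fun z => ∑ j, φ (pt (a j) z)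

/-- the real matrix of weighted squares of the functionals -/
noncomputable def gram {n : ℕ} {ι : Type} [Fintype ι] (a : ι → Fin n → ℝ) (c : ι → ℝ) :
    Matrix (Fin n) (Fin n) ℝ := ∑ j, c j • vecMulVec (a j) (a j)

variable {n : ℕ} {ι : Type} [Fintype ι] {φ : ℂ → ℝ} {a : ι → Fin n → ℝ}

theorem gram_psd {c : ι → ℝ} (hc : ∀ j, 0 ≤ c j) : (gram a c).PosSemidef :=
  posSemidef_sum _ fun j _ => (posSemidef_vecMulVec_self_star (a j)).smul (hc j)

/-- the point map as a continuous linear map -/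
noncomputable def Ridge_ptL (b : Fin n → ℝ) : CX n →L[ℝ] ℂ :=
  LinearMap.toContinuousLinearMap
    { toFun := pt b
      map_add' := fun z w => Complex.ext (by simp [pt]) (by simp [pt])
      map_smul' := fun t z => Complex.ext (by simp [pt]) (by simp [pt]) }

theorem Ridge_ptL_apply (b : Fin n → ℝ) (z : CX n) : Ridge_ptL b z = pt b z := rfl

theorem contDiff_ridge (hφ : ContDiff ℝ ∞ φ) : ContDiff ℝ ∞ (ridge φ a) :=
  ContDiff.sum fun j _ => hφ.comp (Ridge_ptL (a j)).contDiff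

theorem Ridge_fderiv {ψ : ℂ → ℝ} (hψ : Differentiable ℝ ψ) (c : ι → ℝ) (z v : CX n) :
    fderiv ℝ (fun z => ∑ j, c j * ψ (pt (a j) z)) z v
      = ∑ j, c j * fderiv ℝ ψ (pt (a j) z) (pt (a j) v) := by
  have h : HasFDerivAt (fun z => ∑ j, c j * ψ (pt (a j) z))
      (∑ j, c j • (fderiv ℝ ψ (pt (a j) z)).comp (Ridge_ptL (a j))) z :=
    HasFDerivAt.fun_sum fun j _ =>
      ((hψ (pt (a j) z)).hasFDerivAt.comp z (Ridge_ptL (a j)).hasFDerivAt).const_mul (c j)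
  rw [h.fderiv]
  simp [Ridge_ptL_apply]

theorem Ridge_Dx {ψ : ℂ → ℝ} (hψ : Differentiable ℝ ψ) (c : ι → ℝ) (i : Fin n) :
    Dx i (fun z => ∑ j, c j * ψ (pt (a j) z))
      = fun z => ∑ j, (c j * a j i) * dx ψ (pt (a j) z) := by
  funext z
  rw [Dx, Ridge_fderiv hψ]
  refine Finset.sum_congr rfl fun j _ => ?_
  have h : pt (a j) ((Pi.single i 1, 0) : CX n) = a j i • (1 : ℂ) :=
    Complex.ext (by simp [pt]) (by simp [pt])
  rw [h, map_smul, smul_eq_mul, mul_assoc]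
  rfl

theorem Ridge_Dy {ψ : ℂ → ℝ} (hψ : Differentiable ℝ ψ) (c : ι → ℝ) (i : Fin n) :
    Dy i (fun z => ∑ j, c j * ψ (pt (a j) z))
      = fun z => ∑ j, (c j * a j i) * dy ψ (pt (a j) z) := by
  funext z
  rw [Dy, Ridge_fderiv hψ]
  refine Finset.sum_congr rfl fun j _ => ?_
  have h : pt (a j) ((0, Pi.single i 1) : CX n) = a j i • Complex.I :=
    Complex.ext (by simp [pt]) (by simp [pt])
  rw [h, map_smul, smul_eq_mul, mul_assoc]
  rfl

theorem Ridge_diff (hφ : ContDiff ℝ ∞ φ) : Differentiable ℝ φ := hφ.differentiable (by simp)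

theorem Ridge_diff_fderiv (hφ : ContDiff ℝ ∞ φ) : Differentiable ℝ (fderiv ℝ φ) :=
  (hφ.fderiv_right (m := ∞) (by simp)).differentiable (by simp)

theorem Ridge_diff_dx (hφ : ContDiff ℝ ∞ φ) : Differentiable ℝ (dx φ) :=
  (Ridge_diff_fderiv hφ).clm_apply (differentiable_const _)

theorem Ridge_diff_dy (hφ : ContDiff ℝ ∞ φ) : Differentiable ℝ (dy φ) :=
  (Ridge_diff_fderiv hφ).clm_apply (differentiable_const _)

theorem Ridge_dx_dy (hφ : ContDiff ℝ ∞ φ) (w : ℂ) : dx (dy φ) w = dy (dx φ) w := by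
  have h : ∀ u v, fderiv ℝ (fun w => fderiv ℝ φ w v) w u = fderiv ℝ (fderiv ℝ φ) w u v := by
    intro u v
    rw [fderiv_clm_apply (Ridge_diff_fderiv hφ w) (differentiableAt_const _)]
    simp
  have hs : IsSymmSndFDerivAt ℝ φ w :=
    hφ.contDiffAt.isSymmSndFDerivAt (by
      simp only [minSmoothness_of_isRCLikeNormedField]
      exact WithTop.coe_le_coe.2 (le_top (a := (2 : ℕ∞))))
  exact (h 1 Complex.I).trans ((hs.eq _ _).trans (h Complex.I 1).symm)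

theorem Ridge_one : ridge φ a = fun z => ∑ j, (fun _ => (1 : ℝ)) j * φ (pt (a j) z) := by
  funext z
  simp [ridge]

theorem levi_ridge (hφ : ContDiff ℝ ∞ φ) (z : CX n) :
    levi (ridge φ a) z = (gram a fun j => lap φ (pt (a j) z)).map (fun t : ℝ => (t : ℂ)) := by
  ext i k
  rw [Ridge_one]
  simp only [levi, Matrix.of_apply, Ridge_Dx (Ridge_diff hφ), Ridge_Dy (Ridge_diff hφ),
    Ridge_Dx (Ridge_diff_dx hφ), Ridge_Dy (Ridge_diff_dx hφ), Ridge_Dx (Ridge_diff_dy hφ),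
    Ridge_Dy (Ridge_diff_dy hφ), Ridge_dx_dy hφ, sub_self, Complex.ofReal_zero, mul_zero, add_zero,
    Matrix.map_apply, gram, Matrix.sum_apply, Matrix.smul_apply, vecMulVec_apply, smul_eq_mul, lap]
  rw [← Finset.sum_add_distrib, Complex.ofReal_inj]
  exact Finset.sum_congr rfl fun j _ => by ring

theorem det_levi_ridge (hφ : ContDiff ℝ ∞ φ) (z : CX n) :
    (levi (ridge φ a) z).det.re = (gram a fun j => lap φ (pt (a j) z)).det := by
  rw [levi_ridge hφ]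
  have h := Complex.ofRealHom.map_det (gram a fun j => lap φ (pt (a j) z))
  exact (congrArg Complex.re h).symm

theorem dvec_ridge (hφ : ContDiff ℝ ∞ φ) (z : CX n) :
    dvec (ridge φ a) z = fun i => ∑ j,
      (((dx φ (pt (a j) z) : ℝ) : ℂ) - Complex.I * ((dy φ (pt (a j) z) : ℝ) : ℂ)) * (a j i : ℂ) := by
  funext i
  rw [Ridge_one]
  simp only [dvec, Ridge_Dx (Ridge_diff hφ), Ridge_Dy (Ridge_diff hφ)]
  push_cast
  rw [Finset.mul_sum, ← Finset.sum_sub_distrib]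
  exact Finset.sum_congr rfl fun j _ => by ring

theorem Ridge_gram_map (c : ι → ℝ) : (gram a c).map (fun t : ℝ => (t : ℂ))
    = ∑ j, (c j : ℂ) • vecMulVec (fun i => (a j i : ℂ)) (star fun i => (a j i : ℂ)) := by
  ext i k
  simp [gram, Matrix.sum_apply, vecMulVec_apply]

theorem levi_ridge_psd (hφ : ContDiff ℝ ∞ φ) {z : CX n} (h : ∀ j, 0 ≤ lap φ (pt (a j) z)) :
    (levi (ridge φ a) z).PosSemidef := by
  rw [levi_ridge hφ, Ridge_gram_map]
  exact posSemidef_sum _ fun j _ =>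
    (posSemidef_vecMulVec_self_star _).smul (Complex.zero_le_real.2 (h j))

theorem Ridge_quad (u ξ : Fin n → ℂ) :
    star ξ ⬝ᵥ (vecMulVec u (star u) *ᵥ ξ) = ((‖star ξ ⬝ᵥ u‖ ^ 2 : ℝ) : ℂ) := by
  rw [vecMulVec_mulVec, op_smul_eq_smul, dotProduct_smul, smul_eq_mul, star_dotProduct u ξ]
  rw [Complex.star_def, ← Complex.normSq_eq_conj_mul_self, Complex.normSq_eq_norm_sq]

theorem levi_ridge_log (hφ : ContDiff ℝ ∞ φ) {z : CX n} (h0 : ∀ j, 0 ≤ φ (pt (a j) z))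
    (h : ∀ j, 0 ≤ lap φ (pt (a j) z))
    (hl : ∀ j, dx φ (pt (a j) z) ^ 2 + dy φ (pt (a j) z) ^ 2
      ≤ φ (pt (a j) z) * lap φ (pt (a j) z)) :
    (((ridge φ a z : ℝ) : ℂ) • levi (ridge φ a) z
      - vecMulVec (dvec (ridge φ a) z) (star (dvec (ridge φ a) z))).PosSemidef := by
  have hr : 0 ≤ ridge φ a z := Finset.sum_nonneg fun j _ => h0 j
  refine PosSemidef.of_dotProduct_mulVec_nonneg
    (((levi_ridge_psd hφ h).smul (Complex.zero_le_real.2 hr)).1.sub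
      (posSemidef_vecMulVec_self_star _).1) fun ξ => ?_
  obtain ⟨A, hA⟩ : ∃ A : ι → Fin n → ℂ, A = fun j i => (a j i : ℂ) := ⟨_, rfl⟩
  obtain ⟨D, hD⟩ : ∃ D : ι → ℂ, D = fun j =>
    ((dx φ (pt (a j) z) : ℝ) : ℂ) - Complex.I * ((dy φ (pt (a j) z) : ℝ) : ℂ) := ⟨_, rfl⟩
  have h1 : dvec (ridge φ a) z = ∑ j, D j • A j := by
    rw [dvec_ridge hφ, hA, hD]
    funext i
    simp [Finset.sum_apply]
  have h2 : levi (ridge φ a) z
      = ∑ j, (lap φ (pt (a j) z) : ℂ) • vecMulVec (A j) (star (A j)) := by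
    rw [levi_ridge hφ, Ridge_gram_map, hA]
  have h3 : ∀ j, ‖D j‖ ^ 2 = dx φ (pt (a j) z) ^ 2 + dy φ (pt (a j) z) ^ 2 := by
    intro j
    rw [← Complex.normSq_eq_norm_sq, Complex.normSq_apply, hD]
    simp [sq]
  have h4 : ‖star ξ ⬝ᵥ dvec (ridge φ a) z‖ ≤ ∑ j, ‖D j‖ * ‖star ξ ⬝ᵥ A j‖ := by
    rw [h1, dotProduct_sum]
    refine (norm_sum_le _ _).trans (Finset.sum_le_sum fun j _ => ?_)
    rw [dotProduct_smul, smul_eq_mul, norm_mul]
  have h5 : (∑ j, ‖D j‖ * ‖star ξ ⬝ᵥ A j‖) ^ 2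
      ≤ ridge φ a z * ∑ j, lap φ (pt (a j) z) * ‖star ξ ⬝ᵥ A j‖ ^ 2 := by
    refine Finset.sum_sq_le_sum_mul_sum_of_sq_le_mul _ (fun j _ => h0 j)
      (fun j _ => mul_nonneg (h j) (sq_nonneg _)) fun j _ => ?_
    rw [mul_pow, h3, ← mul_assoc]
    exact mul_le_mul_of_nonneg_right (hl j) (sq_nonneg _)
  have h6 := (pow_le_pow_left₀ (norm_nonneg _) h4 2).trans h5
  rw [sub_mulVec, dotProduct_sub, Ridge_quad, smul_mulVec, dotProduct_smul, h2, sum_mulVec,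
    dotProduct_sum]
  simp only [smul_mulVec, dotProduct_smul, Ridge_quad, smul_eq_mul]
  exact_mod_cast sub_nonneg.2 h6

theorem ridge_vanish {η : ℝ} {k : ℕ} (hW : Weight η k φ) :
    ∃ C δ : ℝ, 0 < δ ∧ ∀ z : CX n, ‖z‖ ≤ δ → ridge φ a z ≤ C * ‖z‖ ^ (2 * k) := by
  obtain ⟨C, δ, hδ, h⟩ := hW.vanish
  obtain ⟨B, hB, hB'⟩ : ∃ B : ℝ, 0 < B ∧ ∀ j z, ‖pt (a j) z‖ ≤ B * ‖z‖ := by
    refine ⟨1 + ∑ j, ‖Ridge_ptL (a j)‖, by positivity, fun j z => ?_⟩
    refine ((Ridge_ptL (a j)).le_opNorm z).trans (mul_le_mul_of_nonneg_right ?_ (norm_nonneg _))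
    have := Finset.single_le_sum (f := fun j => ‖Ridge_ptL (a j)‖) (fun _ _ => norm_nonneg _)
      (Finset.mem_univ j)
    linarith
  refine ⟨∑ _j : ι, |C| * B ^ (2 * k), δ / B, by positivity, fun z hz => ?_⟩
  rw [Finset.sum_mul]
  refine Finset.sum_le_sum fun j _ => ?_
  rw [le_div_iff₀ hB] at hz
  refine (h _ ((hB' j z).trans (by linarith))).trans ?_
  rw [mul_assoc, ← mul_pow]
  exact mul_le_mul (le_abs_self C) (pow_le_pow_left₀ (norm_nonneg _) (hB' j z) _)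
    (by positivity) (abs_nonneg C)

/-- a spanning family controls the norm -/
theorem exists_norm_le (ha : ∀ y, (∀ j, a j ⬝ᵥ y = 0) → y = 0) :
    ∃ C : ℝ, 0 < C ∧ ∀ (y : Fin n → ℝ) (t : ℝ), 0 ≤ t → (∀ j, |a j ⬝ᵥ y| ≤ t) → ‖y‖ ≤ C * t := by
  obtain ⟨K, hK, h⟩ := (Matrix.of a).mulVecLin.exists_antilipschitzWith
    (LinearMap.ker_eq_bot'.2 fun y hy => ha y fun j => congrFun hy j)
  refine ⟨K, hK, fun y t ht hy => ?_⟩
  refine (h.le_mul_norm (map_zero _) y).trans (mul_le_mul_of_nonneg_left ?_ K.2)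
  exact (pi_norm_le_iff_of_nonneg ht).2 hy

end Vale.Agent.P248
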