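import Vale.Agent.P248.Base
import Vale.Agent.P248.ConfA

open MeasureTheory Set Filter Topology Matrix
open scoped ENNReal ContDiff Real ComplexOrder Pointwise

namespace Vale.Agent.P248

theorem weightA_fderiv {h : ℂ → ℂ} {w : ℂ} (hh : DifferentiableAt ℂ h w) (v : ℂ) :
    fderiv ℝ h w v = deriv h w * v := by
  rw [(hh.hasDerivAt.hasFDerivAt.restrictScalars ℝ).fderiv]
  simp [mul_comm]

theorem weightA_inner {h k : ℂ → ℂ} {w : ℂ} (hh : DifferentiableAt ℂ h w)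
    (hk : DifferentiableAt ℂ k w) (v : ℂ) :
    fderiv ℝ (fun z => 2 * inner ℝ (h z) (k z)) w v
      = 2 * (inner ℝ (h w) (deriv k w * v) + inner ℝ (deriv h w * v) (k w)) := by
  have h1 := hh.restrictScalars ℝ
  have h2 := hk.restrictScalars ℝ
  rw [fderiv_const_mul (h1.inner ℝ h2), _root_.smul_apply,
    fderiv_inner_apply ℝ h1 h2, weightA_fderiv hh, weightA_fderiv hk, smul_eq_mul]

theorem weightA_normSq {h : ℂ → ℂ} {w : ℂ} (hh : DifferentiableAt ℂ h w) (v : ℂ) :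
    fderiv ℝ (fun z => ‖h z‖ ^ 2) w v = 2 * inner ℝ (h w) (deriv h w * v) := by
  have h1 := hh.restrictScalars ℝ
  have e : (fun z => ‖h z‖ ^ 2) = fun z => inner ℝ (h z) (h z) := by
    funext z; rw [real_inner_self_eq_norm_sq]
  rw [e, fderiv_inner_apply ℝ h1 h1, weightA_fderiv hh, real_inner_comm (h w)]
  ring

/-- Laplacian of the squared modulus of a holomorphic function -/
theorem lap_normSq {φ : ℂ → ℝ} {h : ℂ → ℂ} {w : ℂ} (hh : ∀ᶠ z in 𝓝 w, DifferentiableAt ℂ h z)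
    (hφ : φ =ᶠ[𝓝 w] fun z => ‖h z‖ ^ 2) : lap φ w = 4 * ‖deriv h w‖ ^ 2 := by
  have han : AnalyticAt ℂ h w := Complex.analyticAt_iff_eventually_differentiableAt.2 hh
  have hd : DifferentiableAt ℂ (deriv h) w := han.deriv.differentiableAt
  have key : ∀ v : ℂ, (fun z => fderiv ℝ φ z v) =ᶠ[𝓝 w]
      fun z => 2 * inner ℝ (h z) (deriv h z * v) := by
    intro v
    filter_upwards [hh, hφ.eventuallyEq_nhds] with z h1 h2
    rw [h2.fderiv_eq, weightA_normSq h1]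
  have k : ∀ v : ℂ, fderiv ℝ (fun z => fderiv ℝ φ z v) w v
      = 2 * (inner ℝ (h w) (deriv (deriv h) w * v * v) + ‖deriv h w * v‖ ^ 2) := by
    intro v
    rw [(key v).fderiv_eq, weightA_inner hh.self_of_nhds (hd.mul_const v), deriv_mul_const hd,
      real_inner_self_eq_norm_sq]
  have k1 := k 1
  have k2 := k Complex.I
  unfold lap dx dy
  rw [k1, k2, mul_assoc _ Complex.I, Complex.I_mul_I, mul_neg_one, inner_neg_right]
  simp only [mul_one, norm_mul, Complex.norm_I]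
  ring

/-- gradient of the squared modulus of a holomorphic function -/
theorem grad_normSq {φ : ℂ → ℝ} {h : ℂ → ℂ} {w : ℂ} (hh : DifferentiableAt ℂ h w)
    (hφ : φ =ᶠ[𝓝 w] fun z => ‖h z‖ ^ 2) :
    dx φ w ^ 2 + dy φ w ^ 2 = 4 * ‖h w‖ ^ 2 * ‖deriv h w‖ ^ 2 := by
  unfold dx dy
  rw [hφ.fderiv_eq, weightA_normSq hh, weightA_normSq hh, Complex.sq_norm, Complex.sq_norm]
  simp [Complex.inner, Complex.normSq_apply]
  ring

theorem weightA_contDiff_dir {φ : ℂ → ℝ} (hφ : ContDiff ℝ ∞ φ) (v : ℂ) :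
    ContDiff ℝ ∞ (fun w => fderiv ℝ φ w v) :=
  (hφ.fderiv_right (m := ∞) (by simp)).clm_apply contDiff_const

theorem contDiff_lap {φ : ℂ → ℝ} (hφ : ContDiff ℝ ∞ φ) : ContDiff ℝ ∞ (lap φ) :=
  (weightA_contDiff_dir (weightA_contDiff_dir hφ 1) 1).add
    (weightA_contDiff_dir (weightA_contDiff_dir hφ Complex.I) Complex.I)

theorem Conf.weightA_ne {F g : ℂ → ℂ} (h : Conf F g) {ζ : ℂ} (hζ : ζ ∈ Metric.ball (0 : ℂ) 1) :
    deriv F ζ ≠ 0 := by
  intro h0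
  have := h.re_pos ζ hζ
  rw [h0] at this
  simp at this

theorem Conf.deriv_g {F g : ℂ → ℂ} (h : Conf F g) {w : ℂ} (hw : w ∈ Omega)
    (hO : IsOpen Omega) : deriv g w = (deriv F (g w))⁻¹ ∧ deriv F (g w) ≠ 0 := by
  have hne := h.weightA_ne (h.mapsg hw)
  refine ⟨HasDerivAt.deriv ?_, hne⟩
  apply HasDerivAt.of_local_left_inverse (f := F)
    (h.diffg.differentiableAt (hO.mem_nhds hw)).continuousAt
    (h.diffF.differentiableAt (Metric.isOpen_ball.mem_nhds (h.mapsg hw))).hasDerivAt hne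
  filter_upwards [hO.mem_nhds hw] with z hz
  exact h.right z hz

theorem Conf.weightA_vert {F g : ℂ → ℂ} (h : Conf F g) (hO : IsOpen Omega) {s t : ℝ}
    (hw : (⟨s, t⟩ : ℂ) ∈ Omega) :
    HasDerivAt (fun τ : ℝ => g ⟨s, τ⟩) ((deriv F (g ⟨s, t⟩))⁻¹ * Complex.I) t := by
  have e : ∀ τ : ℝ, (⟨s, τ⟩ : ℂ) = s + τ * Complex.I := fun τ => by
    apply Complex.ext <;> simp
  have h1 : HasDerivAt (fun z : ℂ => (s : ℂ) + z * Complex.I) Complex.I (t : ℂ) := by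
    have := ((hasDerivAt_id (t : ℂ)).mul_const Complex.I).const_add (s : ℂ)
    simpa using this
  have h2 : HasDerivAt g (deriv F (g ⟨s, t⟩))⁻¹ ((s : ℂ) + t * Complex.I) := by
    rw [← (h.deriv_g hw hO).1, ← e]
    exact (h.diffg.differentiableAt (hO.mem_nhds hw)).hasDerivAt
  have h3 := (h2.comp (t : ℂ) h1).comp_ofReal
  have e2 : (fun τ : ℝ => g ⟨s, τ⟩) = fun y : ℝ => (g ∘ fun z : ℂ => (s : ℂ) + z * Complex.I) y := by
    funext τ; simp [e]
  rw [e2]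
  exact h3

/-- vertical derivative of the squared modulus of g -/
theorem Conf.hasDerivAt_normSq {F g : ℂ → ℂ} (h : Conf F g) (hO : IsOpen Omega) {s t : ℝ}
    (hw : (⟨s, t⟩ : ℂ) ∈ Omega) :
    HasDerivAt (fun τ : ℝ => ‖g ⟨s, τ⟩‖ ^ 2)
      (2 * (g ⟨s, t⟩ * deriv F (g ⟨s, t⟩)).im / ‖deriv F (g ⟨s, t⟩)‖ ^ 2) t := by
  refine (h.weightA_vert hO hw).norm_sq.congr_deriv ?_
  rw [Complex.sq_norm]
  simp [Complex.inner, Complex.inv_re, Complex.inv_im]
  ring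

/-- vertical derivative of the imaginary part of g -/
theorem Conf.hasDerivAt_im {F g : ℂ → ℂ} (h : Conf F g) (hO : IsOpen Omega) {s t : ℝ}
    (hw : (⟨s, t⟩ : ℂ) ∈ Omega) :
    HasDerivAt (fun τ : ℝ => (g ⟨s, τ⟩).im)
      ((deriv F (g ⟨s, t⟩)).re / ‖deriv F (g ⟨s, t⟩)‖ ^ 2) t := by
  have := Complex.imCLM.hasFDerivAt.comp_hasDerivAt t (h.weightA_vert hO hw)
  refine this.congr_deriv ?_
  rw [Complex.sq_norm]
  simp [Complex.inv_re]

theorem Conf.weightA_im {F g : ℂ → ℂ} (h : Conf F g) {ζ : ℂ} (hζ : ζ ∈ Metric.ball (0 : ℂ) 1) :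
    (ζ * deriv F ζ).im = 4 / π ^ 2 * ((1 + ζ) / (1 - ζ)).arg := by
  rw [h.formula ζ hζ, Complex.im_ofReal_mul, Complex.log_im]

theorem Conf.im_mul_nonneg {F g : ℂ → ℂ} (h : Conf F g) {ζ : ℂ} (hζ : ‖ζ‖ < 1)
    (him : 0 ≤ ζ.im) : 0 ≤ (ζ * deriv F ζ).im := by
  have hζ' : ζ ∈ Metric.ball (0 : ℂ) 1 := by simpa using hζ
  rw [h.weightA_im hζ']
  have : 0 ≤ ((1 + ζ) / (1 - ζ)).arg := by
    rw [Complex.arg_nonneg_iff, confA_im hζ']
    have := confA_normSq_pos hζ'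
    positivity
  positivity

theorem weightA_re_eq {ζ : ℂ} :
    ((1 + ζ) / (1 - ζ)).re = (1 - ‖ζ‖ ^ 2) / Complex.normSq (1 - ζ) := by
  rw [Complex.div_re, ← add_div, Complex.sq_norm, Complex.normSq_apply ζ]
  congr 1
  simp
  ring

theorem weightA_corner {ζ : ℂ} (hζ : ζ ∈ Metric.ball (0 : ℂ) 1) {m : ℝ} (hm0 : 0 < m)
    (hm : m ≤ 1 / 2) (ha : 1 - |ζ.re| ≤ m) (hb : ζ.im ^ 2 ≤ m ^ 2) :
    -Real.log m / 4 ≤ (confA_G ζ).re * ζ.re := by
  unfold confA_G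
  rw [Complex.log_re]
  have h1 := confA_normSq_pos hζ
  have h1' := confA_normSq_pos (confA_neg_mem hζ)
  rw [sub_neg_eq_add] at h1'
  have hsq := confA_sq_lt hζ
  have hn : 2 * Real.log ‖(1 + ζ) / (1 - ζ)‖
      = Real.log (Complex.normSq (1 + ζ)) - Real.log (Complex.normSq (1 - ζ)) := by
    rw [← Real.log_div h1'.ne' h1.ne', ← map_div₀, ← Complex.sq_norm, Real.log_pow]
    norm_num
  have e1 : Complex.normSq (1 + ζ) = (1 + ζ.re) ^ 2 + ζ.im ^ 2 := by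
    simp [Complex.normSq_apply]; ring
  have e2 : Complex.normSq (1 - ζ) = (1 - ζ.re) ^ 2 + ζ.im ^ 2 := by
    simp [Complex.normSq_apply]; ring
  have hlm : 0 ≤ -Real.log m := by
    have := Real.log_nonpos hm0.le (by linarith)
    linarith
  rcases le_total 0 ζ.re with h2 | h2
  · rw [abs_of_nonneg h2] at ha
    have k0 : 0 ≤ 1 - ζ.re := by nlinarith
    have k1 : 0 ≤ Real.log (Complex.normSq (1 + ζ)) := Real.log_nonneg (by rw [e1]; nlinarith)
    have k2 : Real.log (Complex.normSq (1 - ζ)) ≤ Real.log m :=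
      Real.log_le_log h1 (by rw [e2]; nlinarith)
    have k3 : -Real.log m / 2 ≤ Real.log ‖(1 + ζ) / (1 - ζ)‖ := by linarith
    nlinarith
  · rw [abs_of_nonpos h2] at ha
    have k0 : 0 ≤ 1 + ζ.re := by nlinarith
    have k1 : 0 ≤ Real.log (Complex.normSq (1 - ζ)) := Real.log_nonneg (by rw [e2]; nlinarith)
    have k2 : Real.log (Complex.normSq (1 + ζ)) ≤ Real.log m :=
      Real.log_le_log h1' (by rw [e1]; nlinarith)
    have k3 : -Real.log m / 2 ≤ -Real.log ‖(1 + ζ) / (1 - ζ)‖ := by linarith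
    nlinarith

/-- good region, interior region, and the two small lenses at the corners -/
theorem Conf.trichotomy {F g : ℂ → ℂ} (h : Conf F g) {η : ℝ} (hη : 0 < η) :
    ∃ T : ℝ, 0 < T ∧ ∀ L : ℝ, ∃ δ : ℝ, 0 < δ ∧ δ < 1 ∧ ∀ ζ : ℂ, ‖ζ‖ < 1 → 0 ≤ ζ.im →
      2 / (π * (1 + η)) ≤ (ζ * deriv F ζ).im ∨ ‖ζ‖ ^ 2 ≤ 1 - δ ∨
        (2 * ζ.im ≤ T * (1 - ‖ζ‖ ^ 2) ∧ L ≤ (deriv F ζ).re) := by
  have hπ := Real.pi_pos
  have hc0 : 0 < π / (2 * (1 + η)) := by positivity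
  have hc1 : π / (2 * (1 + η)) < π / 2 := by
    apply div_lt_div_of_pos_left hπ (by norm_num)
    linarith
  have hT := Real.tan_pos_of_pos_of_lt_pi_div_two hc0 hc1
  set T := Real.tan (π / (2 * (1 + η))) with hTdef
  refine ⟨T, hT, fun L => ?_⟩
  set m := min (1 / 2) (Real.exp (-(π ^ 2 * |L|))) with hm
  have hm0 : 0 < m := lt_min (by norm_num) (Real.exp_pos _)
  have hm1 : m ≤ 1 / 2 := min_le_left _ _
  have hm2 : Real.log m ≤ -(π ^ 2 * |L|) := by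
    rw [Real.log_le_iff_le_exp hm0]; exact min_le_right _ _
  have hδm : m / (1 + T) * (1 + T) = m := by field_simp
  have hδ0 : 0 < m / (1 + T) := by positivity
  set δ := m / (1 + T) with hδ
  refine ⟨δ, hδ0, by nlinarith, fun ζ hζ him => ?_⟩
  have hζ' : ζ ∈ Metric.ball (0 : ℂ) 1 := by simpa using hζ
  have hN := confA_normSq_pos hζ'
  have hn2 : ‖ζ‖ ^ 2 = ζ.re ^ 2 + ζ.im ^ 2 := by
    rw [Complex.sq_norm, Complex.normSq_apply]; ring
  have hsq := confA_sq_lt hζ'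
  by_cases h1 : 2 * ζ.im ≤ T * (1 - ‖ζ‖ ^ 2)
  · right
    by_cases h2 : ‖ζ‖ ^ 2 ≤ 1 - δ
    · exact Or.inl h2
    right
    refine ⟨h1, ?_⟩
    push Not at h2
    have hb : ζ.im ≤ T * δ := by nlinarith
    have hb1 : ζ.im ≤ 1 := by nlinarith
    have ha1 : |ζ.re| ≤ 1 := by
      rw [abs_le]; constructor <;> nlinarith
    have ha : 1 - |ζ.re| ≤ m := by
      have := sq_abs ζ.re
      nlinarith [abs_nonneg ζ.re]
    have hbm : ζ.im ^ 2 ≤ m ^ 2 := by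
      have : ζ.im ≤ m := by nlinarith
      gcongr
    have k1 := weightA_corner hζ' hm0 hm1 ha hbm
    have hζ0 : ζ ≠ 0 := by
      rintro rfl
      simp at ha
      linarith
    have k2 : deriv F ζ = (4 / π ^ 2 : ℝ) * (confA_G ζ / ζ) := by
      have := h.formula ζ hζ'
      unfold confA_G
      field_simp
      rw [mul_comm, this]
    have k3 : 0 ≤ (confA_G ζ).im * ζ.im := by
      by_cases h0 : ζ.im = 0
      · rw [h0, mul_zero]
      · exact (confA_G_im_mul hζ' h0).le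
    rw [k2, Complex.re_ofReal_mul, Complex.div_re, ← add_div]
    have k4 : 0 < Complex.normSq ζ := Complex.normSq_pos.2 hζ0
    have k5 : Complex.normSq ζ ≤ 1 := by rw [Complex.normSq_apply]; nlinarith
    have k6 : π ^ 2 * |L| / 4 ≤ (confA_G ζ).re * ζ.re + (confA_G ζ).im * ζ.im := by linarith
    have k7 : π ^ 2 * |L| / 4
        ≤ ((confA_G ζ).re * ζ.re + (confA_G ζ).im * ζ.im) / Complex.normSq ζ := by
      rw [le_div_iff₀ k4]
      have : 0 ≤ π ^ 2 * |L| / 4 := by positivity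
      nlinarith
    calc L ≤ |L| := le_abs_self L
      _ = 4 / π ^ 2 * (π ^ 2 * |L| / 4) := by field_simp
      _ ≤ _ := by gcongr
  · left
    push Not at h1
    rw [h.weightA_im hζ']
    have k1 : π / (2 * (1 + η)) ≤ ((1 + ζ) / (1 - ζ)).arg := by
      by_contra hc
      push Not at hc
      have k2 := (abs_lt.1 (Complex.abs_arg_lt_pi_div_two_iff.2 (Or.inl (confA_re hζ')))).1
      have k3 := Real.tan_lt_tan_of_lt_of_lt_pi_div_two k2 hc1 hc
      rw [Complex.tan_arg, confA_im hζ', weightA_re_eq, div_div_div_cancel_right₀ hN.ne',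
        div_lt_iff₀ (by linarith)] at k3
      linarith
    calc 2 / (π * (1 + η)) = 4 / π ^ 2 * (π / (2 * (1 + η))) := by field_simp; ring
      _ ≤ _ := by gcongr

/-- the inverse derivative is bounded on smaller discs -/
theorem Conf.inv_deriv_bound {F g : ℂ → ℂ} (h : Conf F g) {δ : ℝ} (hδ : 0 < δ) :
    ∃ M : ℝ, 0 ≤ M ∧ ∀ ζ : ℂ, ‖ζ‖ ^ 2 ≤ 1 - δ → 1 / ‖deriv F ζ‖ ^ 2 ≤ M := by
  have hsub : {ζ : ℂ | ‖ζ‖ ^ 2 ≤ 1 - δ} ⊆ Metric.ball 0 1 := by
    intro ζ hζ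
    simp only [mem_ofPred_eq] at hζ
    rw [mem_ball_zero_iff]
    nlinarith [norm_nonneg ζ]
  have hK : IsCompact {ζ : ℂ | ‖ζ‖ ^ 2 ≤ 1 - δ} :=
    Metric.isCompact_of_isClosed_isBounded (isClosed_le (by fun_prop) continuous_const)
      (Metric.isBounded_ball.subset hsub)
  have hc : ContinuousOn (fun ζ => 1 / ‖deriv F ζ‖ ^ 2) {ζ : ℂ | ‖ζ‖ ^ 2 ≤ 1 - δ} := by
    have h1 := ((h.diffF.deriv Metric.isOpen_ball).continuousOn).mono hsub
    refine continuousOn_const.div (h1.norm.pow 2) fun ζ hζ => ?_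
    exact pow_ne_zero 2 (norm_ne_zero_iff.2 (h.weightA_ne (hsub hζ)))
  obtain ⟨M, hM⟩ := hK.exists_bound_of_continuousOn hc
  refine ⟨max M 0, le_max_right _ _, fun ζ hζ => ?_⟩
  exact ((le_abs_self _).trans (hM ζ hζ)).trans (le_max_left _ _)

end Vale.Agent.P248
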