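import Vale.Agent.P248.Ridge
import Vale.Agent.P248.WeightA
import Vale.Agent.P248.Smax

open MeasureTheory Set Filter Topology Matrix
open scoped ENNReal ContDiff Real ComplexOrder Pointwise

namespace Vale.Agent.P248

variable {n : ℕ} {ι : Type} [Fintype ι] {φ : ℂ → ℝ} {a : ι → Fin n → ℝ}

theorem hasDerivAt_Psi (hφ : ContDiff ℝ ∞ φ) (s t : ℝ) :
    HasDerivAt (Psi φ s) (max (lap φ ⟨s, t⟩) 0) t := by
  have h1 : Continuous fun τ : ℝ => (⟨s, τ⟩ : ℂ) := by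
    have h : (fun τ : ℝ => (⟨s, τ⟩ : ℂ)) = fun τ : ℝ => (s : ℂ) + τ * Complex.I := by
      funext τ
      exact Complex.ext (by simp) (by simp)
    rw [h]
    fun_prop
  have h2 : Continuous fun τ : ℝ => max (lap φ ⟨s, τ⟩) 0 :=
    ((contDiff_lap hφ).continuous.comp h1).max continuous_const
  exact (h2.integral_hasStrictDerivAt 0 t).hasDerivAt

theorem Psi_monotone (hφ : ContDiff ℝ ∞ φ) (s : ℝ) : Monotone (Psi φ s) :=
  monotone_of_deriv_nonneg (fun t => (hasDerivAt_Psi hφ s t).differentiableAt) fun t => by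
    rw [(hasDerivAt_Psi hφ s t).deriv]
    exact le_max_right _ _

theorem Psi_mul_nonneg (hφ : ContDiff ℝ ∞ φ) (s t : ℝ) : 0 ≤ Psi φ s t * t := by
  have h0 : Psi φ s 0 = 0 := by simp [Psi]
  rcases le_total 0 t with h | h
  · exact mul_nonneg (h0 ▸ Psi_monotone hφ s h) h
  · exact mul_nonneg_of_nonpos_of_nonpos (h0 ▸ Psi_monotone hφ s h) h

/-- the gradient map on a vertical slice -/
noncomputable def gmap (φ : ℂ → ℝ) (a : ι → Fin n → ℝ) (c ε : ℝ) (x y : Fin n → ℝ) : Fin n → ℝ :=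
  ∑ j, (c * (Psi φ (a j ⬝ᵥ x) (a j ⬝ᵥ y) + ε * (a j ⬝ᵥ y))) • a j

theorem gmap_injective (hφ : ContDiff ℝ ∞ φ) (ha : ∀ y, (∀ j, a j ⬝ᵥ y = 0) → y = 0) {c ε : ℝ}
    (hc : 0 < c) (hε : 0 < ε) (x : Fin n → ℝ) : Function.Injective (gmap φ a c ε x) := by
  intro y y' h
  have h1 : (gmap φ a c ε x y - gmap φ a c ε x y') ⬝ᵥ (y - y') = 0 := by simp [h]
  have h2 : (gmap φ a c ε x y - gmap φ a c ε x y') ⬝ᵥ (y - y') =
      ∑ j, c * ((Psi φ (a j ⬝ᵥ x) (a j ⬝ᵥ y) - Psi φ (a j ⬝ᵥ x) (a j ⬝ᵥ y')) *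
        (a j ⬝ᵥ y - a j ⬝ᵥ y') + ε * (a j ⬝ᵥ y - a j ⬝ᵥ y') ^ 2) := by
    rw [gmap, gmap, ← Finset.sum_sub_distrib, sum_dotProduct]
    refine Finset.sum_congr rfl fun j _ => ?_
    rw [← sub_smul, smul_dotProduct, dotProduct_sub, smul_eq_mul]
    ring
  have h3 : ∀ j, 0 ≤ (Psi φ (a j ⬝ᵥ x) (a j ⬝ᵥ y) - Psi φ (a j ⬝ᵥ x) (a j ⬝ᵥ y')) *
      (a j ⬝ᵥ y - a j ⬝ᵥ y') := fun j => by
    rcases le_total (a j ⬝ᵥ y) (a j ⬝ᵥ y') with h | h
    · exact mul_nonneg_of_nonpos_of_nonpos (sub_nonpos.2 (Psi_monotone hφ _ h)) (sub_nonpos.2 h)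
    · exact mul_nonneg (sub_nonneg.2 (Psi_monotone hφ _ h)) (sub_nonneg.2 h)
  rw [h2, Finset.sum_eq_zero_iff_of_nonneg fun j _ => by have := h3 j; positivity] at h1
  refine sub_eq_zero.1 (ha _ fun j => ?_)
  have h4 := (mul_eq_zero.1 (h1 j (Finset.mem_univ j))).resolve_left hc.ne'
  have h5 : ε * (a j ⬝ᵥ y - a j ⬝ᵥ y') ^ 2 ≤ 0 := by linarith [h3 j]
  have h6 : (a j ⬝ᵥ y - a j ⬝ᵥ y') ^ 2 = 0 :=
    le_antisymm (nonpos_of_mul_nonpos_right h5 hε) (sq_nonneg _)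
  rw [dotProduct_sub]
  exact pow_eq_zero_iff two_ne_zero |>.1 h6

theorem Slice_hasFDerivAt (hφ : ContDiff ℝ ∞ φ) (c ε : ℝ) (x y : Fin n → ℝ) :
    HasFDerivAt (gmap φ a c ε x) (LinearMap.toContinuousLinearMap (Matrix.toLin'
      (c • gram a fun j => max (lap φ (pt (a j) (x, y))) 0 + ε))) y := by
  have h1 : ∀ j, ∃ l : (Fin n → ℝ) →L[ℝ] ℝ, ∀ v, l v = a j ⬝ᵥ v := fun j =>
    ⟨LinearMap.toContinuousLinearMap (dotProductBilin ℝ ℝ (a j)), fun _ => rfl⟩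
  choose l hl using h1
  have h2 : HasFDerivAt (gmap φ a c ε x)
      (∑ j, ((c * (max (lap φ (pt (a j) (x, y))) 0 + ε)) • l j).smulRight (a j)) y := by
    refine HasFDerivAt.fun_sum fun j _ => HasFDerivAt.smul_const ?_ (a j)
    have h3 : HasDerivAt (fun t => c * (Psi φ (a j ⬝ᵥ x) t + ε * t))
        (c * (max (lap φ (pt (a j) (x, y))) 0 + ε)) (l j y) := by
      have h4 := ((hasDerivAt_Psi hφ (a j ⬝ᵥ x) (a j ⬝ᵥ y)).add
        ((hasDerivAt_id (a j ⬝ᵥ y)).const_mul ε)).const_mul c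
      rw [mul_one] at h4
      rw [hl]
      exact h4
    have h5 := h3.comp_hasFDerivAt y (l j).hasFDerivAt
    refine h5.congr_of_eventuallyEq (Eventually.of_forall fun v => ?_)
    simp [hl]
  refine h2.congr_fderiv (ContinuousLinearMap.ext fun v => ?_)
  simp only [_root_.sum_apply, ContinuousLinearMap.smulRight_apply,
    _root_.smul_apply, hl, LinearMap.coe_toContinuousLinearMap', Matrix.toLin'_apply,
    gram, smul_mulVec, sum_mulVec, vecMulVec_mulVec, op_smul_eq_smul, Finset.smul_sum, smul_smul,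
    smul_eq_mul, mul_assoc]

/-- change of variables on a slice -/
theorem slice_bound (hφ : ContDiff ℝ ∞ φ) (ha : ∀ y, (∀ j, a j ⬝ᵥ y = 0) → y = 0) {c ε : ℝ}
    (hc : 0 < c) (hε : 0 < ε) (x : Fin n → ℝ) {S : Set (Fin n → ℝ)} (hS : MeasurableSet S)
    (hlap : ∀ y ∈ S, ∀ j, 0 ≤ lap φ (pt (a j) (x, y))) :
    ENNReal.ofReal (c ^ n) *
        ∫⁻ y in S, ENNReal.ofReal (gram a fun j => lap φ (pt (a j) (x, y))).det
      ≤ volume (gmap φ a c ε x '' S) := by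
  rw [← lintegral_abs_det_fderiv_eq_addHaar_image volume hS
    (fun y _ => (Slice_hasFDerivAt hφ c ε x y).hasFDerivWithinAt)
    (gmap_injective hφ ha hc hε x).injOn, ← lintegral_const_mul' _ _ ENNReal.ofReal_ne_top]
  refine setLIntegral_mono' hS fun y hy => ?_
  rw [← ENNReal.ofReal_mul (by positivity)]
  refine ENNReal.ofReal_le_ofReal (le_trans ?_ (le_abs_self _))
  rw [LinearMap.det_toContinuousLinearMap, LinearMap.det_toLin', det_smul, Fintype.card_fin]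
  refine mul_le_mul_of_nonneg_left ?_ (by positivity)
  have h1 : (gram a fun j => max (lap φ (pt (a j) (x, y))) 0 + ε)
      = (gram a fun j => lap φ (pt (a j) (x, y))) + gram a fun _ => ε := by
    rw [gram, gram, gram, ← Finset.sum_add_distrib]
    refine Finset.sum_congr rfl fun j _ => ?_
    rw [max_eq_left (hlap y hy j), add_smul]
  rw [h1]
  exact det_le_det_add (gram_psd (hlap y hy)) (gram_psd fun _ => hε.le)

end Vale.Agent.P248
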